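import Vale.Agent.Lib.P308.H27.Defs

/-!
Existence of an augmenting path for a near-perfect matching in a graph with a perfect matching:
follow the permutation `g ∘ f` from the hole `u` until it hits the other hole.
-/

namespace Vale.Agent.Lib.P308.H27

variable {V : Type*} [Finite V]

theorem exists_ap {G : SimpleGraph V} {g f : V → V} {u v : V} (hn : IsNPM G g u v)
    (hf : IsPM G f) : ∃ t e, IsAP G g u v t e := by
  obtain ⟨huv, hgu, hgv, hinv, hadjg⟩ := hn
  have hfinv : ∀ x, f (f x) = x := fun x => (hf x).2
  have hfne : ∀ x, f x ≠ x := fun x => (hf x).1.ne'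
  -- fixed points of `g`
  have hfix : ∀ x, g x = x → x = u ∨ x = v := by
    intro x hx
    by_contra hcon
    push Not at hcon
    exact (hadjg x hcon.1 hcon.2).ne' hx
  have hginj : Function.Injective g := fun x y hxy => by
    have := congrArg g hxy
    rwa [hinv, hinv] at this
  have hfinj : Function.Injective f := fun x y hxy => by
    have := congrArg f hxy
    rwa [hfinv, hfinv] at this
  -- the permutation and its orbit
  set σ : V → V := fun x => g (f x) with hσ
  have hσinj : Function.Injective σ := fun x y hxy => hfinj (hginj hxy)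
  set a : ℕ → V := fun m => σ^[m] u with ha
  have ha0 : a 0 = u := rfl
  have hasucc : ∀ m, a (m + 1) = g (f (a m)) := fun m => by
    simp only [ha, Function.iterate_succ_apply']
    rfl
  have haadd : ∀ i j, a (i + j) = σ^[i] (a j) := fun i j => by
    simp only [ha, Function.iterate_add_apply]
  -- the orbit returns to `u`
  have hret : ∃ m, 1 ≤ m ∧ g (a m) = a m := by
    obtain ⟨i, j, hij, hEq⟩ := Finite.exists_ne_map_eq_of_infinite a
    rcases lt_or_gt_of_ne hij with hlt | hlt
    · refine ⟨j - i, by omega, ?_⟩
      have h1 : a j = σ^[i] (a (j - i)) := by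
        rw [← haadd]
        congr 1
        omega
      have h2 : a i = σ^[i] (a 0) := haadd i 0
      have h3 : a (j - i) = a 0 := (hσinj.iterate i) (by rw [← h1, ← h2, hEq])
      rw [h3, ha0, hgu]
    · refine ⟨i - j, by omega, ?_⟩
      have h1 : a i = σ^[j] (a (i - j)) := by
        rw [← haadd]
        congr 1
        omega
      have h2 : a j = σ^[j] (a 0) := haadd j 0
      have h3 : a (i - j) = a 0 := (hσinj.iterate j) (by rw [← h1, ← h2, hEq])
      rw [h3, ha0, hgu]
  classical
  set m₀ := Nat.find hret with hm₀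
  have hm₀1 : 1 ≤ m₀ := (Nat.find_spec hret).1
  have hm₀g : g (a m₀) = a m₀ := (Nat.find_spec hret).2
  have hmin : ∀ m, 1 ≤ m → m < m₀ → g (a m) ≠ a m := fun m h1 h2 h3 =>
    Nat.find_min hret h2 ⟨h1, h3⟩
  -- the reflected orbit
  have hb : ∀ m, σ (g (a (m + 1))) = g (a m) := by
    intro m
    simp only [hσ]
    rw [hasucc, hinv, hfinv]
  have hbiter : ∀ j m, σ^[j] (g (a (m + j))) = g (a m) := by
    intro j
    induction j with
    | zero => intro m; rfl
    | succ j ih =>
      intro m
      rw [Function.iterate_succ_apply]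
      have : m + (j + 1) = (m + j) + 1 := by omega
      rw [this, hb, ih]
  -- the first fixed point on the orbit is `v`
  have hav : a m₀ = v := by
    rcases hfix _ hm₀g with h | h
    · exfalso
      -- reflection: g (a m) = a (m₀ - m)
      have hrefl : ∀ m, m ≤ m₀ → g (a m) = a (m₀ - m) := by
        intro m hm
        have h1 := hbiter (m₀ - m) m
        have h2 : m + (m₀ - m) = m₀ := by omega
        rw [h2, hm₀g, h] at h1
        rw [← h1]
      rcases Nat.even_or_odd' m₀ with ⟨c, hc | hc⟩
      · have h1 := hrefl c (by omega)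
        have h2 : m₀ - c = c := by omega
        rw [h2] at h1
        exact hmin c (by omega) (by omega) h1
      · have h1 := hrefl (c + 1) (by omega)
        have h2 : m₀ - (c + 1) = c := by omega
        rw [h2, hasucc, hinv] at h1
        exact hfne _ h1
    · exact h
  -- distinctness of the orbit up to `m₀`
  have hadist : ∀ i j, i < j → j ≤ m₀ → a i ≠ a j := by
    intro i j hij hj hEq
    have h1 : a j = σ^[i] (a (j - i)) := by
      rw [← haadd]
      congr 1
      omega
    have h2 : a i = σ^[i] (a 0) := haadd i 0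
    have h3 : a (j - i) = a 0 := (hσinj.iterate i) (by rw [← h1, ← h2, hEq])
    have h4 : g (a (j - i)) = a (j - i) := by rw [h3, ha0, hgu]
    have h5 : m₀ ≤ j - i := Nat.find_min' hret ⟨by omega, h4⟩
    have h6 : j - i = m₀ := by omega
    rw [h6, hav, ha0] at h3
    exact huv h3.symm
  have hane : ∀ i j, i ≠ j → i ≤ m₀ → j ≤ m₀ → a i ≠ a j := by
    intro i j hij hi hj
    rcases lt_or_gt_of_ne hij with h | h
    · exact hadist i j h hj
    · exact fun hh => hadist j i h hi hh.symm
  -- `g (a i) ≠ a j` for `i ≠ j`
  have hcross : ∀ i j, i ≠ j → i ≤ m₀ → j ≤ m₀ → g (a i) ≠ a j := by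
    intro i j hij hi hj hEq
    have h1 : σ^[i] (g (a (0 + i))) = g (a 0) := hbiter i 0
    rw [zero_add, hEq, ← haadd, ha0, hgu] at h1
    -- a (i + j) = u
    by_cases hs : i + j ≤ m₀
    · exact hadist 0 (i + j) (by omega) hs (by rw [ha0, h1])
    · -- a (i + j) = g (a (2 m₀ - (i + j)))
      have h2 : a (i + j) = σ^[i + j - m₀] (a m₀) := by
        rw [← haadd]
        congr 1
        omega
      have h3 := hbiter (i + j - m₀) (2 * m₀ - (i + j))
      have h4 : 2 * m₀ - (i + j) + (i + j - m₀) = m₀ := by omega
      rw [h4, hm₀g] at h3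
      rw [h3] at h2
      rw [h1] at h2
      have h5 : a (2 * m₀ - (i + j)) = u := by
        have := congrArg g h2
        rw [hgu, hinv] at this
        exact this.symm
      exact hadist 0 (2 * m₀ - (i + j)) (by omega) (by omega) (by rw [ha0, h5])
  refine ⟨m₀ - 1, fun m => (g (a m), a m), ?_, ?_, ?_, ?_, ?_⟩
  · simp only [ha0, hgu]
  · have : m₀ - 1 + 1 = m₀ := by omega
    simp only [this, hav, hgv]
  · intro m h1 h2
    exact ⟨hinv _, hmin m h1 (by omega)⟩
  · intro m hm
    simp only
    rw [hasucc, hinv]
    exact (hf (a m)).1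
  · intro m m' hlt hle
    have hm' : m' ≤ m₀ := by omega
    have hm : m ≤ m₀ := by omega
    refine ⟨?_, ?_, ?_, ?_⟩
    · exact fun h => hane m m' (by omega) hm hm' (hginj h)
    · exact hcross m m' (by omega) hm hm'
    · exact fun h => hcross m' m (by omega) hm' hm h.symm
    · exact hane m m' (by omega) hm hm'

end Vale.Agent.Lib.P308.H27
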