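import Vale.Agent.Lib.P308.H27.Stat

/-!
Bounds for the first-collision expansion on a regular graph with a spectral gap: every term is at
most `2 d ^ T / n`, because some segment of the walk is long enough to mix.
-/

namespace Vale.Agent.Lib.P308.H27

open Finset

variable {V : Type*} [Fintype V] [DecidableEq V] (G : SimpleGraph V) [DecidableRel G.Adj]

/-- The standing assumptions: `d`-regular, second eigenvalue at most `lam ≤ d` in absolute
value, and `L` steps mix to accuracy `1 / n`. -/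
structure MixHyp (d L : ℕ) (lam : ℝ) : Prop where
  reg : G.IsRegularOfDegree d
  lam0 : 0 ≤ lam
  lamd : lam ≤ d
  spec : ∀ x : V → ℝ, ∑ v, x v = 0 →
    ∑ v, (∑ w ∈ G.neighborFinset v, x w) ^ 2 ≤ lam ^ 2 * ∑ v, x v ^ 2
  mixL : lam ^ L * Fintype.card V ≤ (d : ℝ) ^ L

variable {G} {d L : ℕ} {lam : ℝ}

omit [DecidableEq V] in
theorem MixHyp.lam_pow (H : MixHyp G d L lam) {m : ℕ} (hm : L ≤ m) :
    lam ^ m * Fintype.card V ≤ (d : ℝ) ^ m := by
  obtain ⟨k, rfl⟩ := Nat.exists_eq_add_of_le hm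
  rw [pow_add, pow_add]
  calc lam ^ L * lam ^ k * (Fintype.card V : ℝ) = (lam ^ L * Fintype.card V) * lam ^ k := by ring
    _ ≤ (d : ℝ) ^ L * lam ^ k := mul_le_mul_of_nonneg_right H.mixL (pow_nonneg H.lam0 k)
    _ ≤ (d : ℝ) ^ L * (d : ℝ) ^ k :=
      mul_le_mul_of_nonneg_left (pow_le_pow_left₀ H.lam0 H.lamd k) (by positivity)

omit [DecidableEq V] in
/-- After at least `L` steps every value of a non-negative function is at most twice the
uniform value. -/
theorem mix_up (H : MixHyp G d L lam) {g : V → V} (hinv : ∀ x, g (g x) = x) {m : ℕ}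
    (hm : L ≤ m) (χ : V → ℝ) (hχ : ∀ y, 0 ≤ χ y) (z : V) :
    (Dop G g)^[m] χ z ≤ 2 * (d : ℝ) ^ m * (∑ y, χ y) / Fintype.card V := by
  have hn : 0 < Fintype.card V := Fintype.card_pos_iff.mpr ⟨z⟩
  have hnpos : (0 : ℝ) < Fintype.card V := by exact_mod_cast hn
  have h1 := mix G H.reg H.lam0 H.spec hinv m χ hχ z
  have h2 := (abs_le.mp h1).2
  have hS : 0 ≤ ∑ y, χ y := Finset.sum_nonneg (fun y _ => hχ y)
  have h3 : lam ^ m ≤ (d : ℝ) ^ m / Fintype.card V := by
    rw [le_div_iff₀ hnpos]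
    exact H.lam_pow hm
  have h4 : lam ^ m * ∑ y, χ y ≤ (d : ℝ) ^ m / Fintype.card V * ∑ y, χ y :=
    mul_le_mul_of_nonneg_right h3 hS
  have h5 : (d : ℝ) ^ m * ((∑ y, χ y) / Fintype.card V)
      + (d : ℝ) ^ m / Fintype.card V * ∑ y, χ y
      = 2 * (d : ℝ) ^ m * (∑ y, χ y) / Fintype.card V := by
    field_simp
    ring
  linarith

omit [DecidableEq V] in
theorem sum_tg (hreg : G.IsRegularOfDegree d) (v : V) : ∑ y, tg G v y = d := by
  unfold tg
  rw [Finset.sum_boole]
  have h1 : Finset.univ.filter (fun y => G.Adj y v) = G.neighborFinset v := by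
    ext y
    rw [Finset.mem_filter, G.mem_neighborFinset]
    exact ⟨fun h => h.2.symm, fun h => ⟨Finset.mem_univ _, h.symm⟩⟩
  rw [h1, G.card_neighborFinset_eq_degree, hreg.degree_eq v]

omit [DecidableEq V] in
theorem Wf_le (hreg : G.IsRegularOfDegree d) (g : V → V) (v : V) (m : ℕ) (c : V) :
    Wf G g v m c ≤ (d : ℝ) ^ m := by
  have h := iter_le_const G hreg g m (tg_le_one G v) c
  rw [mul_one] at h
  exact h

omit [DecidableEq V] in
theorem Wf_mix (H : MixHyp G d L lam) {g : V → V} (hinv : ∀ x, g (g x) = x) (v : V) {m : ℕ}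
    (hm : L ≤ m) (c : V) : Wf G g v m c ≤ 2 * (d : ℝ) ^ m * d / Fintype.card V := by
  have h := mix_up H hinv hm (tg G v) (tg_nonneg G v) c
  rw [sum_tg H.reg] at h
  exact h

omit [DecidableEq V] in
theorem sum_Wf (hreg : G.IsRegularOfDegree d) {g : V → V} (hinv : ∀ x, g (g x) = x) (v : V)
    (m : ℕ) : ∑ y, Wf G g v m y = (d : ℝ) ^ m * d := by
  unfold Wf
  rw [iter_sum G hreg hinv, sum_tg hreg]

omit [DecidableRel G.Adj] in
theorem sum_dl (c : V) : ∑ y, dl c y = 1 := by
  unfold dl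
  simp

theorem Dop_dl_le {g : V → V} (hinv : ∀ x, g (g x) = x) (c y : V) : Dop G g (dl c) y ≤ 1 := by
  rw [Dop_apply]
  unfold dl
  rw [Finset.sum_boole]
  have h1 : ((G.neighborFinset y).filter (fun w => g w = c)).card ≤ 1 := by
    apply Finset.card_le_one.mpr
    intro a ha b hb
    rw [Finset.mem_filter] at ha hb
    have h2 : g a = g b := ha.2.trans hb.2.symm
    calc a = g (g a) := (hinv a).symm
      _ = g (g b) := by rw [h2]
      _ = b := hinv b
  exact_mod_cast h1

theorem iter_dl_le (hreg : G.IsRegularOfDegree d) {g : V → V} (hinv : ∀ x, g (g x) = x)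
    (j : ℕ) (c y : V) : (Dop G g)^[j + 1] (dl c) y ≤ (d : ℝ) ^ j := by
  rw [Function.iterate_succ_apply]
  have h := iter_le_const G hreg g j (Dop_dl_le (G := G) hinv c) y
  rw [mul_one] at h
  exact h

theorem iter_dl_mix (H : MixHyp G d L lam) {g : V → V} (hinv : ∀ x, g (g x) = x) {j : ℕ}
    (hj : L ≤ j + 1) (c y : V) :
    (Dop G g)^[j + 1] (dl c) y ≤ 2 * (d : ℝ) ^ (j + 1) / Fintype.card V := by
  have h := mix_up H hinv hj (dl c) (dl_nonneg c) y
  rw [sum_dl, mul_one] at h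
  exact h

theorem inner_eq (g : V → V) (v : V) (j m' : ℕ) (c y : V) :
    (Dop G g)^[j] (fun y' => Dop G g (dl c) y' * Wf G g v m' c) y
      = Wf G g v m' c * (Dop G g)^[j + 1] (dl c) y := by
  have h1 : (fun y' => Dop G g (dl c) y' * Wf G g v m' c)
      = fun y' => Wf G g v m' c * Dop G g (dl c) y' := by
    funext y'
    ring
  have h2 := congrFun (iter_smul G g j (Wf G g v m' c) (Dop G g (dl c))) y
  rw [h1, Function.iterate_succ_apply]
  exact h2

/-- A walk that visits a given vertex: the part before or the part after the visit mixes. -/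
theorem fev (H : MixHyp G d L lam) {g : V → V} (hinv : ∀ x, g (g x) = x) (v : V) {m i T : ℕ}
    (hT : m + i + 1 = T) (h2L : 2 * L ≤ T) (c z : V) :
    (Dop G g)^[i] (fun y => Dop G g (dl c) y * Wf G g v m c) z
      ≤ 2 * (d : ℝ) ^ T / Fintype.card V := by
  rw [inner_eq]
  have hD0 : 0 ≤ (Dop G g)^[i + 1] (dl c) z := iter_nonneg G g (i + 1) (dl_nonneg c) z
  by_cases hm : L ≤ m
  · have h1 := Wf_mix H hinv v hm c
    have h2 := iter_dl_le H.reg hinv i c z
    calc Wf G g v m c * (Dop G g)^[i + 1] (dl c) z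
        ≤ (2 * (d : ℝ) ^ m * d / Fintype.card V) * (d : ℝ) ^ i :=
          mul_le_mul h1 h2 hD0 (by positivity)
      _ = 2 * (d : ℝ) ^ T / Fintype.card V := by
        rw [← hT]
        ring
  · have hi : L ≤ i + 1 := by omega
    have h1 := Wf_le H.reg g v m c
    have h2 := iter_dl_mix H hinv hi c z
    calc Wf G g v m c * (Dop G g)^[i + 1] (dl c) z
        ≤ (d : ℝ) ^ m * (2 * (d : ℝ) ^ (i + 1) / Fintype.card V) :=
          mul_le_mul h1 h2 hD0 (by positivity)
      _ = 2 * (d : ℝ) ^ T / Fintype.card V := by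
        rw [← hT]
        ring

/-- A walk that returns to an earlier vertex (`ρ` the identity) or to the partner of an earlier
vertex (`ρ` the matching): the part before, between or after the two visits mixes. -/
theorem ev (H : MixHyp G d L lam) {g : V → V} (hinv : ∀ x, g (g x) = x) (v : V) (ρ : V → V)
    (hρ : ∀ f : V → ℝ, ∑ y, f (ρ y) = ∑ y, f y) {m' j i T : ℕ}
    (hT : m' + j + 1 + (i + 1) = T) (h3L : 3 * L ≤ T) (z : V) :
    (Dop G g)^[i + 1]
        (fun y => (Dop G g)^[j] (fun y' => Dop G g (dl (ρ y)) y' * Wf G g v m' (ρ y)) y) z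
      ≤ 2 * (d : ℝ) ^ T / Fintype.card V := by
  have h0 : (fun y => (Dop G g)^[j] (fun y' => Dop G g (dl (ρ y)) y' * Wf G g v m' (ρ y)) y)
      = fun y => Wf G g v m' (ρ y) * (Dop G g)^[j + 1] (dl (ρ y)) y :=
    funext (fun y => inner_eq g v j m' (ρ y) y)
  rw [h0]
  have hD0 : ∀ y, 0 ≤ (Dop G g)^[j + 1] (dl (ρ y)) y :=
    fun y => iter_nonneg G g (j + 1) (dl_nonneg (ρ y)) y
  by_cases hm : L ≤ m'
  · have hb : ∀ y, Wf G g v m' (ρ y) * (Dop G g)^[j + 1] (dl (ρ y)) y
        ≤ (2 * (d : ℝ) ^ m' * d / Fintype.card V) * (d : ℝ) ^ j :=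
      fun y => mul_le_mul (Wf_mix H hinv v hm (ρ y)) (iter_dl_le H.reg hinv j (ρ y) y) (hD0 y)
        (by positivity)
    calc (Dop G g)^[i + 1] (fun y => Wf G g v m' (ρ y) * (Dop G g)^[j + 1] (dl (ρ y)) y) z
        ≤ (d : ℝ) ^ (i + 1) * ((2 * (d : ℝ) ^ m' * d / Fintype.card V) * (d : ℝ) ^ j) :=
          iter_le_const G H.reg g (i + 1) hb z
      _ = 2 * (d : ℝ) ^ T / Fintype.card V := by
        rw [← hT]
        ring
  · by_cases hj : L ≤ j + 1
    · have hb : ∀ y, Wf G g v m' (ρ y) * (Dop G g)^[j + 1] (dl (ρ y)) y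
          ≤ (d : ℝ) ^ m' * (2 * (d : ℝ) ^ (j + 1) / Fintype.card V) :=
        fun y => mul_le_mul (Wf_le H.reg g v m' (ρ y)) (iter_dl_mix H hinv hj (ρ y) y) (hD0 y)
          (by positivity)
      calc (Dop G g)^[i + 1] (fun y => Wf G g v m' (ρ y) * (Dop G g)^[j + 1] (dl (ρ y)) y) z
          ≤ (d : ℝ) ^ (i + 1) * ((d : ℝ) ^ m' * (2 * (d : ℝ) ^ (j + 1) / Fintype.card V)) :=
            iter_le_const G H.reg g (i + 1) hb z
        _ = 2 * (d : ℝ) ^ T / Fintype.card V := by
          rw [← hT]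
          ring
    · have hi : L ≤ i + 1 := by omega
      have hb : ∀ y, Wf G g v m' (ρ y) * (Dop G g)^[j + 1] (dl (ρ y)) y
          ≤ (d : ℝ) ^ j * Wf G g v m' (ρ y) := by
        intro y
        have h1 := mul_le_mul_of_nonneg_left (iter_dl_le H.reg hinv j (ρ y) y)
          (Wf_nonneg G g v m' (ρ y))
        linarith
      have h1 := iter_mono G g (i + 1) hb z
      have h2 := mix_up H hinv hi (fun y => (d : ℝ) ^ j * Wf G g v m' (ρ y))
        (fun y => mul_nonneg (by positivity) (Wf_nonneg G g v m' (ρ y))) z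
      have hsum : ∑ y, (d : ℝ) ^ j * Wf G g v m' (ρ y) = (d : ℝ) ^ j * ((d : ℝ) ^ m' * d) := by
        rw [← Finset.mul_sum, hρ (Wf G g v m'), sum_Wf H.reg hinv]
      rw [hsum] at h2
      calc (Dop G g)^[i + 1] (fun y => Wf G g v m' (ρ y) * (Dop G g)^[j + 1] (dl (ρ y)) y) z
          ≤ (Dop G g)^[i + 1] (fun y => (d : ℝ) ^ j * Wf G g v m' (ρ y)) z := h1
        _ ≤ 2 * (d : ℝ) ^ (i + 1) * ((d : ℝ) ^ j * ((d : ℝ) ^ m' * d)) / Fintype.card V := h2
        _ = 2 * (d : ℝ) ^ T / Fintype.card V := by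
          rw [← hT]
          ring

omit [DecidableEq V] in
/-- A quantity built by adding a source at every step is at most the number of steps times a
bound for the propagated sources. -/
theorem duhamel (g : V → V) (X s : ℕ → V → ℝ) (h0 : X 0 = fun _ => 0)
    (hs : ∀ T, X (T + 1) = fun z => s T z + Dop G g (X T) z) (T0 : ℕ) (B : ℝ)
    (hB : ∀ m i, m + i + 1 = T0 → ∀ z, (Dop G g)^[i] (s m) z ≤ B) (z : V) :
    X T0 z ≤ T0 * B := by
  have key : ∀ T i, T + i = T0 → ∀ z, (Dop G g)^[i] (X T) z ≤ T * B := by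
    intro T
    induction T with
    | zero =>
      intro i _ z
      rw [h0, iter_zero]
      simp
    | succ T ih =>
      intro i hi z
      have h1 : (Dop G g)^[i] (X (T + 1)) z
          = (Dop G g)^[i] (s T) z + (Dop G g)^[i + 1] (X T) z := by
        rw [hs T]
        have h2 := congrFun (iter_add G g i (s T) (Dop G g (X T))) z
        rw [Function.iterate_succ_apply]
        exact h2
      rw [h1]
      have h3 := hB T i (by omega) z
      have h4 := ih (i + 1) (by omega) z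
      push_cast
      linarith
  have h := key T0 0 (by omega) z
  exact h

omit [DecidableEq V] in
/-- The same for a family depending on a vertex that is substituted after the propagation. -/
theorem duhamel2 (g : V → V) (X s : ℕ → V → V → ℝ) (h0 : ∀ c, X 0 c = fun _ => 0)
    (hs : ∀ m c, X (m + 1) c = fun y => s m c y + Dop G g (X m c) y) (ρ : V → V) (i : ℕ)
    (z : V) (m0 : ℕ) (B : ℝ)
    (hB : ∀ m j, m + j + 1 = m0 →
      (Dop G g)^[i] (fun y => (Dop G g)^[j] (s m (ρ y)) y) z ≤ B) :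
    (Dop G g)^[i] (fun y => X m0 (ρ y) y) z ≤ m0 * B := by
  have key : ∀ m j, m + j = m0 →
      (Dop G g)^[i] (fun y => (Dop G g)^[j] (X m (ρ y)) y) z ≤ m * B := by
    intro m
    induction m with
    | zero =>
      intro j _
      have h1 : (fun y => (Dop G g)^[j] (X 0 (ρ y)) y) = fun _ => 0 := by
        funext y
        rw [h0, iter_zero]
      rw [h1, iter_zero]
      simp
    | succ m ih =>
      intro j hj
      have h1 : (fun y => (Dop G g)^[j] (X (m + 1) (ρ y)) y)
          = fun y => (Dop G g)^[j] (s m (ρ y)) y + (Dop G g)^[j + 1] (X m (ρ y)) y := by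
        funext y
        rw [hs m (ρ y)]
        have h2 := congrFun (iter_add G g j (s m (ρ y)) (Dop G g (X m (ρ y)))) y
        rw [Function.iterate_succ_apply]
        exact h2
      rw [h1]
      have h3 := congrFun (iter_add G g i (fun y => (Dop G g)^[j] (s m (ρ y)) y)
        (fun y => (Dop G g)^[j + 1] (X m (ρ y)) y)) z
      rw [h3]
      have h4 := hB m j (by omega)
      have h5 := ih (j + 1) (by omega)
      push_cast
      linarith
  exact key m0 0 (by omega)

theorem hh_le (H : MixHyp G d L lam) {g : V → V} (hinv : ∀ x, g (g x) = x) (v : V) {T : ℕ}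
    (h2L : 2 * L ≤ T) (c z : V) :
    hh G g v T c z ≤ T * (2 * (d : ℝ) ^ T / Fintype.card V) :=
  duhamel (G := G) g (fun T => hh G g v T c) (fun m y => Dop G g (dl c) y * Wf G g v m c) rfl
    (fun _ => rfl) T _ (fun _ _ hmi z' => fev H hinv v hmi h2L c z') z

theorem psi_le (H : MixHyp G d L lam) {g : V → V} (hinv : ∀ x, g (g x) = x) (v : V) (ρ : V → V)
    (hρ : ∀ f : V → ℝ, ∑ y, f (ρ y) = ∑ y, f y) {m i T : ℕ} (hT : m + (i + 1) = T)
    (h3L : 3 * L ≤ T) (z : V) :
    (Dop G g)^[i + 1] (fun y => hh G g v m (ρ y) y) z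
      ≤ m * (2 * (d : ℝ) ^ T / Fintype.card V) :=
  duhamel2 (G := G) g (hh G g v) (fun m c y => Dop G g (dl c) y * Wf G g v m c) (fun _ => rfl)
    (fun _ _ => rfl) ρ (i + 1) z m _
    (fun m' j hmj => ev H hinv v ρ hρ (m' := m') (j := j) (i := i) (by omega) h3L z)

theorem rr_le (H : MixHyp G d L lam) {g : V → V} (hinv : ∀ x, g (g x) = x) (v : V) {T : ℕ}
    (h3L : 3 * L ≤ T) (z : V) :
    rr G g v T z ≤ T * (2 * ((T : ℝ) - 1) * (2 * (d : ℝ) ^ T / Fintype.card V)) := by
  refine duhamel (G := G) g (rr G g v) (fun m => Dop G g (fun y => hh G g v m y y + hh G g v m (g y) y))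
    rfl ?_ T _ ?_ z
  · intro m
    funext z'
    exact congrFun (Dop_add G g (fun y => hh G g v m y y + hh G g v m (g y) y) (rr G g v m)) z'
  · intro m i hmi z'
    rw [← Function.iterate_succ_apply]
    have e := congrFun (iter_add G g (i + 1) (fun y => hh G g v m y y)
      (fun y => hh G g v m (g y) y)) z'
    rw [e]
    have h1 : (Dop G g)^[i + 1] (fun y => hh G g v m y y) z'
        ≤ m * (2 * (d : ℝ) ^ T / Fintype.card V) :=
      psi_le H hinv v id (fun _ => rfl) (m := m) (i := i) (by omega) h3L z'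
    have h2 : (Dop G g)^[i + 1] (fun y => hh G g v m (g y) y) z'
        ≤ m * (2 * (d : ℝ) ^ T / Fintype.card V) :=
      psi_le H hinv v g (sum_comp_inv hinv) (m := m) (i := i) (by omega) h3L z'
    have hm : (m : ℝ) ≤ (T : ℝ) - 1 := by
      have h3 : (m : ℝ) + i + 1 = T := by exact_mod_cast hmi
      have h4 : (0 : ℝ) ≤ i := Nat.cast_nonneg i
      linarith
    have hβ : 0 ≤ 2 * (d : ℝ) ^ T / Fintype.card V := by positivity
    have h5 := mul_le_mul_of_nonneg_right hm hβ
    linarith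

/-- Every near-perfect matching has at least `d ^ (3 L + 1) / (2 n)` self-avoiding alternating
walks with `3 L` matching edges from one hole to the neighbours of the other. -/
theorem sc_lower (H : MixHyp G d L lam) {g : V → V} {u v : V} (hn : IsNPM G g u v)
    (hd : 16 * (3 * L) ^ 2 ≤ d) :
    (d : ℝ) ^ (3 * L + 1) / (2 * Fintype.card V) ≤ (sc G v g (3 * L) {u, v} u : ℝ) := by
  obtain ⟨huv, hgu, hgv, hinv, _⟩ := hn
  have hcl : ∀ x ∈ ({u, v} : Finset V), g x ∈ ({u, v} : Finset V) := by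
    intro x hx
    rw [Finset.mem_insert, Finset.mem_singleton] at hx ⊢
    rcases hx with hx | hx
    · left
      rw [hx]
      exact hgu
    · right
      rw [hx]
      exact hgv
  have h1 := sc_ge G v g hinv (3 * L) {u, v} u hcl
  rw [Finset.sum_pair huv] at h1
  have hW := mix G H.reg H.lam0 H.spec hinv (3 * L) (tg G v) (tg_nonneg G v) u
  rw [sum_tg H.reg] at hW
  have hW' := (abs_le.mp hW).1
  have hhu := hh_le H hinv v (T := 3 * L) (by omega) u u
  have hhv := hh_le H hinv v (T := 3 * L) (by omega) v u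
  have hr := rr_le H hinv v (T := 3 * L) (le_refl _) u
  have hn2' : 2 ≤ Fintype.card V := Fintype.one_lt_card_iff.mpr ⟨u, v, huv⟩
  have hn2 : (2 : ℝ) ≤ Fintype.card V := by exact_mod_cast hn2'
  have hl3 : lam ^ (3 * L) * (Fintype.card V : ℝ) ^ 3 ≤ (d : ℝ) ^ (3 * L) := by
    have h := pow_le_pow_left₀ (mul_nonneg (pow_nonneg H.lam0 L) (Nat.cast_nonneg _)) H.mixL 3
    calc lam ^ (3 * L) * (Fintype.card V : ℝ) ^ 3 = (lam ^ L * Fintype.card V) ^ 3 := by ring
      _ ≤ ((d : ℝ) ^ L) ^ 3 := h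
      _ = (d : ℝ) ^ (3 * L) := by ring
  have hd' : 16 * ((3 * L : ℕ) : ℝ) ^ 2 ≤ d := by exact_mod_cast hd
  have hlamT : 0 ≤ lam ^ (3 * L) := pow_nonneg H.lam0 _
  have hWf : Wf G g v (3 * L) u = (Dop G g)^[3 * L] (tg G v) u := rfl
  rw [← hWf] at hW'
  generalize Wf G g v (3 * L) u = W at h1 hW'
  generalize hh G g v (3 * L) u u = a at h1 hhu
  generalize hh G g v (3 * L) v u = b at h1 hhv
  generalize rr G g v (3 * L) u = r at h1 hr
  generalize (sc G v g (3 * L) {u, v} u : ℝ) = S at h1 ⊢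
  generalize lam ^ (3 * L) = ℓ at hW' hl3 hlamT
  generalize ((3 * L : ℕ) : ℝ) = T at hhu hhv hr hd'
  have hNpos : (0 : ℝ) < Fintype.card V := by linarith
  have hpow : (d : ℝ) ^ (3 * L + 1) = (d : ℝ) ^ (3 * L) * d := pow_succ _ _
  rw [hpow]
  have hD0 : (0 : ℝ) ≤ (d : ℝ) ^ (3 * L) := by positivity
  generalize (d : ℝ) ^ (3 * L) = D at hW' hhu hhv hr hl3 hD0 ⊢
  generalize (Fintype.card V : ℝ) = N at hW' hhu hhv hr hl3 hn2 hNpos ⊢
  have hdr : (0 : ℝ) ≤ d := Nat.cast_nonneg d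
  generalize (d : ℝ) = δ at hW' hd' hdr ⊢
  -- x = D / N
  have hx : D = D / N * N := by field_simp
  have hx0 : 0 ≤ D / N := div_nonneg hD0 hNpos.le
  have e1 : D * (δ / N) = δ * (D / N) := by ring
  have e2 : 2 * D / N = 2 * (D / N) := by ring
  rw [e1] at hW'
  rw [e2] at hhu hhv hr
  rw [div_le_iff₀ (by positivity)]
  generalize D / N = x at hx hx0 hW' hhu hhv hr
  have h4 : ℓ * 4 ≤ x := by
    have h5 : ℓ * N ^ 2 * N ≤ x * N := by
      calc ℓ * N ^ 2 * N = ℓ * N ^ 3 := by ring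
        _ ≤ D := hl3
        _ = x * N := hx
    have h6 : ℓ * N ^ 2 ≤ x := le_of_mul_le_mul_right h5 hNpos
    have h7 : (4 : ℝ) ≤ N ^ 2 := by nlinarith
    have h8 : ℓ * 4 ≤ ℓ * N ^ 2 := mul_le_mul_of_nonneg_left h7 hlamT
    linarith
  have h9 : 16 * T ^ 2 * x ≤ δ * x := mul_le_mul_of_nonneg_right hd' hx0
  have h10 : ℓ * 4 * δ ≤ x * δ := mul_le_mul_of_nonneg_right h4 hdr
  have h11 : δ * x / 2 ≤ S := by nlinarith
  calc D * δ = (δ * x / 2) * (2 * N) := by
        rw [hx]
        ring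
    _ ≤ S * (2 * N) := mul_le_mul_of_nonneg_right h11 (by linarith)

end Vale.Agent.Lib.P308.H27
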