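import Vale.Agent.Lib.P308.H27.Defs

/-!
Shortcuts of augmenting paths, and the bound `t ≤ 3 k` for a shortest augmenting path in a graph
without independent sets of more than `k` vertices.
-/

namespace Vale.Agent.Lib.P308.H27

variable {V : Type*}

/-- If `X_a ~ X_b` and `Y_b ~ Y_c` with `a < b < c` and `a + 3 ≤ c`, the path can be shortened:
go from `X_a` to `X_b`, traverse the matching edge `X_b Y_b` backwards, and jump to `Y_c`. -/
theorem IsAP.shortcut {G : SimpleGraph V} {g : V → V} {u v : V} {t : ℕ} {e : ℕ → V × V}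
    (hap : IsAP G g u v t e) (hinv : ∀ x, g (g x) = x) {a b c : ℕ} (hab : a < b) (hbc : b < c)
    (hc : c ≤ t + 1) (hgap : a + 3 ≤ c) (h1 : G.Adj (e a).2 (e b).2)
    (h2 : G.Adj (e b).1 (e c).1) : ∃ t' e', t' < t ∧ IsAP G g u v t' e' := by
  have key : ∀ m, ((if m ≤ a then e m else if m = a + 1 then (e b).swap
        else e (m + c - (a + 2)))
      = e (if m ≤ a then m else if m = a + 1 then b else m + c - (a + 2))) ∨
      ((if m ≤ a then e m else if m = a + 1 then (e b).swap else e (m + c - (a + 2)))
      = (e (if m ≤ a then m else if m = a + 1 then b else m + c - (a + 2))).swap) := by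
    intro m
    by_cases h1 : m ≤ a
    · left
      simp only [if_pos h1]
    · by_cases h2 : m = a + 1
      · right
        simp only [if_neg h1, if_pos h2]
      · left
        simp only [if_neg h1, if_neg h2]
  refine ⟨t + a + 2 - c, fun m => if m ≤ a then e m else if m = a + 1 then (e b).swap
    else e (m + c - (a + 2)), by omega, ?_, ?_, ?_, ?_, ?_⟩
  · simp only [Nat.zero_le, if_true]
    exact hap.start
  · have h3 : ¬ (t + a + 2 - c + 1 ≤ a) := by omega
    have h4 : ¬ (t + a + 2 - c + 1 = a + 1) := by omega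
    have h5 : t + a + 2 - c + 1 + c - (a + 2) = t + 1 := by omega
    simp only [if_neg h3, if_neg h4, h5]
    exact hap.fin
  · intro m hm1 hmt
    by_cases h3 : m ≤ a
    · simp only [if_pos h3]
      exact hap.mid m hm1 (by omega)
    · by_cases h4 : m = a + 1
      · simp only [if_neg h3, if_pos h4, Prod.fst_swap, Prod.snd_swap]
        have hb := hap.mid b (by omega) (by omega)
        refine ⟨?_, hb.2.symm⟩
        rw [← hb.1, hinv]
      · simp only [if_neg h3, if_neg h4]
        exact hap.mid _ (by omega) (by omega)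
  · intro m hm
    rcases Nat.lt_trichotomy m a with h | h | h
    · have h3 : m ≤ a := by omega
      have h4 : m + 1 ≤ a := by omega
      simp only [if_pos h3, if_pos h4]
      exact hap.adj m (by omega)
    · subst h
      have h4 : ¬ (m + 1 ≤ m) := by omega
      simp only [le_refl, if_true, if_neg h4, Prod.fst_swap]
      exact h1
    · by_cases h5 : m = a + 1
      · subst h5
        have h3 : ¬ (a + 1 ≤ a) := by omega
        have h4 : ¬ (a + 1 + 1 ≤ a) := by omega
        have h6 : ¬ (a + 1 + 1 = a + 1) := by omega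
        have h7 : a + 1 + 1 + c - (a + 2) = c := by omega
        simp only [if_neg h3, if_true, if_neg h4, if_neg h6, h7, Prod.snd_swap]
        exact h2
      · have h3 : ¬ (m ≤ a) := by omega
        have h4 : ¬ (m + 1 ≤ a) := by omega
        have h6 : ¬ (m + 1 = a + 1) := by omega
        have h7 : m + 1 + c - (a + 2) = m + c - (a + 2) + 1 := by omega
        simp only [if_neg h3, if_neg h5, if_neg h4, if_neg h6, h7]
        exact hap.adj _ (by omega)
  · intro m m' hlt hle
    have hφ : (if m ≤ a then m else if m = a + 1 then b else m + c - (a + 2))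
        < (if m' ≤ a then m' else if m' = a + 1 then b else m' + c - (a + 2)) ∧
        (if m' ≤ a then m' else if m' = a + 1 then b else m' + c - (a + 2)) ≤ t + 1 := by
      split_ifs <;> omega
    have hd := hap.dj _ _ hφ.1 hφ.2
    rcases key m with h | h <;> rcases key m' with h' | h'
    · simp only [h, h']
      exact hd
    · simp only [h, h']
      exact hd.swap_right
    · simp only [h, h']
      exact hd.swap_left
    · simp only [h, h']
      exact hd.swap_left.swap_right

/-- A shortest augmenting path has at most `3 k` matching edges when every independent set of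
the graph has at most `k` vertices. -/
theorem IsAP.le_of_minimal {G : SimpleGraph V} {g : V → V} {u v : V} {t : ℕ} {e : ℕ → V × V}
    (hap : IsAP G g u v t e) (hinv : ∀ x, g (g x) = x)
    (hmin : ∀ t' e', IsAP G g u v t' e' → t ≤ t') (k : ℕ)
    (hk : ∀ s : Finset V, G.IsIndepSet (s : Set V) → s.card ≤ k) : t ≤ 3 * k := by
  classical
  have noshort : ∀ a b c, a < b → b < c → c ≤ t + 1 → a + 3 ≤ c → G.Adj (e a).2 (e b).2 →
      G.Adj (e b).1 (e c).1 → False := by
    intro a b c hab hbc hc hgap h1 h2
    obtain ⟨t', e', hlt, hap'⟩ := hap.shortcut hinv hab hbc hc hgap h1 h2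
    have := hmin t' e' hap'
    omega
  have inj1 : ∀ b b', 1 ≤ b → b ≤ t → 1 ≤ b' → b' ≤ t → (e b).1 = (e b').1 → b = b' := by
    intro b b' _ hb _ hb' hEq
    by_contra hne
    rcases lt_or_gt_of_ne hne with h | h
    · exact (hap.dj b b' h (by omega)).1 hEq
    · exact (hap.dj b' b h (by omega)).1 hEq.symm
  have inj2 : ∀ b b', 1 ≤ b → b ≤ t → 1 ≤ b' → b' ≤ t → (e b).2 = (e b').2 → b = b' := by
    intro b b' _ hb _ hb' hEq
    by_contra hne
    rcases lt_or_gt_of_ne hne with h | h
    · exact (hap.dj b b' h (by omega)).2.2.2 hEq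
    · exact (hap.dj b' b h (by omega)).2.2.2 hEq.symm
  set P : ℕ → Prop := fun b => ∃ a, a + 2 ≤ b ∧ G.Adj (e a).2 (e b).2 with hP
  set C := (Finset.Icc 1 t).filter P with hC
  set A0 := (Finset.Icc 1 t).filter (fun b => ¬ P b ∧ Even b) with hA0
  set A1 := (Finset.Icc 1 t).filter (fun b => ¬ P b ∧ ¬ Even b) with hA1
  have hcover : Finset.Icc 1 t ⊆ C ∪ (A0 ∪ A1) := by
    intro b hb
    simp only [hC, hA0, hA1, Finset.mem_union, Finset.mem_filter]
    by_cases hPb : P b
    · exact Or.inl ⟨hb, hPb⟩
    · by_cases hev : Even b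
      · exact Or.inr (Or.inl ⟨hb, hPb, hev⟩)
      · exact Or.inr (Or.inr ⟨hb, hPb, hev⟩)
  have hcard : t ≤ C.card + (A0.card + A1.card) := by
    have h1 := Finset.card_le_card hcover
    rw [Nat.card_Icc] at h1
    have h2 := Finset.card_union_le C (A0 ∪ A1)
    have h3 := Finset.card_union_le A0 A1
    omega
  -- the first vertices of the pairs indexed by `C` form an independent set
  have hCk : C.card ≤ k := by
    have hinj : Set.InjOn (fun b => (e b).1) (C : Set ℕ) := by
      intro b hb b' hb' hEq
      have hb1 := Finset.mem_Icc.mp (Finset.mem_filter.mp hb).1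
      have hb1' := Finset.mem_Icc.mp (Finset.mem_filter.mp hb').1
      exact inj1 b b' hb1.1 hb1.2 hb1'.1 hb1'.2 hEq
    have := hk (C.image (fun b => (e b).1)) (by
      rw [SimpleGraph.isIndepSet_iff]
      intro x hx y hy hxy
      simp only [Finset.coe_image, Set.mem_image, Finset.mem_coe] at hx hy
      obtain ⟨b, hb, rfl⟩ := hx
      obtain ⟨b', hb', rfl⟩ := hy
      have hbb' : b ≠ b' := fun h => hxy (by rw [h])
      have hb1 := Finset.mem_Icc.mp (Finset.mem_filter.mp hb).1
      have hb1' := Finset.mem_Icc.mp (Finset.mem_filter.mp hb').1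
      intro hadj
      rcases lt_or_gt_of_ne hbb' with h | h
      · obtain ⟨a, ha, haadj⟩ := (Finset.mem_filter.mp hb).2
        exact noshort a b b' (by omega) h (by omega) (by omega) haadj hadj
      · obtain ⟨a, ha, haadj⟩ := (Finset.mem_filter.mp hb').2
        exact noshort a b' b (by omega) h (by omega) (by omega) haadj hadj.symm)
    rwa [Finset.card_image_of_injOn hinj] at this
  -- the second vertices of the pairs indexed by `A0` (resp. `A1`) form an independent set
  have hA0k : A0.card ≤ k := by
    have hinj : Set.InjOn (fun b => (e b).2) (A0 : Set ℕ) := by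
      intro b hb b' hb' hEq
      have hb1 := Finset.mem_Icc.mp (Finset.mem_filter.mp hb).1
      have hb1' := Finset.mem_Icc.mp (Finset.mem_filter.mp hb').1
      exact inj2 b b' hb1.1 hb1.2 hb1'.1 hb1'.2 hEq
    have := hk (A0.image (fun b => (e b).2)) (by
      rw [SimpleGraph.isIndepSet_iff]
      intro x hx y hy hxy
      simp only [Finset.coe_image, Set.mem_image, Finset.mem_coe] at hx hy
      obtain ⟨b, hb, rfl⟩ := hx
      obtain ⟨b', hb', rfl⟩ := hy
      have hbb' : b ≠ b' := fun h => hxy (by rw [h])
      obtain ⟨r, hr⟩ := (Finset.mem_filter.mp hb).2.2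
      obtain ⟨r', hr'⟩ := (Finset.mem_filter.mp hb').2.2
      intro hadj
      rcases lt_or_gt_of_ne hbb' with h | h
      · exact (Finset.mem_filter.mp hb').2.1 ⟨b, by omega, hadj⟩
      · exact (Finset.mem_filter.mp hb).2.1 ⟨b', by omega, hadj.symm⟩)
    rwa [Finset.card_image_of_injOn hinj] at this
  have hA1k : A1.card ≤ k := by
    have hinj : Set.InjOn (fun b => (e b).2) (A1 : Set ℕ) := by
      intro b hb b' hb' hEq
      have hb1 := Finset.mem_Icc.mp (Finset.mem_filter.mp hb).1
      have hb1' := Finset.mem_Icc.mp (Finset.mem_filter.mp hb').1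
      exact inj2 b b' hb1.1 hb1.2 hb1'.1 hb1'.2 hEq
    have := hk (A1.image (fun b => (e b).2)) (by
      rw [SimpleGraph.isIndepSet_iff]
      intro x hx y hy hxy
      simp only [Finset.coe_image, Set.mem_image, Finset.mem_coe] at hx hy
      obtain ⟨b, hb, rfl⟩ := hx
      obtain ⟨b', hb', rfl⟩ := hy
      have hbb' : b ≠ b' := fun h => hxy (by rw [h])
      obtain ⟨r, hr⟩ := Nat.not_even_iff_odd.mp (Finset.mem_filter.mp hb).2.2
      obtain ⟨r', hr'⟩ := Nat.not_even_iff_odd.mp (Finset.mem_filter.mp hb').2.2
      intro hadj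
      rcases lt_or_gt_of_ne hbb' with h | h
      · exact (Finset.mem_filter.mp hb').2.1 ⟨b, by omega, hadj⟩
      · exact (Finset.mem_filter.mp hb).2.1 ⟨b', by omega, hadj.symm⟩)
    rwa [Finset.card_image_of_injOn hinj] at this
  omega

end Vale.Agent.Lib.P308.H27
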