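import Vale.Agent.Lib.P308.H27.Berge
import Vale.Agent.Lib.P308.H27.Short

/-!
Counting near-perfect matchings against perfect matchings through rotations.
-/

namespace Vale.Agent.Lib.P308.H27

/-- Counting through a relation that is total on `A`, lands in `B`, and is injective. -/
theorem ncard_le_of_rel {α β : Type*} (A : Set α) (B : Set β) (hB : B.Finite) (ρ : α → β → Prop)
    (h1 : ∀ a ∈ A, ∃ b ∈ B, ρ a b)
    (h2 : ∀ a ∈ A, ∀ a' ∈ A, ∀ b, ρ a b → ρ a' b → a = a') : A.ncard ≤ B.ncard := by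
  classical
  rcases A.eq_empty_or_nonempty with rfl | ⟨a₀, ha₀⟩
  · simp
  · obtain ⟨b₀, _, _⟩ := h1 a₀ ha₀
    have : Nonempty β := ⟨b₀⟩
    choose! f hf using h1
    refine Set.ncard_le_ncard_of_injOn f (fun a ha => (hf a ha).1) ?_ hB
    intro a ha a' ha' hEq
    refine h2 a ha a' ha' (f a) (hf a ha).2 ?_
    rw [hEq]
    exact (hf a' ha').2

variable {V : Type*} [Fintype V] [DecidableEq V]

/-- The perfect matchings of `G`, as involutions. -/
def PMs (G : SimpleGraph V) : Set (V → V) := {f | IsPM G f}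

/-- Near-perfect matchings with ordered holes that reach adjacent holes in `t` rotations. -/
def R (G : SimpleGraph V) (t : ℕ) : Set ((V → V) × V × V) :=
  {p | IsNPM G p.1 p.2.1 p.2.2 ∧ Reach G t p.1 p.2.1 p.2.2}

theorem R_zero_le (G : SimpleGraph V) : (R G 0).ncard ≤ Fintype.card V * (PMs G).ncard := by
  have hcard : ((PMs G) ×ˢ (Set.univ : Set V)).ncard = (PMs G).ncard * Fintype.card V := by
    rw [Set.ncard_prod, Set.ncard_univ, Nat.card_eq_fintype_card]
  rw [Nat.mul_comm, ← hcard]
  refine ncard_le_of_rel _ _ (Set.toFinite _)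
    (fun p b => b.2 = p.2.1 ∧
      b.1 = Function.update (Function.update p.1 p.2.1 p.2.2) p.2.2 p.2.1) ?_ ?_
  · rintro ⟨g, h, v⟩ ⟨⟨hhv, hgh, hgv, hinv, hadjg⟩, hr⟩
    dsimp only at hhv hgh hgv hinv hadjg
    have hadj : G.Adj h v := hr
    refine ⟨(Function.update (Function.update g h v) v h, h), ⟨?_, Set.mem_univ _⟩, rfl, rfl⟩
    intro x
    by_cases hxv : x = v
    · subst hxv
      simp only [Function.update_self]
      refine ⟨hadj.symm, ?_⟩
      rw [Function.update_of_ne hhv, Function.update_self]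
    · by_cases hxh : x = h
      · subst hxh
        simp only [Function.update_of_ne hxv, Function.update_self]
        exact ⟨hadj, trivial⟩
      · have h1 : g x ≠ v := by
          intro hh
          have := hinv x
          rw [hh, hgv] at this
          exact hxv this.symm
        have h2 : g x ≠ h := by
          intro hh
          have := hinv x
          rw [hh, hgh] at this
          exact hxh this.symm
        simp only [Function.update_of_ne hxv, Function.update_of_ne hxh,
          Function.update_of_ne h1, Function.update_of_ne h2]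
        exact ⟨hadjg x hxh hxv, hinv x⟩
  · rintro ⟨g, h, v⟩ ⟨⟨hhv, hgh, hgv, hinv, hadjg⟩, _⟩ ⟨g', h', v'⟩
      ⟨⟨hhv', hgh', hgv', hinv', hadjg'⟩, _⟩ b ⟨hb2, hb1⟩ ⟨hb2', hb1'⟩
    dsimp only at hhv hgh hgv hinv hadjg hhv' hgh' hgv' hinv' hadjg'
    simp only at hb2 hb1 hb2' hb1'
    have hh : h = h' := by rw [← hb2, ← hb2']
    subst hh
    have hv : v = v' := by
      have e1 : b.1 h = v := by
        rw [hb1, Function.update_of_ne hhv, Function.update_self]
      have e2 : b.1 h = v' := by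
        rw [hb1', Function.update_of_ne hhv', Function.update_self]
      rw [← e1, ← e2]
    subst hv
    have hg : g = g' := by
      funext x
      by_cases hxv : x = v
      · rw [hxv, hgv, hgv']
      · by_cases hxh : x = h
        · rw [hxh, hgh, hgh']
        · have e1 : b.1 x = g x := by
            rw [hb1, Function.update_of_ne hxv, Function.update_of_ne hxh]
          have e2 : b.1 x = g' x := by
            rw [hb1', Function.update_of_ne hxv, Function.update_of_ne hxh]
          rw [← e1, ← e2]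
    rw [hg]

theorem R_succ_le (G : SimpleGraph V) (t : ℕ) :
    (R G (t + 1)).ncard ≤ (Fintype.card V + 1) * (R G t).ncard := by
  have hsub : R G (t + 1) ⊆ R G t ∪ {p | IsNPM G p.1 p.2.1 p.2.2 ∧
      ∃ y, G.Adj p.2.1 y ∧ y ≠ p.2.2 ∧ Reach G t (rot p.1 p.2.1 y) (p.1 y) p.2.2} := by
    rintro p ⟨hn, hr⟩
    rcases hr with hr | hr
    · exact Or.inl ⟨hn, hr⟩
    · exact Or.inr ⟨hn, hr⟩
  have hQ : {p : (V → V) × V × V | IsNPM G p.1 p.2.1 p.2.2 ∧
      ∃ y, G.Adj p.2.1 y ∧ y ≠ p.2.2 ∧ Reach G t (rot p.1 p.2.1 y) (p.1 y) p.2.2}.ncard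
      ≤ (R G t).ncard * Fintype.card V := by
    have hcard : ((R G t) ×ˢ (Set.univ : Set V)).ncard = (R G t).ncard * Fintype.card V := by
      rw [Set.ncard_prod, Set.ncard_univ, Nat.card_eq_fintype_card]
    rw [← hcard]
    refine ncard_le_of_rel _ _ (Set.toFinite _)
      (fun p b => b.2 = p.2.1 ∧ b.1.2.2 = p.2.2 ∧
        ∃ y, G.Adj p.2.1 y ∧ y ≠ p.2.2 ∧ b.1.1 = rot p.1 p.2.1 y ∧ b.1.2.1 = p.1 y) ?_ ?_
    · rintro ⟨g, h, v⟩ ⟨hn, y, hadj, hyv, hr⟩
      exact ⟨((rot g h y, g y, v), h), ⟨⟨rot_npm hn hadj hyv, hr⟩, Set.mem_univ _⟩, rfl, rfl,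
        y, hadj, hyv, rfl, rfl⟩
    · rintro ⟨g, h, v⟩ ⟨⟨hhv, hgh, hgv, hinv, hadjg⟩, _⟩ ⟨g', h', v'⟩
        ⟨⟨hhv', hgh', hgv', hinv', hadjg'⟩, _⟩ b ⟨hb2, hbv, y, hadj, hyv, hb1, hbx⟩
        ⟨hb2', hbv', y', hadj', hyv', hb1', hbx'⟩
      dsimp only at hhv hgh hgv hinv hadjg hhv' hgh' hgv' hinv' hadjg'
      simp only at hb2 hbv hadj hyv hb1 hbx hb2' hbv' hadj' hyv' hb1' hbx'
      have hh : h = h' := by rw [← hb2, ← hb2']
      subst hh
      have hv : v = v' := by rw [← hbv, ← hbv']
      subst hv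
      have hy : y = y' := by
        have e1 : b.1.1 h = y := by
          rw [hb1]
          simp only [rot, if_true]
        have e2 : b.1.1 h = y' := by
          rw [hb1']
          simp only [rot, if_true]
        rw [← e1, ← e2]
      subst hy
      have hgy : g y = g' y := by rw [← hbx, ← hbx']
      have hg : g = g' := by
        funext z
        by_cases hzh : z = h
        · rw [hzh, hgh, hgh']
        · by_cases hzy : z = y
          · rw [hzy, hgy]
          · by_cases hzx : z = g y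
            · rw [hzx, hinv]
              rw [hgy, hinv']
            · have hzx' : z ≠ g' y := by rw [← hgy]; exact hzx
              have e1 : b.1.1 z = g z := by
                rw [hb1]
                simp only [rot, if_neg hzh, if_neg hzy, if_neg hzx]
              have e2 : b.1.1 z = g' z := by
                rw [hb1']
                simp only [rot, if_neg hzh, if_neg hzy, if_neg hzx']
              rw [← e1, ← e2]
      rw [hg]
  calc (R G (t + 1)).ncard
      ≤ (R G t ∪ {p | IsNPM G p.1 p.2.1 p.2.2 ∧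
          ∃ y, G.Adj p.2.1 y ∧ y ≠ p.2.2 ∧ Reach G t (rot p.1 p.2.1 y) (p.1 y) p.2.2}).ncard :=
        Set.ncard_le_ncard hsub (Set.toFinite _)
    _ ≤ (R G t).ncard + {p : (V → V) × V × V | IsNPM G p.1 p.2.1 p.2.2 ∧
          ∃ y, G.Adj p.2.1 y ∧ y ≠ p.2.2 ∧ Reach G t (rot p.1 p.2.1 y) (p.1 y) p.2.2}.ncard :=
        Set.ncard_union_le _ _
    _ ≤ (R G t).ncard + (R G t).ncard * Fintype.card V := Nat.add_le_add_left hQ _
    _ = (Fintype.card V + 1) * (R G t).ncard := by ring

theorem R_le (G : SimpleGraph V) (t : ℕ) :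
    (R G t).ncard ≤ (Fintype.card V + 1) ^ t * (Fintype.card V * (PMs G).ncard) := by
  induction t with
  | zero => simpa using R_zero_le G
  | succ t ih =>
    calc (R G (t + 1)).ncard ≤ (Fintype.card V + 1) * (R G t).ncard := R_succ_le G t
      _ ≤ (Fintype.card V + 1) * ((Fintype.card V + 1) ^ t * (Fintype.card V * (PMs G).ncard)) :=
        Nat.mul_le_mul_left _ ih
      _ = (Fintype.card V + 1) ^ (t + 1) * (Fintype.card V * (PMs G).ncard) := by ring

/-- Every near-perfect matching reaches adjacent holes within `3 k` rotations. -/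
theorem reach_of_indep (G : SimpleGraph V) (k : ℕ)
    (hk : ∀ s : Finset V, G.IsIndepSet (s : Set V) → s.card ≤ k) {f₀ : V → V}
    (hf₀ : IsPM G f₀) {g : V → V} {u v : V} (hn : IsNPM G g u v) : Reach G (3 * k) g u v := by
  classical
  have hex : ∃ t, ∃ e, IsAP G g u v t e := exists_ap hn hf₀
  obtain ⟨e, hap⟩ := Nat.find_spec hex
  have hmin : ∀ t' e', IsAP G g u v t' e' → Nat.find hex ≤ t' :=
    fun t' e' h => Nat.find_min' hex ⟨e', h⟩
  have hle := hap.le_of_minimal hn.2.2.2.1 hmin k hk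
  have hr := IsAP.reach _ g u v e hn hap
  have := hr.mono (3 * k - Nat.find hex)
  have hEq : Nat.find hex + (3 * k - Nat.find hex) = 3 * k := by omega
  rwa [hEq] at this

/-- The ratio bound in the involution model. -/
theorem npm_count (G : SimpleGraph V) (k : ℕ)
    (hk : ∀ s : Finset V, G.IsIndepSet (s : Set V) → s.card ≤ k) {f₀ : V → V}
    (hf₀ : IsPM G f₀) :
    {g : V → V | ∃ u v, IsNPM G g u v}.ncard
      ≤ Fintype.card V * (Fintype.card V + 1) ^ (3 * k) * (PMs G).ncard := by
  have h1 : {g : V → V | ∃ u v, IsNPM G g u v}.ncard ≤ (R G (3 * k)).ncard := by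
    refine ncard_le_of_rel _ _ (Set.toFinite _) (fun g p => p.1 = g) ?_ ?_
    · rintro g ⟨u, v, hn⟩
      exact ⟨(g, u, v), ⟨hn, reach_of_indep G k hk hf₀ hn⟩, rfl⟩
    · rintro g _ g' _ p hp hp'
      rw [← hp, ← hp']
  calc {g : V → V | ∃ u v, IsNPM G g u v}.ncard ≤ (R G (3 * k)).ncard := h1
    _ ≤ (Fintype.card V + 1) ^ (3 * k) * (Fintype.card V * (PMs G).ncard) := R_le G _
    _ = Fintype.card V * (Fintype.card V + 1) ^ (3 * k) * (PMs G).ncard := by ring

end Vale.Agent.Lib.P308.H27
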