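import Mathlib

/-!
Perfect and near-perfect matchings of a finite graph as involutions, augmenting paths as
sequences of oriented matching edges, and rotations of near-perfect matchings.
-/

namespace Vale.Agent.Lib.P308.H27

variable {V : Type*}

/-- A perfect matching, as a fixed-point-free involution along edges. -/
def IsPM (G : SimpleGraph V) (f : V → V) : Prop := ∀ x, G.Adj x (f x) ∧ f (f x) = x

/-- A near-perfect matching with the two uncovered vertices `u` and `v`, as an involution whose
fixed points are `u` and `v` and which moves every other vertex along an edge. -/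
def IsNPM (G : SimpleGraph V) (g : V → V) (u v : V) : Prop :=
  u ≠ v ∧ g u = u ∧ g v = v ∧ (∀ x, g (g x) = x) ∧ ∀ x, x ≠ u → x ≠ v → G.Adj x (g x)

/-- Two oriented pairs have no vertex in common. -/
def Dj (a b : V × V) : Prop := a.1 ≠ b.1 ∧ a.1 ≠ b.2 ∧ a.2 ≠ b.1 ∧ a.2 ≠ b.2

theorem Dj.swap_left {a b : V × V} (h : Dj a b) : Dj a.swap b :=
  ⟨h.2.2.1, h.2.2.2, h.1, h.2.1⟩

theorem Dj.swap_right {a b : V × V} (h : Dj a b) : Dj a b.swap :=
  ⟨h.2.1, h.1, h.2.2.2, h.2.2.1⟩

/-- An augmenting path with `t` matching edges: `e 0 = (u, u)`, `e (t + 1) = (v, v)`, and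
`e m = (y, x)` is a matching edge for `1 ≤ m ≤ t`; consecutive pairs are joined by an edge from
the second vertex of one to the first vertex of the next; all vertices are distinct. -/
structure IsAP (G : SimpleGraph V) (g : V → V) (u v : V) (t : ℕ) (e : ℕ → V × V) : Prop where
  start : e 0 = (u, u)
  fin : e (t + 1) = (v, v)
  mid : ∀ m, 1 ≤ m → m ≤ t → g (e m).1 = (e m).2 ∧ (e m).1 ≠ (e m).2
  adj : ∀ m, m ≤ t → G.Adj (e m).2 (e (m + 1)).1
  dj : ∀ m m', m < m' → m' ≤ t + 1 → Dj (e m) (e m')

variable [DecidableEq V]

/-- Rotation of a near-perfect matching `g` with hole `u` along the edge `u y`: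
`u` gets matched to `y` and the former partner of `y` becomes a hole. -/
def rot (g : V → V) (u y : V) : V → V :=
  fun z => if z = u then y else if z = y then u else if z = g y then g y else g z

theorem rot_npm {G : SimpleGraph V} {g : V → V} {u v y : V} (h : IsNPM G g u v)
    (hadj : G.Adj u y) (hyv : y ≠ v) : IsNPM G (rot g u y) (g y) v := by
  obtain ⟨huv, hgu, hgv, hinv, hadjg⟩ := h
  have hyu : y ≠ u := hadj.ne'
  have hxy : g y ≠ y := (hadjg y hyu hyv).ne'
  have hxu : g y ≠ u := by
    intro hx
    have := hinv y
    rw [hx, hgu] at this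
    exact hyu this.symm
  have hxv : g y ≠ v := by
    intro hx
    have := hinv y
    rw [hx, hgv] at this
    exact hyv this.symm
  have hvu : v ≠ u := huv.symm
  refine ⟨hxv, ?_, ?_, ?_, ?_⟩
  · simp only [rot, if_neg hxu, if_neg hxy, if_true]
  · have hvy : v ≠ y := hyv.symm
    have hvx : v ≠ g y := hxv.symm
    simp only [rot, if_neg hvu, if_neg hvy, if_neg hvx]
    exact hgv
  · intro z
    by_cases hzu : z = u
    · subst hzu
      simp only [rot, if_true, if_neg hyu]
    · by_cases hzy : z = y
      · subst hzy
        simp only [rot, if_neg hzu, if_true]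
      · by_cases hzx : z = g y
        · subst hzx
          simp only [rot, if_neg hxu, if_neg hxy, if_true]
        · have h1 : g z ≠ u := by
            intro hh
            have := hinv z
            rw [hh, hgu] at this
            exact hzu this.symm
          have h2 : g z ≠ y := by
            intro hh
            have := hinv z
            rw [hh] at this
            exact hzx this.symm
          have h3 : g z ≠ g y := by
            intro hh
            have := hinv z
            rw [hh, hinv y] at this
            exact hzy this.symm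
          simp only [rot, if_neg hzu, if_neg hzy, if_neg hzx, if_neg h1, if_neg h2, if_neg h3]
          exact hinv z
  · intro z hzx hzv
    by_cases hzu : z = u
    · subst hzu
      simp only [rot, if_true]
      exact hadj
    · by_cases hzy : z = y
      · subst hzy
        simp only [rot, if_neg hzu, if_true]
        exact hadj.symm
      · simp only [rot, if_neg hzu, if_neg hzy, if_neg hzx]
        exact hadjg z hzu hzv

/-- `Reach G t g h v`: the near-perfect matching `g` with holes `h`, `v` can be turned, by at
most `t` rotations moving the hole `h`, into one whose holes are adjacent. -/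
def Reach (G : SimpleGraph V) : ℕ → (V → V) → V → V → Prop
  | 0, _, h, v => G.Adj h v
  | t + 1, g, h, v => Reach G t g h v ∨ ∃ y, G.Adj h y ∧ y ≠ v ∧ Reach G t (rot g h y) (g y) v

theorem Reach.mono {G : SimpleGraph V} {t : ℕ} {g : V → V} {h v : V} (hr : Reach G t g h v)
    (s : ℕ) : Reach G (t + s) g h v := by
  induction s with
  | zero => exact hr
  | succ s ih => exact Or.inl ih

/-- An augmenting path with `t` matching edges gives `t` rotations. -/
theorem IsAP.reach {G : SimpleGraph V} : ∀ (t : ℕ) (g : V → V) (u v : V) (e : ℕ → V × V),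
    IsNPM G g u v → IsAP G g u v t e → Reach G t g u v := by
  intro t
  induction t with
  | zero =>
    intro g u v e _ hap
    have := hap.adj 0 (le_refl 0)
    rw [hap.start, hap.fin] at this
    exact this
  | succ t ih =>
    intro g u v e hn hap
    have hmid1 := hap.mid 1 (le_refl 1) (by omega)
    have hadj0 := hap.adj 0 (by omega)
    rw [hap.start] at hadj0
    have hd1 := hap.dj 1 (t + 2) (by omega) (le_refl _)
    rw [hap.fin] at hd1
    have hyv : (e 1).1 ≠ v := hd1.1
    refine Or.inr ⟨(e 1).1, hadj0, hyv, ?_⟩
    have hn' := rot_npm hn hadj0 hyv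
    refine ih (rot g u (e 1).1) (g (e 1).1) v
      (fun m => if m = 0 then (g (e 1).1, g (e 1).1) else e (m + 1)) hn' ?_
    refine ⟨by simp, ?_, ?_, ?_, ?_⟩
    · simp only [Nat.add_eq_zero_iff, one_ne_zero, and_false, if_false]
      exact hap.fin
    · intro m hm1 hmt
      have hm0 : m ≠ 0 := by omega
      simp only [if_neg hm0]
      have hd0 := hap.dj 0 (m + 1) (by omega) (by omega)
      rw [hap.start] at hd0
      have hd1' := hap.dj 1 (m + 1) (by omega) (by omega)
      have hz1 : (e (m + 1)).1 ≠ u := fun h => hd0.1 h.symm
      have hz2 : (e (m + 1)).1 ≠ (e 1).1 := fun h => hd1'.1 h.symm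
      have hz3 : (e (m + 1)).1 ≠ g (e 1).1 := by
        rw [hmid1.1]
        exact fun h => hd1'.2.2.1 h.symm
      simp only [rot, if_neg hz1, if_neg hz2, if_neg hz3]
      exact hap.mid (m + 1) (by omega) (by omega)
    · intro m hmt
      by_cases hm0 : m = 0
      · subst hm0
        simp only [if_true, zero_add, one_ne_zero, if_false]
        have := hap.adj 1 (by omega)
        rw [hmid1.1]
        exact this
      · have hm1 : m + 1 ≠ 0 := by omega
        simp only [if_neg hm0, if_neg hm1]
        exact hap.adj (m + 1) (by omega)
    · intro m m' hlt hle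
      have hm'0 : m' ≠ 0 := by omega
      simp only [if_neg hm'0]
      by_cases hm0 : m = 0
      · subst hm0
        simp only [if_true]
        have hd := hap.dj 1 (m' + 1) (by omega) (by omega)
        rw [hmid1.1]
        exact ⟨hd.2.2.1, hd.2.2.2, hd.2.2.1, hd.2.2.2⟩
      · simp only [if_neg hm0]
        exact hap.dj (m + 1) (m' + 1) (by omega) (by omega)

end Vale.Agent.Lib.P308.H27
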