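import Vale.Agent.Lib.P308.H27.Transfer

/-!
Graphs without large bipartite holes and with large minimum degree: every near-perfect matching
reaches adjacent holes within two rotations.
-/

namespace Vale.Agent.Lib.P308.H27

open Finset

variable {V : Type*} [Fintype V] [DecidableEq V]

theorem reach_two (G : SimpleGraph V) (s : ℕ)
    (hhole : ∀ A B : Finset V, Disjoint A B → A.card = s → B.card = s →
      ∃ a ∈ A, ∃ b ∈ B, G.Adj a b)
    (hdeg : ∀ v : V, 3 * s + 1 ≤ (G.neighborSet v).ncard)
    {g : V → V} {u v : V} (hn : IsNPM G g u v) : Reach G 2 g u v := by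
  classical
  obtain ⟨huv, hgu, hgv, hinv, hadjg⟩ := hn
  have hginj : Function.Injective g := by
    intro x y hxy
    have := congrArg g hxy
    rwa [hinv, hinv] at this
  -- neighbours of `w` other than `w'`
  have hN : ∀ w w' : V, 3 * s ≤ (univ.filter (fun y => G.Adj w y ∧ y ≠ w')).card := by
    intro w w'
    have h1 : (G.neighborSet w).ncard = (univ.filter (fun y => G.Adj w y)).card := by
      rw [← Set.ncard_coe_finset]
      congr 1
      ext y
      simp
    have h2 : univ.filter (fun y => G.Adj w y)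
        ⊆ insert w' (univ.filter (fun y => G.Adj w y ∧ y ≠ w')) := by
      intro y hy
      rw [Finset.mem_filter] at hy
      by_cases hyw : y = w'
      · exact Finset.mem_insert.mpr (Or.inl hyw)
      · exact Finset.mem_insert_of_mem (Finset.mem_filter.mpr ⟨Finset.mem_univ _, hy.2, hyw⟩)
    have h3 := Finset.card_le_card h2
    have h4 := Finset.card_insert_le w' (univ.filter (fun y => G.Adj w y ∧ y ≠ w'))
    have h5 := hdeg w
    omega
  set Xu : Finset V := (univ.filter (fun y => G.Adj u y ∧ y ≠ v)).image g with hXu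
  set Xv : Finset V := (univ.filter (fun y => G.Adj v y ∧ y ≠ u)).image g with hXv
  have hXu_card : 3 * s ≤ Xu.card := by
    rw [hXu, Finset.card_image_of_injective _ hginj]
    exact hN u v
  have hXv_card : 3 * s ≤ Xv.card := by
    rw [hXv, Finset.card_image_of_injective _ hginj]
    exact hN v u
  obtain ⟨A, hAsub, hAcard⟩ := Finset.exists_subset_card_eq (show s ≤ Xu.card by omega)
  have hrest : s ≤ (Xv \ (A ∪ A.image g)).card := by
    have h1 : (A ∪ A.image g).card ≤ 2 * s := by
      calc (A ∪ A.image g).card ≤ A.card + (A.image g).card := Finset.card_union_le _ _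
        _ ≤ A.card + A.card := Nat.add_le_add_left Finset.card_image_le _
        _ = 2 * s := by omega
    have h2 := Finset.le_card_sdiff (A ∪ A.image g) Xv
    omega
  obtain ⟨B, hBsub, hBcard⟩ := Finset.exists_subset_card_eq hrest
  have hdisj : Disjoint A B := by
    rw [Finset.disjoint_left]
    intro x hxA hxB
    have := Finset.mem_sdiff.mp (hBsub hxB)
    exact this.2 (Finset.mem_union_left _ hxA)
  obtain ⟨a, haA, b, hbB, hab⟩ := hhole A B hdisj hAcard hBcard
  -- unpack `a`
  have haX := hAsub haA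
  rw [hXu, Finset.mem_image] at haX
  obtain ⟨y, hy, hya⟩ := haX
  rw [Finset.mem_filter] at hy
  obtain ⟨-, huy, hyv⟩ := hy
  -- unpack `b`
  have hbX := Finset.mem_sdiff.mp (hBsub hbB)
  have hbXv := hbX.1
  rw [hXv, Finset.mem_image] at hbXv
  obtain ⟨y', hy', hyb⟩ := hbXv
  rw [Finset.mem_filter] at hy'
  obtain ⟨-, hvy', hy'u⟩ := hy'
  have hbA : b ∉ A := fun h => hbX.2 (Finset.mem_union_left _ h)
  have hbgA : b ∉ A.image g := fun h => hbX.2 (Finset.mem_union_right _ h)
  have hy'v : y' ≠ v := hvy'.ne'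
  have hbv : b ≠ v := by
    intro h
    have h1 : g (g y') = g v := by rw [hyb, h]
    rw [hinv, hgv] at h1
    exact hy'v h1
  have hbu : b ≠ u := by
    intro h
    have h1 : g (g y') = g u := by rw [hyb, h]
    rw [hinv, hgu] at h1
    exact hy'u h1
  have hby : b ≠ y := by
    intro h
    apply hbgA
    rw [Finset.mem_image]
    refine ⟨a, haA, ?_⟩
    rw [← hya, hinv, h]
  have hba : b ≠ g y := by
    intro h
    apply hbA
    rw [h, hya]
    exact haA
  -- two rotations
  refine Or.inr ⟨y, huy, hyv, ?_⟩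
  refine Or.inr ⟨b, ?_, hbv, ?_⟩
  · rw [hya]
    exact hab
  · change G.Adj (rot g u y b) v
    have hrot : rot g u y b = g b := by
      simp only [rot, if_neg hbu, if_neg hby, if_neg hba]
    rw [hrot, ← hyb, hinv]
    exact hvy'.symm

/-- The ratio bound in the involution model. -/
theorem npm_count_dense (G : SimpleGraph V) (s : ℕ)
    (hhole : ∀ A B : Finset V, Disjoint A B → A.card = s → B.card = s →
      ∃ a ∈ A, ∃ b ∈ B, G.Adj a b)
    (hdeg : ∀ v : V, 3 * s + 1 ≤ (G.neighborSet v).ncard) :
    {g : V → V | ∃ u v, IsNPM G g u v}.ncard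
      ≤ Fintype.card V * (Fintype.card V + 1) ^ 2 * (PMs G).ncard := by
  have h1 : {g : V → V | ∃ u v, IsNPM G g u v}.ncard ≤ (R G 2).ncard := by
    refine ncard_le_of_rel _ _ (Set.toFinite _) (fun g p => p.1 = g) ?_ ?_
    · rintro g ⟨u, v, hn⟩
      exact ⟨(g, u, v), ⟨hn, reach_two G s hhole hdeg hn⟩, rfl⟩
    · rintro g _ g' _ p hp hp'
      rw [← hp, ← hp']
  calc {g : V → V | ∃ u v, IsNPM G g u v}.ncard ≤ (R G 2).ncard := h1
    _ ≤ (Fintype.card V + 1) ^ 2 * (Fintype.card V * (PMs G).ncard) := R_le G _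
    _ = Fintype.card V * (Fintype.card V + 1) ^ 2 * (PMs G).ncard := by ring

omit [DecidableEq V] in
/-- The ratio bound for matchings as subgraphs. -/
theorem ratio_bound_dense (G : SimpleGraph V) (s : ℕ)
    (hhole : ∀ A B : Finset V, Disjoint A B → A.card = s → B.card = s →
      ∃ a ∈ A, ∃ b ∈ B, G.Adj a b)
    (hdeg : ∀ v : V, 3 * s + 1 ≤ (G.neighborSet v).ncard) :
    {M : G.Subgraph | M.IsMatching ∧ M.verts.ncard + 2 = Fintype.card V}.ncard
      ≤ Fintype.card V * (Fintype.card V + 1) ^ 2
        * {M : G.Subgraph | M.IsPerfectMatching}.ncard := by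
  classical
  calc {M : G.Subgraph | M.IsMatching ∧ M.verts.ncard + 2 = Fintype.card V}.ncard
      ≤ {g : V → V | ∃ u v, IsNPM G g u v}.ncard := nearPerfect_le G
    _ ≤ Fintype.card V * (Fintype.card V + 1) ^ 2 * (PMs G).ncard :=
        npm_count_dense G s hhole hdeg
    _ ≤ Fintype.card V * (Fintype.card V + 1) ^ 2
        * {M : G.Subgraph | M.IsPerfectMatching}.ncard :=
        Nat.mul_le_mul_left _ (perfect_le G)

end Vale.Agent.Lib.P308.H27
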