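import Vale.Agent.Lib.P308.H27.Bound

/-!
Regular graphs with a spectral gap and degree at least `144 L ^ 2`, where `L` steps of the
adjacency operator mix to accuracy `1 / n`: the near-perfect matchings are at most `n ^ 2 / d`
times as many as the perfect matchings.
-/

namespace Vale.Agent.Lib.P308.H27

open Finset

variable {V : Type*} [Fintype V] [DecidableEq V] (G : SimpleGraph V) [DecidableRel G.Adj]

/-- For a fixed hole `v`: the near-perfect matchings missing `v` are at most `2 n / d` times the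
perfect matchings. -/
theorem St_card_le {d L : ℕ} {lam : ℝ} (H : MixHyp G d L lam) (hd : 16 * (3 * L) ^ 2 ≤ d)
    (hdpos : 0 < d) (v : V) :
    (St G v).card * d ≤ 2 * Fintype.card V * (PMs G).ncard := by
  have hdeg : ∀ u, (G.neighborFinset u).card ≤ d := by
    intro u
    rw [G.card_neighborFinset_eq_degree, H.reg.degree_eq u]
  have h1 := sum_cnt_le G v d hdeg (3 * L)
  have h2 : ∀ p ∈ St G v,
      (d : ℝ) ^ (3 * L + 1) / (2 * Fintype.card V) ≤ (cnt G v (3 * L) p.1 p.2 : ℝ) := by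
    intro p hp
    rw [mem_St] at hp
    have h3 := sc_lower H hp hd
    have hcl : ∀ x ∈ ({p.2, v} : Finset V), p.1 x ∈ ({p.2, v} : Finset V) := by
      intro x hx
      rw [Finset.mem_insert, Finset.mem_singleton] at hx ⊢
      rcases hx with hx | hx
      · left
        rw [hx]
        exact hp.2.1
      · right
        rw [hx]
        exact hp.2.2.1
    have h4 := sc_le_cnt G v p.1 hp.2.2.2.1 (3 * L) {p.2, v} p.1 p.2 hp (fun _ _ => rfl)
      (Finset.mem_insert_self _ _) (Finset.mem_insert_of_mem (Finset.mem_singleton_self _)) hcl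
    have h5 : (sc G v p.1 (3 * L) {p.2, v} p.2 : ℝ) ≤ (cnt G v (3 * L) p.1 p.2 : ℝ) := by
      exact_mod_cast h4
    exact h3.trans h5
  have h5 : ((St G v).card : ℝ) * ((d : ℝ) ^ (3 * L + 1) / (2 * Fintype.card V))
      ≤ ∑ p ∈ St G v, (cnt G v (3 * L) p.1 p.2 : ℝ) := by
    rw [← nsmul_eq_mul]
    exact Finset.card_nsmul_le_sum _ _ _ h2
  have h6 : (∑ p ∈ St G v, (cnt G v (3 * L) p.1 p.2 : ℝ))
      ≤ (d : ℝ) ^ (3 * L) * (PMs G).ncard := by
    exact_mod_cast h1
  have hn : 0 < Fintype.card V := Fintype.card_pos_iff.mpr ⟨v⟩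
  have hnpos : (0 : ℝ) < Fintype.card V := by exact_mod_cast hn
  have hdr : (0 : ℝ) < d := by exact_mod_cast hdpos
  have hD : (0 : ℝ) < (d : ℝ) ^ (3 * L) := by positivity
  have hreal : ((St G v).card : ℝ) * d ≤ 2 * Fintype.card V * (PMs G).ncard := by
    have h7 : ((St G v).card : ℝ) * ((d : ℝ) ^ (3 * L + 1) / (2 * Fintype.card V))
        ≤ (d : ℝ) ^ (3 * L) * (PMs G).ncard := h5.trans h6
    have h8 : ((St G v).card : ℝ) * ((d : ℝ) ^ (3 * L + 1) / (2 * Fintype.card V))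
        = ((St G v).card : ℝ) * d * (d : ℝ) ^ (3 * L) / (2 * Fintype.card V) := by
      rw [pow_succ]
      ring
    rw [h8, div_le_iff₀ (by positivity)] at h7
    have h9 : ((St G v).card : ℝ) * d * (d : ℝ) ^ (3 * L)
        ≤ 2 * Fintype.card V * (PMs G).ncard * (d : ℝ) ^ (3 * L) := by
      calc ((St G v).card : ℝ) * d * (d : ℝ) ^ (3 * L)
          ≤ (d : ℝ) ^ (3 * L) * (PMs G).ncard * (2 * Fintype.card V) := h7
        _ = 2 * Fintype.card V * (PMs G).ncard * (d : ℝ) ^ (3 * L) := by ring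
    exact le_of_mul_le_mul_right h9 hD
  exact_mod_cast hreal

omit [DecidableRel G.Adj] in
/-- Each near-perfect matching is counted twice among the matchings with an ordered pair of
holes. -/
theorem two_mul_npm_le :
    2 * {g : V → V | ∃ u v, IsNPM G g u v}.ncard ≤ ∑ v, (St G v).card := by
  classical
  have hN : {g : V → V | ∃ u v, IsNPM G g u v}
      = ↑(Finset.univ.filter (fun g : V → V => ∃ u v, IsNPM G g u v)) := by
    ext g
    simp
  rw [hN, Set.ncard_coe_finset, ← Finset.card_sigma]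
  have hmaps : ∀ y ∈ (Finset.univ : Finset V).sigma (fun v => St G v),
      y.2.1 ∈ Finset.univ.filter (fun g : V → V => ∃ u v, IsNPM G g u v) := by
    intro y hy
    rw [Finset.mem_sigma, mem_St] at hy
    rw [Finset.mem_filter]
    exact ⟨Finset.mem_univ _, y.2.2, y.1, hy.2⟩
  rw [Finset.card_eq_sum_card_fiberwise hmaps, mul_comm, ← smul_eq_mul]
  apply Finset.card_nsmul_le_sum
  intro g hg
  rw [Finset.mem_filter] at hg
  obtain ⟨u, v, hn⟩ := hg.2
  have hn' : IsNPM G g v u :=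
    ⟨hn.1.symm, hn.2.2.1, hn.2.1, hn.2.2.2.1, fun x hxv hxu => hn.2.2.2.2 x hxu hxv⟩
  apply Nat.succ_le_of_lt
  rw [Finset.one_lt_card]
  refine ⟨⟨v, (g, u)⟩, ?_, ⟨u, (g, v)⟩, ?_, ?_⟩
  · rw [Finset.mem_filter, Finset.mem_sigma, mem_St]
    exact ⟨⟨Finset.mem_univ _, hn⟩, rfl⟩
  · rw [Finset.mem_filter, Finset.mem_sigma, mem_St]
    exact ⟨⟨Finset.mem_univ _, hn'⟩, rfl⟩
  · intro hEq
    have := congrArg Sigma.fst hEq
    exact hn.1 this.symm

/-- The ratio bound in the involution model. -/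
theorem npm_count_dense {d L : ℕ} {lam : ℝ} (H : MixHyp G d L lam)
    (hd : 16 * (3 * L) ^ 2 ≤ d) :
    {g : V → V | ∃ u v, IsNPM G g u v}.ncard * d ≤ Fintype.card V ^ 2 * (PMs G).ncard := by
  rcases Nat.eq_zero_or_pos d with hd0 | hdpos
  · rw [hd0, Nat.mul_zero]
    exact Nat.zero_le _
  have h1 := two_mul_npm_le G
  have h2 : ∑ v : V, (St G v).card * d ≤ ∑ _v : V, 2 * Fintype.card V * (PMs G).ncard :=
    Finset.sum_le_sum (fun v _ => St_card_le G H hd hdpos v)
  rw [← Finset.sum_mul, Finset.sum_const, Finset.card_univ, smul_eq_mul] at h2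
  have h3 : 2 * ({g : V → V | ∃ u v, IsNPM G g u v}.ncard * d)
      ≤ 2 * (Fintype.card V ^ 2 * (PMs G).ncard) := by
    calc 2 * ({g : V → V | ∃ u v, IsNPM G g u v}.ncard * d)
        = (2 * {g : V → V | ∃ u v, IsNPM G g u v}.ncard) * d := by ring
      _ ≤ (∑ v, (St G v).card) * d := Nat.mul_le_mul_right _ h1
      _ ≤ Fintype.card V * (2 * Fintype.card V * (PMs G).ncard) := h2
      _ = 2 * (Fintype.card V ^ 2 * (PMs G).ncard) := by ring
  exact Nat.le_of_mul_le_mul_left h3 (by norm_num)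

omit [DecidableEq V] in
/-- The ratio bound for matchings as subgraphs. -/
theorem dense_spectral (d L : ℕ) (lam : ℝ) (hreg : ∀ v : V, (G.neighborSet v).ncard = d)
    (hlam : 0 ≤ lam)
    (hspec : ∀ x : V → ℝ, ∑ v, x v = 0 →
      ∑ v, ((G.adjMatrix ℝ).mulVec x v) ^ 2 ≤ lam ^ 2 * ∑ v, x v ^ 2)
    (hmix : lam ^ L * Fintype.card V ≤ (d : ℝ) ^ L) (hdeg : 144 * L ^ 2 ≤ d) :
    {M : G.Subgraph | M.IsMatching ∧ M.verts.ncard + 2 = Fintype.card V}.ncard * d
      ≤ Fintype.card V ^ 2 * {M : G.Subgraph | M.IsPerfectMatching}.ncard := by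
  classical
  have hreg' : G.IsRegularOfDegree d := by
    intro v
    rw [← G.card_neighborFinset_eq_degree, ← hreg v, ← Set.ncard_coe_finset,
      G.coe_neighborFinset]
  have hspec' : ∀ x : V → ℝ, ∑ v, x v = 0 →
      ∑ v, (∑ w ∈ G.neighborFinset v, x w) ^ 2 ≤ lam ^ 2 * ∑ v, x v ^ 2 := by
    intro x hx
    have h1 := hspec x hx
    simp only [SimpleGraph.adjMatrix_mulVec_apply] at h1
    exact h1
  have hsub := nearPerfect_le G
  by_cases hn2 : 2 ≤ Fintype.card V
  · have hlamd : lam ≤ d := by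
      by_contra hcon
      have hlt : (d : ℝ) < lam := not_le.mp hcon
      have hd0 : (0 : ℝ) ≤ d := Nat.cast_nonneg d
      have h1 : (d : ℝ) ^ L ≤ lam ^ L := pow_le_pow_left₀ hd0 hlt.le L
      have h2 : (0 : ℝ) < lam ^ L := pow_pos (lt_of_le_of_lt hd0 hlt) L
      have h3 : (2 : ℝ) ≤ Fintype.card V := by exact_mod_cast hn2
      nlinarith
    have H : MixHyp G d L lam := ⟨hreg', hlam, hlamd, hspec', hmix⟩
    have hd16 : 16 * (3 * L) ^ 2 ≤ d := by
      calc 16 * (3 * L) ^ 2 = 144 * L ^ 2 := by ring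
        _ ≤ d := hdeg
    calc {M : G.Subgraph | M.IsMatching ∧ M.verts.ncard + 2 = Fintype.card V}.ncard * d
        ≤ {g : V → V | ∃ u v, IsNPM G g u v}.ncard * d := Nat.mul_le_mul_right _ hsub
      _ ≤ Fintype.card V ^ 2 * (PMs G).ncard := npm_count_dense G H hd16
      _ ≤ Fintype.card V ^ 2 * {M : G.Subgraph | M.IsPerfectMatching}.ncard :=
        Nat.mul_le_mul_left _ (perfect_le G)
  · have hempty : {g : V → V | ∃ u v, IsNPM G g u v} = ∅ := by
      apply Set.eq_empty_of_forall_notMem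
      rintro g ⟨u, v, hn⟩
      exact hn2 (Fintype.one_lt_card_iff.mpr ⟨u, v, hn.1⟩)
    rw [hempty, Set.ncard_empty] at hsub
    have h0 : {M : G.Subgraph | M.IsMatching ∧ M.verts.ncard + 2 = Fintype.card V}.ncard = 0 :=
      Nat.le_zero.mp hsub
    rw [h0, Nat.zero_mul]
    exact Nat.zero_le _

end Vale.Agent.Lib.P308.H27
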