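import Vale.Agent.Lib.P308.H27.Transfer

/-!
Counting sequences of rotations.  For a fixed hole `v`, the number of pairs (near-perfect
matching with holes `u`, `v`; sequence of `T` rotations of the hole `u` ending next to `v`) is at
most `d ^ T` times the number of perfect matchings, because rotations can be undone.
-/

namespace Vale.Agent.Lib.P308.H27

open Finset

variable {V : Type*} [Fintype V] [DecidableEq V] (G : SimpleGraph V) [DecidableRel G.Adj]

/-- The number of sequences of `T` rotations, starting from the near-perfect matching `g` with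
moving hole `u`, after which the moving hole is adjacent to the other hole `v`. -/
def cnt (v : V) : ℕ → (V → V) → V → ℕ
  | 0, _, u => if G.Adj u v then 1 else 0
  | T + 1, g, u => ∑ w ∈ (G.neighborFinset u).erase v, cnt v T (rot g u w) (g w)

omit [Fintype V] [DecidableRel G.Adj] in
/-- A rotation is undone by the rotation along the same vertex. -/
theorem rot_rot {g : V → V} {u v w : V} (h : IsNPM G g u v) (hadj : G.Adj u w) (hwv : w ≠ v) :
    rot (rot g u w) (g w) w = g := by
  obtain ⟨huv, hgu, hgv, hinv, hadjg⟩ := h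
  have hwu : w ≠ u := hadj.ne'
  have hxw : g w ≠ w := (hadjg w hwu hwv).ne'
  have hxu : g w ≠ u := by
    intro hx
    have := hinv w
    rw [hx, hgu] at this
    exact hwu this.symm
  have hrw : rot g u w w = u := by
    simp only [rot, if_neg hwu, if_true]
  funext z
  by_cases hzx : z = g w
  · subst hzx
    simp only [rot, if_true]
    exact (hinv w).symm
  · by_cases hzw : z = w
    · subst hzw
      simp only [rot, if_neg hzx, if_true, if_neg hwu]
    · by_cases hzu : z = u
      · subst hzu
        have h1 : rot (rot g z w) (g w) w z = rot g z w w := by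
          unfold rot
          simp only [if_neg hzx, if_neg hzw, if_neg hwu, if_true]
        rw [h1, hrw, hgu]
      · have h1 : rot (rot g u w) (g w) w z = rot g u w z := by
          have h2 : z ≠ rot g u w w := by
            rw [hrw]
            exact hzu
          show (if z = g w then w else if z = w then g w
            else if z = rot g u w w then rot g u w w else rot g u w z) = rot g u w z
          rw [if_neg hzx, if_neg hzw, if_neg h2]
        rw [h1]
        simp only [rot, if_neg hzu, if_neg hzw, if_neg hzx]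

/-- The near-perfect matchings with second hole `v`, together with their first hole. -/
noncomputable def St (v : V) : Finset ((V → V) × V) := by
  classical
  exact Finset.univ.filter (fun p => IsNPM G p.1 p.2 v)

omit [DecidableRel G.Adj] in
theorem mem_St (v : V) (p : (V → V) × V) : p ∈ St G v ↔ IsNPM G p.1 p.2 v := by
  classical
  unfold St
  rw [Finset.mem_filter]
  exact ⟨fun h => h.2, fun h => ⟨Finset.mem_univ _, h⟩⟩

theorem sum_cnt_succ_le (v : V) (d : ℕ) (hdeg : ∀ u, (G.neighborFinset u).card ≤ d) (T : ℕ) :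
    ∑ p ∈ St G v, cnt G v (T + 1) p.1 p.2 ≤ d * ∑ p ∈ St G v, cnt G v T p.1 p.2 := by
  have h1 : ∑ p ∈ St G v, cnt G v (T + 1) p.1 p.2
      = ∑ x ∈ (St G v).sigma (fun p => (G.neighborFinset p.2).erase v),
          cnt G v T (rot x.1.1 x.1.2 x.2) (x.1.1 x.2) := by
    rw [Finset.sum_sigma]
    rfl
  have hinj : ∀ x ∈ (St G v).sigma (fun p => (G.neighborFinset p.2).erase v),
      ∀ x' ∈ (St G v).sigma (fun p => (G.neighborFinset p.2).erase v),
      (⟨(rot x.1.1 x.1.2 x.2, x.1.1 x.2), x.2⟩ : (_ : (V → V) × V) × V)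
        = ⟨(rot x'.1.1 x'.1.2 x'.2, x'.1.1 x'.2), x'.2⟩ → x = x' := by
    rintro ⟨⟨g, u⟩, w⟩ hx ⟨⟨g', u'⟩, w'⟩ hx' hEq
    rw [Finset.mem_sigma] at hx hx'
    obtain ⟨hp, hw⟩ := hx
    obtain ⟨hp', hw'⟩ := hx'
    rw [mem_St] at hp hp'
    rw [Finset.mem_erase, G.mem_neighborFinset] at hw hw'
    dsimp only at hp hp' hw hw' hEq
    have e2 : w = w' := congrArg (fun s : (_ : (V → V) × V) × V => s.2) hEq
    subst e2
    have e1 : (rot g u w, g w) = (rot g' u' w, g' w) :=
      congrArg (fun s : (_ : (V → V) × V) × V => s.1) hEq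
    have e3 : rot g u w = rot g' u' w := congrArg Prod.fst e1
    have e4 : g w = g' w := congrArg Prod.snd e1
    have hu : u = u' := by
      have a1 : rot g u w w = u := by
        simp only [rot, if_neg hw.2.ne', if_true]
      have a2 : rot g' u' w w = u' := by
        simp only [rot, if_neg hw'.2.ne', if_true]
      rw [← a1, ← a2, e3]
    subst hu
    have hg : g = g' := by
      rw [← rot_rot G hp hw.2 hw.1, ← rot_rot G hp' hw'.2 hw'.1, e3, e4]
    subst hg
    rfl
  have himg : ((St G v).sigma (fun p => (G.neighborFinset p.2).erase v)).image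
      (fun x => (⟨(rot x.1.1 x.1.2 x.2, x.1.1 x.2), x.2⟩ : (_ : (V → V) × V) × V))
      ⊆ (St G v).sigma (fun q => G.neighborFinset q.2) := by
    intro y hy
    rw [Finset.mem_image] at hy
    obtain ⟨⟨⟨g, u⟩, w⟩, hx, rfl⟩ := hy
    rw [Finset.mem_sigma] at hx
    obtain ⟨hp, hw⟩ := hx
    rw [mem_St] at hp
    rw [Finset.mem_erase, G.mem_neighborFinset] at hw
    dsimp only at hp hw
    rw [Finset.mem_sigma]
    refine ⟨?_, ?_⟩
    · rw [mem_St]
      exact rot_npm hp hw.2 hw.1
    · rw [G.mem_neighborFinset]
      exact (hp.2.2.2.2 w hw.2.ne' hw.1).symm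
  have h2 : ∑ x ∈ (St G v).sigma (fun p => (G.neighborFinset p.2).erase v),
      cnt G v T (rot x.1.1 x.1.2 x.2) (x.1.1 x.2)
      = ∑ y ∈ ((St G v).sigma (fun p => (G.neighborFinset p.2).erase v)).image
          (fun x => (⟨(rot x.1.1 x.1.2 x.2, x.1.1 x.2), x.2⟩ : (_ : (V → V) × V) × V)),
          cnt G v T y.1.1 y.1.2 := by
    rw [Finset.sum_image hinj]
  have h3 : ∑ y ∈ (St G v).sigma (fun q => G.neighborFinset q.2), cnt G v T y.1.1 y.1.2
      = ∑ q ∈ St G v, (G.neighborFinset q.2).card * cnt G v T q.1 q.2 := by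
    rw [Finset.sum_sigma]
    apply Finset.sum_congr rfl
    intro q _
    simp only [Finset.sum_const, smul_eq_mul]
  rw [h1, h2]
  calc ∑ y ∈ ((St G v).sigma (fun p => (G.neighborFinset p.2).erase v)).image
          (fun x => (⟨(rot x.1.1 x.1.2 x.2, x.1.1 x.2), x.2⟩ : (_ : (V → V) × V) × V)),
          cnt G v T y.1.1 y.1.2
      ≤ ∑ y ∈ (St G v).sigma (fun q => G.neighborFinset q.2), cnt G v T y.1.1 y.1.2 :=
        Finset.sum_le_sum_of_subset himg
    _ = ∑ q ∈ St G v, (G.neighborFinset q.2).card * cnt G v T q.1 q.2 := h3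
    _ ≤ ∑ q ∈ St G v, d * cnt G v T q.1 q.2 :=
        Finset.sum_le_sum (fun q _ => Nat.mul_le_mul_right _ (hdeg q.2))
    _ = d * ∑ q ∈ St G v, cnt G v T q.1 q.2 := by rw [Finset.mul_sum]

theorem sum_cnt_zero_le (v : V) : ∑ p ∈ St G v, cnt G v 0 p.1 p.2 ≤ (PMs G).ncard := by
  classical
  have h1 : ∑ p ∈ St G v, cnt G v 0 p.1 p.2 = ((St G v).filter (fun p => G.Adj p.2 v)).card := by
    rw [Finset.card_filter]
    rfl
  rw [h1, ← Set.ncard_coe_finset]
  refine ncard_le_of_rel _ _ (Set.toFinite _)
    (fun p f => f = Function.update (Function.update p.1 p.2 v) v p.2) ?_ ?_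
  · rintro ⟨g, h⟩ hp
    rw [Finset.mem_coe, Finset.mem_filter, mem_St] at hp
    obtain ⟨⟨hhv, hgh, hgv, hinv, hadjg⟩, hadj⟩ := hp
    dsimp only at hhv hgh hgv hinv hadjg hadj
    refine ⟨Function.update (Function.update g h v) v h, ?_, rfl⟩
    intro x
    by_cases hxv : x = v
    · subst hxv
      simp only [Function.update_self]
      refine ⟨hadj.symm, ?_⟩
      rw [Function.update_of_ne hhv, Function.update_self]
    · by_cases hxh : x = h
      · subst hxh
        simp only [Function.update_of_ne hxv, Function.update_self]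
        exact ⟨hadj, trivial⟩
      · have h1 : g x ≠ v := by
          intro hh
          have := hinv x
          rw [hh, hgv] at this
          exact hxv this.symm
        have h2 : g x ≠ h := by
          intro hh
          have := hinv x
          rw [hh, hgh] at this
          exact hxh this.symm
        simp only [Function.update_of_ne hxv, Function.update_of_ne hxh,
          Function.update_of_ne h1, Function.update_of_ne h2]
        exact ⟨hadjg x hxh hxv, hinv x⟩
  · rintro ⟨g, h⟩ hp ⟨g', h'⟩ hp' f hf hf'
    rw [Finset.mem_coe, Finset.mem_filter, mem_St] at hp hp'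
    obtain ⟨⟨hhv, hgh, hgv, hinv, hadjg⟩, _⟩ := hp
    obtain ⟨⟨hhv', hgh', hgv', hinv', hadjg'⟩, _⟩ := hp'
    dsimp only at hhv hgh hgv hinv hadjg hhv' hgh' hgv' hinv' hadjg' hf hf'
    have hh : h = h' := by
      have e1 : f v = h := by
        rw [hf, Function.update_self]
      have e2 : f v = h' := by
        rw [hf', Function.update_self]
      rw [← e1, ← e2]
    subst hh
    have hg : g = g' := by
      funext x
      by_cases hxv : x = v
      · rw [hxv, hgv, hgv']
      · by_cases hxh : x = h
        · rw [hxh, hgh, hgh']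
        · have e1 : f x = g x := by
            rw [hf, Function.update_of_ne hxv, Function.update_of_ne hxh]
          have e2 : f x = g' x := by
            rw [hf', Function.update_of_ne hxv, Function.update_of_ne hxh]
          rw [← e1, ← e2]
    rw [hg]

/-- Rotations can be undone: the rotation sequences ending next to `v`, over all near-perfect
matchings with hole `v`, number at most `d ^ T` times the perfect matchings. -/
theorem sum_cnt_le (v : V) (d : ℕ) (hdeg : ∀ u, (G.neighborFinset u).card ≤ d) (T : ℕ) :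
    ∑ p ∈ St G v, cnt G v T p.1 p.2 ≤ d ^ T * (PMs G).ncard := by
  induction T with
  | zero =>
    rw [pow_zero, one_mul]
    exact sum_cnt_zero_le G v
  | succ T ih =>
    calc ∑ p ∈ St G v, cnt G v (T + 1) p.1 p.2
        ≤ d * ∑ p ∈ St G v, cnt G v T p.1 p.2 := sum_cnt_succ_le G v d hdeg T
      _ ≤ d * (d ^ T * (PMs G).ncard) := Nat.mul_le_mul_left _ ih
      _ = d ^ (T + 1) * (PMs G).ncard := by ring

end Vale.Agent.Lib.P308.H27
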