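import Vale.Agent.Lib.P308.H27.Pair
import Vale.Agent.Lib.P308.H27.DenseSpec

/-!
Rotation sequences with a weight on the final near-perfect matching; moving first one hole and
then the other.  Together with the count of disjoint pairs of self-avoiding walks this bounds
the number of near-perfect matchings of a regular graph with a spectral gap by a polynomial
multiple of the number of perfect matchings, uniformly in the degree.
-/

namespace Vale.Agent.Lib.P308.H27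

open Finset

variable {V : Type*} [Fintype V] [DecidableEq V] (G : SimpleGraph V) [DecidableRel G.Adj]

/-- Sum of the weight `Φ` of the final near-perfect matching and moving hole over the sequences
of `T` rotations starting from `g` with moving hole `u` and fixed hole `v`. -/
def cg (v : V) (Φ : (V → V) → V → ℕ) : ℕ → (V → V) → V → ℕ
  | 0, g, u => Φ g u
  | T + 1, g, u => ∑ w ∈ (G.neighborFinset u).erase v, cg v Φ T (rot g u w) (g w)

theorem cg_succ (v : V) (Φ : (V → V) → V → ℕ) (T : ℕ) (g : V → V) (u : V) :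
    cg G v Φ (T + 1) g u
      = ∑ w ∈ (G.neighborFinset u).erase v, cg G v Φ T (rot g u w) (g w) := rfl

theorem cg_add (v : V) (Φ : (V → V) → V → ℕ) (t : ℕ) :
    ∀ (j : ℕ) (g : V → V) (u : V), cg G v Φ (j + t) g u = cg G v (cg G v Φ t) j g u := by
  intro j
  induction j with
  | zero =>
    intro g u
    rw [Nat.zero_add]
    rfl
  | succ j ih =>
    intro g u
    have e : j + 1 + t = j + t + 1 := by omega
    rw [e, cg_succ, cg_succ]
    exact Finset.sum_congr rfl (fun w _ => ih _ _)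

/-- Rotations can be undone: one rotation step, summed over the near-perfect matchings with
fixed hole `v`, costs at most a factor `d`. -/
theorem sum_rot_le (v : V) (d : ℕ) (hdeg : ∀ u, (G.neighborFinset u).card ≤ d)
    (f : (V → V) → V → ℕ) :
    ∑ p ∈ St G v, ∑ w ∈ (G.neighborFinset p.2).erase v, f (rot p.1 p.2 w) (p.1 w)
      ≤ d * ∑ p ∈ St G v, f p.1 p.2 := by
  have h1 : ∑ p ∈ St G v, ∑ w ∈ (G.neighborFinset p.2).erase v, f (rot p.1 p.2 w) (p.1 w)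
      = ∑ x ∈ (St G v).sigma (fun p => (G.neighborFinset p.2).erase v),
          f (rot x.1.1 x.1.2 x.2) (x.1.1 x.2) := by
    rw [Finset.sum_sigma]
  have hinj : ∀ x ∈ (St G v).sigma (fun p => (G.neighborFinset p.2).erase v),
      ∀ x' ∈ (St G v).sigma (fun p => (G.neighborFinset p.2).erase v),
      (⟨(rot x.1.1 x.1.2 x.2, x.1.1 x.2), x.2⟩ : (_ : (V → V) × V) × V)
        = ⟨(rot x'.1.1 x'.1.2 x'.2, x'.1.1 x'.2), x'.2⟩ → x = x' := by
    rintro ⟨⟨g, u⟩, w⟩ hx ⟨⟨g', u'⟩, w'⟩ hx' hEq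
    rw [Finset.mem_sigma] at hx hx'
    obtain ⟨hp, hw⟩ := hx
    obtain ⟨hp', hw'⟩ := hx'
    rw [mem_St] at hp hp'
    rw [Finset.mem_erase, G.mem_neighborFinset] at hw hw'
    dsimp only at hp hp' hw hw' hEq
    have e2 : w = w' := congrArg (fun s : (_ : (V → V) × V) × V => s.2) hEq
    subst e2
    have e1 : (rot g u w, g w) = (rot g' u' w, g' w) :=
      congrArg (fun s : (_ : (V → V) × V) × V => s.1) hEq
    have e3 : rot g u w = rot g' u' w := congrArg Prod.fst e1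
    have e4 : g w = g' w := congrArg Prod.snd e1
    have hu : u = u' := by
      have a1 : rot g u w w = u := by
        simp only [rot, if_neg hw.2.ne', if_true]
      have a2 : rot g' u' w w = u' := by
        simp only [rot, if_neg hw'.2.ne', if_true]
      rw [← a1, ← a2, e3]
    subst hu
    have hg : g = g' := by
      rw [← rot_rot G hp hw.2 hw.1, ← rot_rot G hp' hw'.2 hw'.1, e3, e4]
    subst hg
    rfl
  have himg : ((St G v).sigma (fun p => (G.neighborFinset p.2).erase v)).image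
      (fun x => (⟨(rot x.1.1 x.1.2 x.2, x.1.1 x.2), x.2⟩ : (_ : (V → V) × V) × V))
      ⊆ (St G v).sigma (fun q => G.neighborFinset q.2) := by
    intro y hy
    rw [Finset.mem_image] at hy
    obtain ⟨⟨⟨g, u⟩, w⟩, hx, rfl⟩ := hy
    rw [Finset.mem_sigma] at hx
    obtain ⟨hp, hw⟩ := hx
    rw [mem_St] at hp
    rw [Finset.mem_erase, G.mem_neighborFinset] at hw
    dsimp only at hp hw
    rw [Finset.mem_sigma]
    refine ⟨?_, ?_⟩
    · rw [mem_St]
      exact rot_npm hp hw.2 hw.1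
    · rw [G.mem_neighborFinset]
      exact (hp.2.2.2.2 w hw.2.ne' hw.1).symm
  have h2 : ∑ x ∈ (St G v).sigma (fun p => (G.neighborFinset p.2).erase v),
      f (rot x.1.1 x.1.2 x.2) (x.1.1 x.2)
      = ∑ y ∈ ((St G v).sigma (fun p => (G.neighborFinset p.2).erase v)).image
          (fun x => (⟨(rot x.1.1 x.1.2 x.2, x.1.1 x.2), x.2⟩ : (_ : (V → V) × V) × V)),
          f y.1.1 y.1.2 := by
    rw [Finset.sum_image hinj]
  have h3 : ∑ y ∈ (St G v).sigma (fun q => G.neighborFinset q.2), f y.1.1 y.1.2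
      = ∑ q ∈ St G v, (G.neighborFinset q.2).card * f q.1 q.2 := by
    rw [Finset.sum_sigma]
    apply Finset.sum_congr rfl
    intro q _
    simp only [Finset.sum_const, smul_eq_mul]
  rw [h1, h2]
  calc ∑ y ∈ ((St G v).sigma (fun p => (G.neighborFinset p.2).erase v)).image
          (fun x => (⟨(rot x.1.1 x.1.2 x.2, x.1.1 x.2), x.2⟩ : (_ : (V → V) × V) × V)),
          f y.1.1 y.1.2
      ≤ ∑ y ∈ (St G v).sigma (fun q => G.neighborFinset q.2), f y.1.1 y.1.2 :=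
        Finset.sum_le_sum_of_subset himg
    _ = ∑ q ∈ St G v, (G.neighborFinset q.2).card * f q.1 q.2 := h3
    _ ≤ ∑ q ∈ St G v, d * f q.1 q.2 :=
        Finset.sum_le_sum (fun q _ => Nat.mul_le_mul_right _ (hdeg q.2))
    _ = d * ∑ q ∈ St G v, f q.1 q.2 := by rw [Finset.mul_sum]

theorem sum_cg_le (v : V) (d : ℕ) (hdeg : ∀ u, (G.neighborFinset u).card ≤ d)
    (Φ : (V → V) → V → ℕ) (T : ℕ) :
    ∑ p ∈ St G v, cg G v Φ T p.1 p.2 ≤ d ^ T * ∑ p ∈ St G v, Φ p.1 p.2 := by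
  induction T with
  | zero =>
    rw [pow_zero, one_mul]
    exact le_refl _
  | succ T ih =>
    calc ∑ p ∈ St G v, cg G v Φ (T + 1) p.1 p.2
        ≤ d * ∑ p ∈ St G v, cg G v Φ T p.1 p.2 := sum_rot_le G v d hdeg (cg G v Φ T)
      _ ≤ d * (d ^ T * ∑ p ∈ St G v, Φ p.1 p.2) := Nat.mul_le_mul_left _ ih
      _ = d ^ (T + 1) * ∑ p ∈ St G v, Φ p.1 p.2 := by ring

omit [Fintype V] [DecidableEq V] [DecidableRel G.Adj] in
theorem IsNPM.symm' {g : V → V} {u v : V} (h : IsNPM G g u v) : IsNPM G g v u :=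
  ⟨h.1.symm, h.2.2.1, h.2.1, h.2.2.2.1, fun x hxv hxu => h.2.2.2.2 x hxu hxv⟩

omit [DecidableRel G.Adj] in
/-- Exchanging the roles of the two holes in a sum over the near-perfect matchings. -/
theorem sum_St_swap (F : (V → V) → V → V → ℕ) :
    ∑ v, ∑ p ∈ St G v, F p.1 p.2 v = ∑ u, ∑ p ∈ St G u, F p.1 u p.2 := by
  rw [Finset.sum_sigma', Finset.sum_sigma']
  refine Finset.sum_nbij' (fun x => ⟨x.2.2, (x.2.1, x.1)⟩) (fun x => ⟨x.2.2, (x.2.1, x.1)⟩)
    ?_ ?_ ?_ ?_ ?_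
  · intro x hx
    rw [Finset.mem_sigma, mem_St] at hx ⊢
    exact ⟨Finset.mem_univ _, hx.2.symm'⟩
  · intro x hx
    rw [Finset.mem_sigma, mem_St] at hx ⊢
    exact ⟨Finset.mem_univ _, hx.2.symm'⟩
  · intro x _
    rfl
  · intro x _
    rfl
  · intro x _
    rfl

/-- Self-avoiding alternating walks are rotation sequences, with weights. -/
theorem sg_le_cg (v : V) (g : V → V) (hinv : ∀ x, g (g x) = x) (φ : Finset V → V → ℝ)
    (Φ : (V → V) → V → ℕ)
    (hterm : ∀ (F : Finset V) (g' : V → V) (z : V), IsNPM G g' z v →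
      (∀ x, x ∉ F → g' x = g x) → z ∈ F → v ∈ F → Cl g F → φ F z ≤ (Φ g' z : ℝ)) :
    ∀ (T : ℕ) (F : Finset V) (g' : V → V) (z : V), IsNPM G g' z v →
      (∀ x, x ∉ F → g' x = g x) → z ∈ F → v ∈ F → Cl g F →
      sg G g φ T F z ≤ (cg G v Φ T g' z : ℝ) := by
  intro T
  induction T with
  | zero =>
    intro F g' z hn hag hz hv hcl
    exact hterm F g' z hn hag hz hv hcl
  | succ T ih =>
    intro F g' z hn hag hz hv hcl
    rw [sg_succ, cg_succ, Nat.cast_sum]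
    have hsub : (G.neighborFinset z).filter (fun w => w ∉ F) ⊆ (G.neighborFinset z).erase v := by
      intro w hw
      rw [Finset.mem_filter] at hw
      rw [Finset.mem_erase]
      refine ⟨?_, hw.1⟩
      intro hwv
      rw [hwv] at hw
      exact hw.2 hv
    refine le_trans (Finset.sum_le_sum ?_)
      (Finset.sum_le_sum_of_subset_of_nonneg hsub (fun _ _ _ => Nat.cast_nonneg _))
    intro w hw
    rw [Finset.mem_filter, G.mem_neighborFinset] at hw
    obtain ⟨hadj, hwF⟩ := hw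
    have hwv : w ≠ v := by
      intro h
      rw [h] at hwF
      exact hwF hv
    have hgw : g' w = g w := hag w hwF
    have hn' := rot_npm hn hadj hwv
    rw [hgw] at hn' ⊢
    refine ih (F ∪ {w, g w}) (rot g' z w) (g w) hn' ?_ ?_ ?_ (Cl_union hinv hcl w)
    · intro x hx
      simp only [Finset.mem_union, Finset.mem_insert, Finset.mem_singleton, not_or] at hx
      have hxz : x ≠ z := by
        intro h
        rw [h] at hx
        exact hx.1 hz
      have hx3 : x ≠ g' w := by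
        rw [hgw]
        exact hx.2.2
      simp only [rot, if_neg hxz, if_neg hx.2.1, if_neg hx3]
      exact hag x hx.1
    · simp only [Finset.mem_union, Finset.mem_insert, Finset.mem_singleton]
      exact Or.inr (Or.inr trivial)
    · exact Finset.mem_union_left _ hv

variable {G} {d : ℕ} {lam q : ℝ}

/-- Holes far apart: many sequences of rotations of the first hole and then of the second hole
bring the two holes next to each other. -/
theorem far_cg {ℓ r₀ : ℕ} (H : GHyp G d lam q (2 * ℓ)) (hN : (Fintype.card V : ℝ) ≤ 1024 ^ ℓ)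
    (hS : Snum d (Fintype.card V) q ℓ r₀ ≤ d / 5) {g : V → V} {z v : V} (hn : IsNPM G g z v)
    (hfar : z ∉ ball G (2 * r₀ + 1) v) :
    (d : ℝ) * ((q * d) ^ (2 * ℓ) * (q * d) ^ (2 * ℓ)) / (2 * Fintype.card V)
      ≤ ((cg G v (fun g' x => cnt G x (2 * ℓ) g' v) (2 * ℓ) g z : ℕ) : ℝ) := by
  have hinv := hn.2.2.2.1
  have hcard : 0 < Fintype.card V := Fintype.card_pos_iff.mpr ⟨z⟩
  have hnpos : (0 : ℝ) < Fintype.card V := by exact_mod_cast hcard
  have h1 := far_pair H hn hN hfar hS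
  have hterm : ∀ (F : Finset V) (g' : V → V) (x : V), IsNPM G g' x v →
      (∀ y, y ∉ F → g' y = g y) → x ∈ F → v ∈ F → Cl g F →
      (sc G x g (2 * ℓ) F v : ℝ) ≤ ((cnt G x (2 * ℓ) g' v : ℕ) : ℝ) := by
    intro F g' x hn' hag hx hv hcl
    have := sc_le_cnt G x g hinv (2 * ℓ) F g' v hn'.symm' hag hv hx hcl
    exact_mod_cast this
  have h2 := sg_le_cg G v g hinv (fun F' x => (sc G x g (2 * ℓ) F' v : ℝ))
    (fun g' x => cnt G x (2 * ℓ) g' v) hterm (2 * ℓ) {z, v} g z hn (fun _ _ => rfl)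
    (Finset.mem_insert_self _ _) (Finset.mem_insert_of_mem (Finset.mem_singleton_self _))
    (Cl_pair hn.2.1 hn.2.2.1)
  have h3 := tot_ge_pow H hinv z v (le_refl (2 * ℓ))
  have h4 := tot_ge_pow H hinv v z (le_refl (2 * ℓ))
  have hq : 0 < q := by linarith [H.q34]
  have hp : 0 ≤ (q * d) ^ (2 * ℓ) := pow_nonneg (mul_nonneg hq.le (Nat.cast_nonneg d)) _
  have h5 : (q * d) ^ (2 * ℓ) * (q * d) ^ (2 * ℓ)
      ≤ tot G g (2 * ℓ) {z, v} z * tot G g (2 * ℓ) {v, z} v :=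
    mul_le_mul h3 h4 hp (le_trans hp h3)
  have h6 : (d : ℝ) * ((q * d) ^ (2 * ℓ) * (q * d) ^ (2 * ℓ)) / (2 * Fintype.card V)
      ≤ (d : ℝ) * (tot G g (2 * ℓ) {z, v} z * tot G g (2 * ℓ) {v, z} v)
          / (2 * Fintype.card V) :=
    div_le_div_of_nonneg_right (mul_le_mul_of_nonneg_left h5 (Nat.cast_nonneg d))
      (by positivity)
  linarith

/-- Half of the self-avoiding walks with `2 ℓ` matching edges end outside a small ball. -/
theorem esc_count {ℓ r₀ : ℕ} (H : GHyp G d lam q (2 * ℓ))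
    (hN : (Fintype.card V : ℝ) ≤ 1024 ^ ℓ)
    (hesc : 4 * ((d : ℝ) + 1) ^ (2 * r₀ + 1) ≤ Fintype.card V * q ^ (2 * ℓ))
    {g : V → V} (hinv : ∀ x, g (g x) = x) (u v : V) :
    (q * d) ^ (2 * ℓ) / 2
      ≤ ∑ x, sa G g x (2 * ℓ) {u, v} u
          * (if x ∈ ball G (2 * r₀ + 1) v then (0 : ℝ) else 1) := by
  have hcard : 0 < Fintype.card V := Fintype.card_pos_iff.mpr ⟨u⟩
  have hnpos : (0 : ℝ) < Fintype.card V := by exact_mod_cast hcard
  have hq : 0 < q := by linarith [H.q34]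
  have hpt : ∀ x, sa G g x (2 * ℓ) {u, v} u ≤ 2 * (d : ℝ) ^ (2 * ℓ) / Fintype.card V := by
    intro x
    have h1 : sa G g x (2 * ℓ) {u, v} u ≤ (Dop G g)^[2 * ℓ] (dl x) u :=
      sg_le_free G g (dl_nonneg x) (2 * ℓ) {u, v} u
    have h2 := mix G H.reg H.lam0 H.spec hinv (2 * ℓ) (dl x) (dl_nonneg x) u
    rw [sum_dl, mul_one] at h2
    have h3 := (abs_le.mp h2).2
    have h4 : lam ^ (2 * ℓ) ≤ (d : ℝ) ^ (2 * ℓ) / Fintype.card V := by
      have h5 : lam ^ (2 * ℓ) ≤ ((d : ℝ) / 64) ^ (2 * ℓ) :=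
        pow_le_pow_left₀ H.lam0 H.lam64 _
      have h6 : ((d : ℝ) / 64) ^ (2 * ℓ) = (d : ℝ) ^ (2 * ℓ) / 4096 ^ ℓ := by
        rw [div_pow, pow_mul (64 : ℝ) 2 ℓ]
        norm_num
      have h7 : (Fintype.card V : ℝ) ≤ 4096 ^ ℓ :=
        hN.trans (pow_le_pow_left₀ (by norm_num) (by norm_num) ℓ)
      have h8 : (d : ℝ) ^ (2 * ℓ) / 4096 ^ ℓ ≤ (d : ℝ) ^ (2 * ℓ) / Fintype.card V :=
        div_le_div_of_nonneg_left (by positivity) hnpos h7
      linarith
    have e : (d : ℝ) ^ (2 * ℓ) * (1 / Fintype.card V) + (d : ℝ) ^ (2 * ℓ) / Fintype.card V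
        = 2 * (d : ℝ) ^ (2 * ℓ) / Fintype.card V := by ring
    linarith
  have hdeg : ∀ w, (G.neighborFinset w).card ≤ d := by
    intro w
    rw [G.card_neighborFinset_eq_degree, H.reg.degree_eq w]
  have hB := card_ball_le G hdeg v (2 * r₀ + 1)
  have hBr : ((ball G (2 * r₀ + 1) v).card : ℝ) ≤ ((d : ℝ) + 1) ^ (2 * r₀ + 1) := by
    exact_mod_cast hB
  have hsumB : ∑ x ∈ ball G (2 * r₀ + 1) v, sa G g x (2 * ℓ) {u, v} u
      ≤ ((ball G (2 * r₀ + 1) v).card : ℝ) * (2 * (d : ℝ) ^ (2 * ℓ) / Fintype.card V) := by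
    rw [← nsmul_eq_mul]
    exact Finset.sum_le_card_nsmul _ _ _ (fun x _ => hpt x)
  have hsplit : ∑ x, sa G g x (2 * ℓ) {u, v} u
        * (if x ∈ ball G (2 * r₀ + 1) v then (0 : ℝ) else 1)
      = tot G g (2 * ℓ) {u, v} u
        - ∑ x ∈ ball G (2 * r₀ + 1) v, sa G g x (2 * ℓ) {u, v} u := by
    rw [tot_eq_sum]
    have e1 : ∀ x, sa G g x (2 * ℓ) {u, v} u
          * (if x ∈ ball G (2 * r₀ + 1) v then (0 : ℝ) else 1)
        = sa G g x (2 * ℓ) {u, v} u
          - (if x ∈ ball G (2 * r₀ + 1) v then sa G g x (2 * ℓ) {u, v} u else 0) := by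
      intro x
      split_ifs <;> ring
    rw [Finset.sum_congr rfl (fun x _ => e1 x), Finset.sum_sub_distrib, Finset.sum_ite_mem,
      Finset.univ_inter]
  have htot := tot_ge_pow H hinv u v (le_refl (2 * ℓ))
  rw [hsplit]
  have h9 : ((ball G (2 * r₀ + 1) v).card : ℝ) * (2 * (d : ℝ) ^ (2 * ℓ) / Fintype.card V)
      ≤ (q * d) ^ (2 * ℓ) / 2 := by
    have h10 : ((ball G (2 * r₀ + 1) v).card : ℝ) ≤ Fintype.card V * q ^ (2 * ℓ) / 4 := by
      linarith
    calc ((ball G (2 * r₀ + 1) v).card : ℝ) * (2 * (d : ℝ) ^ (2 * ℓ) / Fintype.card V)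
        ≤ (Fintype.card V * q ^ (2 * ℓ) / 4) * (2 * (d : ℝ) ^ (2 * ℓ) / Fintype.card V) :=
          mul_le_mul_of_nonneg_right h10 (by positivity)
      _ = (q * d) ^ (2 * ℓ) / 2 := by
          rw [mul_pow]
          field_simp
          ring
  linarith

/-- A first phase of self-avoiding rotations that leaves a given set `B`. -/
theorem escape (v : V) {g : V → V} {u : V} (hn : IsNPM G g u v) (B : Finset V) (M : ℝ)
    (Φ : (V → V) → V → ℕ)
    (hM : ∀ (g' : V → V) (z : V), IsNPM G g' z v → z ∉ B → M ≤ (Φ g' z : ℝ)) (j : ℕ) :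
    M * ∑ x, sa G g x j {u, v} u * (if x ∈ B then (0 : ℝ) else 1)
      ≤ ((cg G v Φ j g u : ℕ) : ℝ) := by
  have hinv := hn.2.2.2.1
  have hterm : ∀ (F : Finset V) (g' : V → V) (z : V), IsNPM G g' z v →
      (∀ x, x ∉ F → g' x = g x) → z ∈ F → v ∈ F → Cl g F →
      M * (if z ∈ B then (0 : ℝ) else 1) ≤ (Φ g' z : ℝ) := by
    intro F g' z hn' _ _ _ _
    by_cases hz : z ∈ B
    · rw [if_pos hz, mul_zero]
      exact Nat.cast_nonneg _
    · rw [if_neg hz, mul_one]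
      exact hM g' z hn' hz
  have h1 := sg_le_cg G v g hinv (fun _ x => M * (if x ∈ B then (0 : ℝ) else 1)) Φ hterm j
    {u, v} g u hn (fun _ _ => rfl) (Finset.mem_insert_self _ _)
    (Finset.mem_insert_of_mem (Finset.mem_singleton_self _)) (Cl_pair hn.2.1 hn.2.2.1)
  have h2 := sg_eq_sum_sa G g (fun x => M * (if x ∈ B then (0 : ℝ) else 1)) j {u, v} u
  rw [h2] at h1
  have e : M * ∑ x, sa G g x j {u, v} u * (if x ∈ B then (0 : ℝ) else 1)
      = ∑ x, sa G g x j {u, v} u * (M * (if x ∈ B then (0 : ℝ) else 1)) := by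
    rw [Finset.mul_sum]
    apply Finset.sum_congr rfl
    intro x _
    ring
  rw [e]
  exact h1

/-- The ratio bound in the involution model, with the numerical side conditions as
hypotheses. -/
theorem npm_count_mid {ℓ r₀ : ℕ} (H : GHyp G d lam q (2 * ℓ))
    (hN : (Fintype.card V : ℝ) ≤ 1024 ^ ℓ)
    (hS : Snum d (Fintype.card V) q ℓ r₀ ≤ d / 5)
    (hesc : 4 * ((d : ℝ) + 1) ^ (2 * r₀ + 1) ≤ Fintype.card V * q ^ (2 * ℓ)) :
    ({g : V → V | ∃ u v, IsNPM G g u v}.ncard : ℝ) * d * q ^ (6 * ℓ)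
      ≤ 2 * (Fintype.card V : ℝ) ^ 2 * (PMs G).ncard := by
  have hq : 0 < q := by linarith [H.q34]
  have hdr : (0 : ℝ) < d := by exact_mod_cast H.dpos
  have hdeg : ∀ w, (G.neighborFinset w).card ≤ d := by
    intro w
    rw [G.card_neighborFinset_eq_degree, H.reg.degree_eq w]
  rcases isEmpty_or_nonempty V with hV | hV
  · have hempty : {g : V → V | ∃ u v, IsNPM G g u v} = ∅ := by
      apply Set.eq_empty_of_forall_notMem
      rintro g ⟨u, _⟩
      exact hV.elim u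
    rw [hempty, Set.ncard_empty]
    simp only [Nat.cast_zero, zero_mul]
    positivity
  obtain ⟨v₀⟩ := hV
  have hcard : 0 < Fintype.card V := Fintype.card_pos_iff.mpr ⟨v₀⟩
  have hnpos : (0 : ℝ) < Fintype.card V := by exact_mod_cast hcard
  have hp : 0 < (q * d) ^ (2 * ℓ) := pow_pos (mul_pos hq hdr) _
  obtain ⟨M, hMdef⟩ : ∃ M : ℝ,
      M = (d : ℝ) * ((q * d) ^ (2 * ℓ) * (q * d) ^ (2 * ℓ)) / (2 * Fintype.card V) := ⟨_, rfl⟩
  have hM0 : 0 ≤ M := by
    rw [hMdef]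
    positivity
  have hlow : ∀ v, ∀ p ∈ St G v, M * ((q * d) ^ (2 * ℓ) / 2)
      ≤ ((cg G v (fun g' x => cnt G x (2 * ℓ) g' v) (2 * ℓ + 2 * ℓ) p.1 p.2 : ℕ) : ℝ) := by
    intro v p hp'
    rw [mem_St] at hp'
    have hinv := hp'.2.2.2.1
    have hM : ∀ (g' : V → V) (z : V), IsNPM G g' z v → z ∉ ball G (2 * r₀ + 1) v →
        M ≤ ((cg G v (fun g' x => cnt G x (2 * ℓ) g' v) (2 * ℓ) g' z : ℕ) : ℝ) := by
      intro g' z hn' hz
      rw [hMdef]
      exact far_cg H hN hS hn' hz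
    have hE := escape v hp' (ball G (2 * r₀ + 1) v) M
      (cg G v (fun g' x => cnt G x (2 * ℓ) g' v) (2 * ℓ)) hM (2 * ℓ)
    have hC := esc_count H hN hesc hinv p.2 v
    rw [cg_add]
    exact (mul_le_mul_of_nonneg_left hC hM0).trans hE
  have hup : ∀ v, ∑ p ∈ St G v,
        cg G v (fun g' x => cnt G x (2 * ℓ) g' v) (2 * ℓ + 2 * ℓ) p.1 p.2
      ≤ d ^ (2 * ℓ + 2 * ℓ) * ∑ p ∈ St G v, cnt G p.2 (2 * ℓ) p.1 v :=
    fun v => sum_cg_le G v d hdeg _ _
  have hswap := sum_St_swap G (fun g x v => cnt G x (2 * ℓ) g v)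
  have hZ : ∀ u, ∑ p ∈ St G u, cnt G u (2 * ℓ) p.1 p.2 ≤ d ^ (2 * ℓ) * (PMs G).ncard :=
    fun u => sum_cnt_le G u d hdeg (2 * ℓ)
  have htotal : ∑ v, ∑ p ∈ St G v,
        cg G v (fun g' x => cnt G x (2 * ℓ) g' v) (2 * ℓ + 2 * ℓ) p.1 p.2
      ≤ d ^ (2 * ℓ + 2 * ℓ) * (Fintype.card V * (d ^ (2 * ℓ) * (PMs G).ncard)) := by
    calc ∑ v, ∑ p ∈ St G v,
          cg G v (fun g' x => cnt G x (2 * ℓ) g' v) (2 * ℓ + 2 * ℓ) p.1 p.2
        ≤ ∑ v, d ^ (2 * ℓ + 2 * ℓ) * ∑ p ∈ St G v, cnt G p.2 (2 * ℓ) p.1 v :=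
          Finset.sum_le_sum (fun v _ => hup v)
      _ = d ^ (2 * ℓ + 2 * ℓ) * ∑ v, ∑ p ∈ St G v, cnt G p.2 (2 * ℓ) p.1 v := by
          rw [Finset.mul_sum]
      _ = d ^ (2 * ℓ + 2 * ℓ) * ∑ u, ∑ p ∈ St G u, cnt G u (2 * ℓ) p.1 p.2 := by
          rw [hswap]
      _ ≤ d ^ (2 * ℓ + 2 * ℓ) * ∑ _u : V, d ^ (2 * ℓ) * (PMs G).ncard :=
          Nat.mul_le_mul_left _ (Finset.sum_le_sum (fun u _ => hZ u))
      _ = d ^ (2 * ℓ + 2 * ℓ) * (Fintype.card V * (d ^ (2 * ℓ) * (PMs G).ncard)) := by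
          rw [Finset.sum_const, Finset.card_univ, smul_eq_mul]
  have hlowsum : ((∑ v, (St G v).card : ℕ) : ℝ) * (M * ((q * d) ^ (2 * ℓ) / 2))
      ≤ ((∑ v, ∑ p ∈ St G v,
          cg G v (fun g' x => cnt G x (2 * ℓ) g' v) (2 * ℓ + 2 * ℓ) p.1 p.2 : ℕ) : ℝ) := by
    push_cast
    rw [Finset.sum_mul]
    apply Finset.sum_le_sum
    intro v _
    rw [← nsmul_eq_mul]
    exact Finset.card_nsmul_le_sum _ _ _ (hlow v)
  have h2N := two_mul_npm_le G
  have hLB0 : 0 ≤ M * ((q * d) ^ (2 * ℓ) / 2) := mul_nonneg hM0 (by positivity)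
  have h1 : ((2 * {g : V → V | ∃ u v, IsNPM G g u v}.ncard : ℕ) : ℝ)
        * (M * ((q * d) ^ (2 * ℓ) / 2))
      ≤ ((∑ v, (St G v).card : ℕ) : ℝ) * (M * ((q * d) ^ (2 * ℓ) / 2)) :=
    mul_le_mul_of_nonneg_right (by exact_mod_cast h2N) hLB0
  have h2 : ((∑ v, ∑ p ∈ St G v,
        cg G v (fun g' x => cnt G x (2 * ℓ) g' v) (2 * ℓ + 2 * ℓ) p.1 p.2 : ℕ) : ℝ)
      ≤ (d : ℝ) ^ (2 * ℓ + 2 * ℓ)
          * ((Fintype.card V : ℝ) * ((d : ℝ) ^ (2 * ℓ) * (PMs G).ncard)) := by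
    exact_mod_cast htotal
  have chain := h1.trans (hlowsum.trans h2)
  have hD2 : (0 : ℝ) < (d : ℝ) ^ (2 * ℓ) := pow_pos hdr _
  have e6 : q ^ (6 * ℓ) = (q ^ (2 * ℓ)) ^ 3 := by
    rw [← pow_mul]
    congr 1
    ring
  rw [e6]
  rw [hMdef, mul_pow, pow_add] at chain
  push_cast at chain
  generalize (d : ℝ) ^ (2 * ℓ) = D2 at chain hD2
  generalize q ^ (2 * ℓ) = Q2 at chain ⊢
  generalize ({g : V → V | ∃ u v, IsNPM G g u v}.ncard : ℝ) = N at chain ⊢
  generalize ((PMs G).ncard : ℝ) = Z at chain ⊢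
  generalize (Fintype.card V : ℝ) = n at chain hnpos ⊢
  have e : 2 * N * ((d : ℝ) * (Q2 * D2 * (Q2 * D2)) / (2 * n) * (Q2 * D2 / 2))
      = (N * d * Q2 ^ 3 * D2 ^ 3) / (2 * n) := by
    field_simp
  rw [e, div_le_iff₀ (by positivity)] at chain
  have key : (N * d * Q2 ^ 3) * D2 ^ 3 ≤ (2 * n ^ 2 * Z) * D2 ^ 3 := by
    calc (N * d * Q2 ^ 3) * D2 ^ 3 = N * d * Q2 ^ 3 * D2 ^ 3 := by ring
      _ ≤ D2 * D2 * (n * (D2 * Z)) * (2 * n) := chain
      _ = (2 * n ^ 2 * Z) * D2 ^ 3 := by ring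
  exact le_of_mul_le_mul_right key (pow_pos hD2 3)

end Vale.Agent.Lib.P308.H27
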