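import Vale.Agent.Lib.P308.H27.Uniform

/-!
The spectral hypothesis of the uniform ratio bound in terms of the eigenvalues of the adjacency
matrix: if all eigenvalues but one (counted with multiplicity, as in Mathlib's
`Matrix.IsHermitian.eigenvalues`) are at most `lam < d` in absolute value, then the adjacency
operator of a `d`-regular graph contracts vectors of zero sum by the factor `lam`.
-/

namespace Vale.Agent.Lib.P308.H27

open Finset

variable {V : Type*} [Fintype V] [DecidableEq V]

/-- Parseval's identity, in coordinates, for the eigenvector basis of a real symmetric matrix. -/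
theorem eig_parseval {A : Matrix V V ℝ} (hA : A.IsHermitian) (x y : V → ℝ) :
    ∑ i, (∑ v, hA.eigenvectorBasis i v * x v) * (∑ v, hA.eigenvectorBasis i v * y v)
      = ∑ v, x v * y v := by
  have h := OrthonormalBasis.sum_inner_mul_inner hA.eigenvectorBasis (WithLp.toLp 2 x)
    (WithLp.toLp 2 y)
  simp only [EuclideanSpace.inner_eq_star_dotProduct, dotProduct, star_trivial] at h
  rw [show ∑ v, x v * y v = ∑ v, y v * x v from
    Finset.sum_congr rfl (fun v _ => mul_comm _ _), ← h]
  apply Finset.sum_congr rfl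
  intro i _
  congr 1
  exact Finset.sum_congr rfl (fun v _ => mul_comm _ _)

/-- The coordinates of `A x` in the eigenvector basis. -/
theorem eig_apply {A : Matrix V V ℝ} (hA : A.IsHermitian) (i : V) (x : V → ℝ) :
    ∑ v, hA.eigenvectorBasis i v * (A.mulVec x v)
      = hA.eigenvalues i * ∑ v, hA.eigenvectorBasis i v * x v := by
  have h := hA.mulVec_eigenvectorBasis i
  have hsym : ∀ v w, A v w = A w v := by
    intro v w
    have := hA.apply v w
    simpa using this.symm
  have h1 : ∀ w, ∑ v, A w v * hA.eigenvectorBasis i v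
      = hA.eigenvalues i * hA.eigenvectorBasis i w := by
    intro w
    have := congrFun h w
    simpa [Matrix.mulVec, dotProduct] using this
  calc ∑ v, hA.eigenvectorBasis i v * (A.mulVec x v)
      = ∑ v, ∑ w, hA.eigenvectorBasis i v * (A v w * x w) := by
        apply Finset.sum_congr rfl
        intro v _
        simp only [Matrix.mulVec, dotProduct, Finset.mul_sum]
    _ = ∑ w, ∑ v, hA.eigenvectorBasis i v * (A v w * x w) := Finset.sum_comm
    _ = ∑ w, (∑ v, A w v * hA.eigenvectorBasis i v) * x w := by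
        apply Finset.sum_congr rfl
        intro w _
        rw [Finset.sum_mul]
        apply Finset.sum_congr rfl
        intro v _
        rw [hsym v w]
        ring
    _ = ∑ w, hA.eigenvalues i * (hA.eigenvectorBasis i w * x w) := by
        apply Finset.sum_congr rfl
        intro w _
        rw [h1 w]
        ring
    _ = hA.eigenvalues i * ∑ v, hA.eigenvectorBasis i v * x v := by rw [Finset.mul_sum]

/-- If all eigenvalues but one of the adjacency matrix of a `d`-regular graph are at most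
`lam < d` in absolute value, then `‖A x‖ ≤ lam ‖x‖` for all vectors `x` of zero sum. -/
theorem spec_of_eig (G : SimpleGraph V) [DecidableRel G.Adj] {d : ℕ}
    (hreg : G.IsRegularOfDegree d) (hA : (G.adjMatrix ℝ).IsHermitian) (i₀ : V) {lam : ℝ}
    (hlamd : lam < d) (hev : ∀ i, i ≠ i₀ → |hA.eigenvalues i| ≤ lam) (x : V → ℝ)
    (hx : ∑ v, x v = 0) :
    ∑ v, ((G.adjMatrix ℝ).mulVec x v) ^ 2 ≤ lam ^ 2 * ∑ v, x v ^ 2 := by
  obtain ⟨f, hf⟩ : ∃ f : V → V → ℝ, f = fun i v => hA.eigenvectorBasis i v := ⟨_, rfl⟩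
  have hP : ∀ x y : V → ℝ,
      ∑ i, (∑ v, f i v * x v) * (∑ v, f i v * y v) = ∑ v, x v * y v := by
    intro x y
    rw [hf]
    exact eig_parseval hA x y
  have hE : ∀ i (x : V → ℝ), ∑ v, f i v * ((G.adjMatrix ℝ).mulVec x v)
      = hA.eigenvalues i * ∑ v, f i v * x v := by
    intro i x
    rw [hf]
    exact eig_apply hA i x
  have hone : (G.adjMatrix ℝ).mulVec (fun _ => (1 : ℝ)) = fun _ => (d : ℝ) := by
    funext v
    rw [SimpleGraph.adjMatrix_mulVec_apply, Finset.sum_const, nsmul_eq_mul, mul_one,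
      G.card_neighborFinset_eq_degree, hreg.degree_eq v]
  have hc1 : ∀ i, i ≠ i₀ → ∑ v, f i v * (1 : ℝ) = 0 := by
    intro i hi
    have h1 := hE i (fun _ => (1 : ℝ))
    rw [hone] at h1
    have h2 : ∑ v, f i v * (d : ℝ) = (d : ℝ) * ∑ v, f i v * (1 : ℝ) := by
      rw [Finset.mul_sum]
      apply Finset.sum_congr rfl
      intro v _
      ring
    rw [h2] at h1
    have h3 : hA.eigenvalues i < d := lt_of_le_of_lt ((le_abs_self _).trans (hev i hi)) hlamd
    have h4 : ((d : ℝ) - hA.eigenvalues i) * ∑ v, f i v * (1 : ℝ) = 0 := by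
      rw [sub_mul, h1, sub_self]
    rcases mul_eq_zero.mp h4 with h | h
    · linarith
    · exact h
  have hPx1 := hP x (fun _ => (1 : ℝ))
  have hsum0 : ∑ v, x v * (1 : ℝ) = 0 := by
    rw [← hx]
    exact Finset.sum_congr rfl (fun v _ => mul_one _)
  rw [hsum0, Finset.sum_eq_single i₀ (fun i _ hi => by rw [hc1 i hi, mul_zero])
    (fun h => absurd (Finset.mem_univ _) h)] at hPx1
  have hP11 := hP (fun _ => (1 : ℝ)) (fun _ => (1 : ℝ))
  rw [Finset.sum_eq_single i₀ (fun i _ hi => by rw [hc1 i hi, mul_zero])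
    (fun h => absurd (Finset.mem_univ _) h)] at hP11
  have hcard : (0 : ℝ) < ∑ _v : V, (1 : ℝ) * 1 := by
    rw [Finset.sum_const, Finset.card_univ, nsmul_eq_mul, mul_one, mul_one]
    have : 0 < Fintype.card V := Fintype.card_pos_iff.mpr ⟨i₀⟩
    exact_mod_cast this
  have hne : ∑ v, f i₀ v * (1 : ℝ) ≠ 0 := by
    intro h0
    rw [h0, mul_zero] at hP11
    linarith
  have hx0 : ∑ v, f i₀ v * x v = 0 := by
    rcases mul_eq_zero.mp hPx1 with h | h
    · exact h
    · exact absurd h hne
  have hPA := hP ((G.adjMatrix ℝ).mulVec x) ((G.adjMatrix ℝ).mulVec x)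
  have hPxx := hP x x
  have e1 : ∑ v, ((G.adjMatrix ℝ).mulVec x v) ^ 2
      = ∑ i, (hA.eigenvalues i * ∑ v, f i v * x v) ^ 2 := by
    rw [show ∑ v, ((G.adjMatrix ℝ).mulVec x v) ^ 2
      = ∑ v, (G.adjMatrix ℝ).mulVec x v * (G.adjMatrix ℝ).mulVec x v from
        Finset.sum_congr rfl (fun v _ => sq _), ← hPA]
    apply Finset.sum_congr rfl
    intro i _
    rw [hE i x, sq]
  have e2 : ∑ v, x v ^ 2 = ∑ i, (∑ v, f i v * x v) ^ 2 := by
    rw [show ∑ v, x v ^ 2 = ∑ v, x v * x v from Finset.sum_congr rfl (fun v _ => sq _), ← hPxx]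
    apply Finset.sum_congr rfl
    intro i _
    rw [sq]
  rw [e1, e2, Finset.mul_sum]
  apply Finset.sum_le_sum
  intro i _
  by_cases hi : i = i₀
  · rw [hi, hx0, mul_zero]
    norm_num
  · have h1 := abs_le.mp (hev i hi)
    have h2 : hA.eigenvalues i ^ 2 ≤ lam ^ 2 := sq_le_sq' h1.1 h1.2
    rw [mul_pow]
    exact mul_le_mul_of_nonneg_right h2 (sq_nonneg _)

/-- The uniform ratio bound with the spectral hypothesis stated through eigenvalues. -/
theorem uniform_eig (G : SimpleGraph V) [DecidableRel G.Adj] (d : ℕ) (hd : 0 < d)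
    (hreg : ∀ v : V, (G.neighborSet v).ncard = d) (hA : (G.adjMatrix ℝ).IsHermitian) (i₀ : V)
    (hev : ∀ i : V, i ≠ i₀ → |hA.eigenvalues i| ≤ (d : ℝ) / 64) :
    {M : G.Subgraph | M.IsMatching ∧ M.verts.ncard + 2 = Fintype.card V}.ncard
        ≤ Fintype.card V ^ 14 * {M : G.Subgraph | M.IsPerfectMatching}.ncard ∧
    (2 ^ 20 ≤ d →
      {M : G.Subgraph | M.IsMatching ∧ M.verts.ncard + 2 = Fintype.card V}.ncard
        ≤ Fintype.card V ^ 3 * {M : G.Subgraph | M.IsPerfectMatching}.ncard) := by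
  have hreg' : G.IsRegularOfDegree d := by
    intro v
    rw [← G.card_neighborFinset_eq_degree, ← hreg v, ← Set.ncard_coe_finset,
      G.coe_neighborFinset]
  have hdr : (0 : ℝ) < d := by exact_mod_cast hd
  have hspec : ∀ x : V → ℝ, ∑ v, x v = 0 →
      ∑ v, ((G.adjMatrix ℝ).mulVec x v) ^ 2 ≤ ((d : ℝ) / 64) ^ 2 * ∑ v, x v ^ 2 :=
    fun x hx => spec_of_eig G hreg' hA i₀ (by linarith) hev x hx
  exact ⟨uniform_all G d ((d : ℝ) / 64) hd hreg (by positivity) hspec le_rfl,
    fun hbig => uniform_big G d ((d : ℝ) / 64) hreg (by positivity) hspec le_rfl hbig⟩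

end Vale.Agent.Lib.P308.H27
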