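import Vale.Agent.Lib.P308.H27.Transfer

/-!
Bounded-degree graphs in which small sets expand and which have no large bipartite hole: every
near-perfect matching reaches adjacent holes within a logarithmic number of rotations.  The
argument grows two disjoint alternating trees, one from each hole.
-/

namespace Vale.Agent.Lib.P308.H27

open Finset

/-- Counting a set of pairs through its fibres. -/
theorem ncard_fiber_le {α β : Type*} [Fintype α] [Fintype β] (A : Set α) (N : α → Set β) (Δ : ℕ)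
    (h : ∀ a, (N a).ncard ≤ Δ) :
    {c : α × β | c.1 ∈ A ∧ c.2 ∈ N c.1}.ncard ≤ Δ * A.ncard := by
  classical
  set S : Finset (α × β) := (Set.toFinite {c : α × β | c.1 ∈ A ∧ c.2 ∈ N c.1}).toFinset with hS
  have hmem : ∀ c, c ∈ S ↔ c.1 ∈ A ∧ c.2 ∈ N c.1 := by
    intro c
    rw [hS, Set.Finite.mem_toFinset]
    rfl
  have h1 : {c : α × β | c.1 ∈ A ∧ c.2 ∈ N c.1}.ncard = S.card :=
    Set.ncard_eq_toFinset_card _ (Set.toFinite _)
  rw [h1]
  have h2 : S.card ≤ Δ * (S.image Prod.fst).card := by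
    apply Finset.card_le_mul_card_image
    intro a _
    have hle : (S.filter (fun c => c.1 = a)).card ≤ ((Set.toFinite (N a)).toFinset).card := by
      apply Finset.card_le_card_of_injOn Prod.snd
      · intro c hc
        rw [Finset.mem_coe, Finset.mem_filter, hmem] at hc
        rw [Finset.mem_coe, Set.Finite.mem_toFinset, ← hc.2]
        exact hc.1.2
      · intro c hc c' hc' hEq
        rw [Finset.mem_coe, Finset.mem_filter] at hc hc'
        exact Prod.ext (hc.2.trans hc'.2.symm) hEq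
    rw [← Set.ncard_eq_toFinset_card _ (Set.toFinite _)] at hle
    exact hle.trans (h a)
  have h3 : (S.image Prod.fst).card ≤ A.ncard := by
    rw [Set.ncard_eq_toFinset_card _ (Set.toFinite A)]
    apply Finset.card_le_card
    intro a ha
    rw [Finset.mem_image] at ha
    obtain ⟨c, hc, hca⟩ := ha
    rw [Set.Finite.mem_toFinset, ← hca]
    exact ((hmem c).mp hc).1
  exact h2.trans (Nat.mul_le_mul_left _ h3)

variable {V : Type*} [Fintype V] [DecidableEq V]

theorem R_succ_le_deg (G : SimpleGraph V) (Δ : ℕ) (hΔ : ∀ v : V, (G.neighborSet v).ncard ≤ Δ)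
    (t : ℕ) : (R G (t + 1)).ncard ≤ (Δ + 1) * (R G t).ncard := by
  have hsub : R G (t + 1) ⊆ R G t ∪ {p | IsNPM G p.1 p.2.1 p.2.2 ∧
      ∃ y, G.Adj p.2.1 y ∧ y ≠ p.2.2 ∧ Reach G t (rot p.1 p.2.1 y) (p.1 y) p.2.2} := by
    rintro p ⟨hn, hr⟩
    rcases hr with hr | hr
    · exact Or.inl ⟨hn, hr⟩
    · exact Or.inr ⟨hn, hr⟩
  have hT : {c : ((V → V) × V × V) × V | c.1 ∈ R G t ∧ c.2 ∈ G.neighborSet c.1.2.1}.ncard
      ≤ Δ * (R G t).ncard :=
    ncard_fiber_le (R G t) (fun b => G.neighborSet b.2.1) Δ (fun b => hΔ b.2.1)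
  have hQ : {p : (V → V) × V × V | IsNPM G p.1 p.2.1 p.2.2 ∧
      ∃ y, G.Adj p.2.1 y ∧ y ≠ p.2.2 ∧ Reach G t (rot p.1 p.2.1 y) (p.1 y) p.2.2}.ncard
      ≤ {c : ((V → V) × V × V) × V | c.1 ∈ R G t ∧ c.2 ∈ G.neighborSet c.1.2.1}.ncard := by
    refine ncard_le_of_rel _ _ (Set.toFinite _)
      (fun p b => b.1.2.2 = p.2.2 ∧ G.Adj p.2.1 b.2 ∧ b.1.1 = rot p.1 p.2.1 b.2 ∧
        b.1.2.1 = p.1 b.2) ?_ ?_
    · rintro ⟨g, h, v⟩ ⟨hn, y, hadj, hyv, hr⟩
      refine ⟨((rot g h y, g y, v), y), ⟨⟨rot_npm hn hadj hyv, hr⟩, ?_⟩, rfl, hadj, rfl, rfl⟩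
      exact (hn.2.2.2.2 y hadj.ne' hyv).symm
    · rintro ⟨g, h, v⟩ ⟨⟨hhv, hgh, hgv, hinv, hadjg⟩, _⟩ ⟨g', h', v'⟩
        ⟨⟨hhv', hgh', hgv', hinv', hadjg'⟩, _⟩ ⟨⟨bg, bh, bv⟩, y⟩ ⟨hbv, hadj, hb1, hbx⟩
        ⟨hbv', hadj', hb1', hbx'⟩
      dsimp only at hhv hgh hgv hinv hadjg hhv' hgh' hgv' hinv' hadjg'
      simp only at hbv hadj hb1 hbx hbv' hadj' hb1' hbx'
      have hv : v = v' := by rw [← hbv, ← hbv']
      subst hv
      have hh : h = h' := by
        have e1 : bg y = h := by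
          rw [hb1]
          simp only [rot, if_neg hadj.ne', if_true]
        have e2 : bg y = h' := by
          rw [hb1']
          simp only [rot, if_neg hadj'.ne', if_true]
        rw [← e1, ← e2]
      subst hh
      have hgy : g y = g' y := by rw [← hbx, ← hbx']
      have hg : g = g' := by
        funext z
        by_cases hzh : z = h
        · rw [hzh, hgh, hgh']
        · by_cases hzy : z = y
          · rw [hzy, hgy]
          · by_cases hzx : z = g y
            · rw [hzx, hinv]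
              rw [hgy, hinv']
            · have hzx' : z ≠ g' y := by rw [← hgy]; exact hzx
              have e1 : bg z = g z := by
                rw [hb1]
                simp only [rot, if_neg hzh, if_neg hzy, if_neg hzx]
              have e2 : bg z = g' z := by
                rw [hb1']
                simp only [rot, if_neg hzh, if_neg hzy, if_neg hzx']
              rw [← e1, ← e2]
      rw [hg]
  calc (R G (t + 1)).ncard
      ≤ (R G t ∪ {p | IsNPM G p.1 p.2.1 p.2.2 ∧
          ∃ y, G.Adj p.2.1 y ∧ y ≠ p.2.2 ∧ Reach G t (rot p.1 p.2.1 y) (p.1 y) p.2.2}).ncard :=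
        Set.ncard_le_ncard hsub (Set.toFinite _)
    _ ≤ (R G t).ncard + {p : (V → V) × V × V | IsNPM G p.1 p.2.1 p.2.2 ∧
          ∃ y, G.Adj p.2.1 y ∧ y ≠ p.2.2 ∧ Reach G t (rot p.1 p.2.1 y) (p.1 y) p.2.2}.ncard :=
        Set.ncard_union_le _ _
    _ ≤ (R G t).ncard + Δ * (R G t).ncard := Nat.add_le_add_left (hQ.trans hT) _
    _ = (Δ + 1) * (R G t).ncard := by ring

theorem R_le_deg (G : SimpleGraph V) (Δ : ℕ) (hΔ : ∀ v : V, (G.neighborSet v).ncard ≤ Δ)
    (t : ℕ) : (R G t).ncard ≤ (Δ + 1) ^ t * (Fintype.card V * (PMs G).ncard) := by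
  induction t with
  | zero => simpa using R_zero_le G
  | succ t ih =>
    calc (R G (t + 1)).ncard ≤ (Δ + 1) * (R G t).ncard := R_succ_le_deg G Δ hΔ t
      _ ≤ (Δ + 1) * ((Δ + 1) ^ t * (Fintype.card V * (PMs G).ncard)) :=
        Nat.mul_le_mul_left _ ih
      _ = (Δ + 1) ^ (t + 1) * (Fintype.card V * (PMs G).ncard) := by ring

/-- If every near-perfect matching reaches adjacent holes within `t` rotations and all degrees
are at most `Δ`, the near-perfect matchings are at most `n (Δ + 1) ^ t` times the perfect ones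
(involution model). -/
theorem npm_count_of_reach (G : SimpleGraph V) (Δ t : ℕ)
    (hΔ : ∀ v : V, (G.neighborSet v).ncard ≤ Δ)
    (hreach : ∀ (g : V → V) (u v : V), IsNPM G g u v → Reach G t g u v) :
    {g : V → V | ∃ u v, IsNPM G g u v}.ncard
      ≤ Fintype.card V * (Δ + 1) ^ t * (PMs G).ncard := by
  have h1 : {g : V → V | ∃ u v, IsNPM G g u v}.ncard ≤ (R G t).ncard := by
    refine ncard_le_of_rel _ _ (Set.toFinite _) (fun g p => p.1 = g) ?_ ?_
    · rintro g ⟨u, v, hn⟩
      exact ⟨(g, u, v), ⟨hn, hreach g u v hn⟩, rfl⟩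
    · rintro g _ g' _ p hp hp'
      rw [← hp, ← hp']
  calc {g : V → V | ∃ u v, IsNPM G g u v}.ncard ≤ (R G t).ncard := h1
    _ ≤ (Δ + 1) ^ t * (Fintype.card V * (PMs G).ncard) := R_le_deg G Δ hΔ t
    _ = Fintype.card V * (Δ + 1) ^ t * (PMs G).ncard := by ring

omit [DecidableEq V] in
/-- The same for matchings as subgraphs. -/
theorem ratio_of_reach (G : SimpleGraph V) (Δ t : ℕ)
    (hΔ : ∀ v : V, (G.neighborSet v).ncard ≤ Δ)
    (hreach : ∀ [DecidableEq V] (g : V → V) (u v : V), IsNPM G g u v → Reach G t g u v) :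
    {M : G.Subgraph | M.IsMatching ∧ M.verts.ncard + 2 = Fintype.card V}.ncard
      ≤ Fintype.card V * (Δ + 1) ^ t * {M : G.Subgraph | M.IsPerfectMatching}.ncard := by
  classical
  calc {M : G.Subgraph | M.IsMatching ∧ M.verts.ncard + 2 = Fintype.card V}.ncard
      ≤ {g : V → V | ∃ u v, IsNPM G g u v}.ncard := nearPerfect_le G
    _ ≤ Fintype.card V * (Δ + 1) ^ t * (PMs G).ncard :=
        npm_count_of_reach G Δ t hΔ (fun g u v hn => hreach g u v hn)
    _ ≤ Fintype.card V * (Δ + 1) ^ t * {M : G.Subgraph | M.IsPerfectMatching}.ncard :=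
        Nat.mul_le_mul_left _ (perfect_le G)

/-- Forward certificate: the hole `x` is reached from `(g, u)` by `k` rotations, through a
state that agrees with `g` outside `F`. -/
def Fwd (G : SimpleGraph V) (g : V → V) (u v : V) (k : ℕ) (x : V) (F : Finset V) : Prop :=
  ∃ g' : V → V, IsNPM G g' x v ∧ (∀ z, z ∉ F → g' z = g z) ∧
    ∀ j, Reach G j g' x v → Reach G (j + k) g u v

omit [Fintype V] in
theorem Fwd.base {G : SimpleGraph V} {g : V → V} {u v : V} (hn : IsNPM G g u v)
    (F : Finset V) : Fwd G g u v 0 u F :=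
  ⟨g, hn, fun _ _ => rfl, fun _ h => h⟩

omit [Fintype V] in
theorem Fwd.step {G : SimpleGraph V} {g : V → V} {u v : V} {k : ℕ} {x : V} {F F' : Finset V}
    (h : Fwd G g u v k x F) {y : V} (hadj : G.Adj x y) (hyv : y ≠ v) (hyF : y ∉ F)
    (hFF : F ⊆ F') (hx : x ∈ F') (hy : y ∈ F') (hgy : g y ∈ F') :
    Fwd G g u v (k + 1) (g y) F' := by
  obtain ⟨g', hn', hag, hreach⟩ := h
  have hg'y : g' y = g y := hag y hyF
  refine ⟨rot g' x y, ?_, ?_, ?_⟩
  · have h1 := rot_npm hn' hadj hyv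
    rwa [hg'y] at h1
  · intro z hz
    have hzx : z ≠ x := fun e => hz (e ▸ hx)
    have hzy : z ≠ y := fun e => hz (e ▸ hy)
    have hzg : z ≠ g' y := by
      rw [hg'y]
      exact fun e => hz (e ▸ hgy)
    simp only [rot, if_neg hzx, if_neg hzy, if_neg hzg]
    exact hag z (fun e => hz (hFF e))
  · intro j hj
    have h1 : Reach G (j + 1) g' x v := by
      refine Or.inr ⟨y, hadj, hyv, ?_⟩
      rw [hg'y]
      exact hj
    have h2 := hreach (j + 1) h1
    have hEq : j + 1 + k = j + (k + 1) := by omega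
    rwa [hEq] at h2

/-- Backward certificate: any state with hole `p` that agrees with `g` on `C` away from `p` and
its partner reaches adjacent holes within `j` rotations. -/
def Bwd (G : SimpleGraph V) (g : V → V) (v : V) (j : ℕ) (p : V) (C : Finset V) : Prop :=
  ∀ g' : V → V, (∀ z, z ∈ C → z ≠ p → z ≠ g p → g' z = g z) → Reach G j g' p v

omit [Fintype V] in
theorem Bwd.base {G : SimpleGraph V} {g : V → V} {v p : V} (hadj : G.Adj p v) (C : Finset V) :
    Bwd G g v 0 p C := fun _ _ => hadj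

omit [Fintype V] in
theorem Bwd.step {G : SimpleGraph V} {g : V → V} {v : V} {j : ℕ} {p : V} {C C' : Finset V}
    (hinv : ∀ x, g (g x) = x) (h : Bwd G g v j p C) (hpC : p ∈ C) (hgC : ∀ z ∈ C, g z ∈ C)
    {q : V} (hadj : G.Adj q (g p)) (hyv : g p ≠ v) (hqC : q ∉ C) (hCC : C ⊆ C') :
    Bwd G g v (j + 1) q C' := by
  intro h' hh
  have hgpC : g p ∈ C := hgC p hpC
  have hqp : q ≠ p := fun e => hqC (e ▸ hpC)
  have hgqC : g q ∉ C := by
    intro hc
    have h1 := hgC _ hc
    rw [hinv] at h1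
    exact hqC h1
  have h'y : h' (g p) = p := by
    have h1 := hh (g p) (hCC hgpC) hadj.ne' (by
      intro e
      have h2 := congrArg g e
      rw [hinv, hinv] at h2
      exact hqp h2.symm)
    rw [h1, hinv]
  refine Or.inr ⟨g p, hadj, hyv, ?_⟩
  rw [h'y]
  apply h
  intro z hz hzp hzgp
  have hzq : z ≠ q := fun e => hqC (e ▸ hz)
  have hzh : z ≠ h' (g p) := by
    rw [h'y]
    exact hzp
  simp only [rot, if_neg hzq, if_neg hzgp, if_neg hzh]
  exact hh z (hCC hz) hzq (fun e => hgqC (e ▸ hz))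

omit [Fintype V] in
/-- Joining a forward and a backward certificate along an edge. -/
theorem join_certs {G : SimpleGraph V} {g : V → V} {u v : V} {k j : ℕ} {x p : V}
    {F C : Finset V} (hinv : ∀ x, g (g x) = x) (hF : Fwd G g u v k x F)
    (hB : Bwd G g v j p C) (hpC : p ∈ C) (hgC : ∀ z ∈ C, g z ∈ C) (hadj : G.Adj x (g p))
    (hyv : g p ≠ v) (hxC : x ∉ C) (hdisj : Disjoint F C) : Reach G (j + 1 + k) g u v := by
  obtain ⟨g', _, hag, hreach⟩ := hF
  have hB' := Bwd.step hinv hB hpC hgC hadj hyv hxC (Finset.Subset.refl C)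
  apply hreach
  apply hB'
  intro z hz _ _
  exact hag z (fun hzF => Finset.disjoint_left.mp hdisj hzF hz)

end Vale.Agent.Lib.P308.H27
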