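import Vale.Agent.Lib.P308.H27.SA

/-!
Growth of the number of self-avoiding alternating walks on a regular graph with a spectral gap
(each step multiplies the number by at least `q d`), and the resulting regularity of the
distribution of the end point in the Euclidean norm.
-/

namespace Vale.Agent.Lib.P308.H27

open Finset

variable {V : Type*} [Fintype V] [DecidableEq V] (G : SimpleGraph V) [DecidableRel G.Adj]

/-- A bound for the number of walks with `m` matching edges from a vertex to the neighbours of a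
vertex, divided by `(q d) ^ m`. -/
noncomputable def rho (d n : ℕ) (q : ℝ) (m : ℕ) : ℝ :=
  min 1 ((d : ℝ) / n + d / 64 ^ m) / q ^ m

/-- The collision bound after `j` steps, divided by `(q d) ^ j`. -/
noncomputable def bq (d n : ℕ) (q : ℝ) (j : ℕ) : ℝ := if j = 0 then 1 else 2 * rho d n q j

/-- The standing assumptions: `d`-regular, second eigenvalue at most `lam ≤ d / 64` in absolute
value, a growth factor `q d` with `3 / 4 ≤ q ≤ 1`, and the collision sums up to length `Tm`
leave room for this growth. -/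
structure GHyp (d : ℕ) (lam q : ℝ) (Tm : ℕ) : Prop where
  reg : G.IsRegularOfDegree d
  lam0 : 0 ≤ lam
  lam64 : lam ≤ d / 64
  spec : ∀ x : V → ℝ, ∑ v, x v = 0 →
    ∑ v, (∑ w ∈ G.neighborFinset v, x w) ^ 2 ≤ lam ^ 2 * ∑ v, x v ^ 2
  q34 : 3 / 4 ≤ q
  q1 : q ≤ 1
  dpos : 0 < d
  grow : ∀ t, t < Tm →
    ∑ j ∈ Finset.range (t + 1), bq d (Fintype.card V) q j ≤ (1 - q) * d

theorem rho_nonneg (d n : ℕ) {q : ℝ} (hq : 0 < q) (m : ℕ) : 0 ≤ rho d n q m := by
  unfold rho
  apply div_nonneg _ (pow_pos hq m).le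
  apply le_min zero_le_one
  positivity

theorem bq_nonneg (d n : ℕ) {q : ℝ} (hq : 0 < q) (j : ℕ) : 0 ≤ bq d n q j := by
  unfold bq
  split_ifs
  · exact zero_le_one
  · exact mul_nonneg zero_le_two (rho_nonneg d n hq j)

variable {G} {d : ℕ} {lam q : ℝ} {Tm : ℕ}

omit [DecidableEq V] in
/-- Walks with `m` matching edges from `c` to the neighbours of `c'`. -/
theorem free_nbr_le (H : GHyp G d lam q Tm) {g : V → V} (hinv : ∀ x, g (g x) = x) (m : ℕ)
    (c' c : V) : (Dop G g)^[m] (tg G c') c ≤ rho d (Fintype.card V) q m * (q * d) ^ m := by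
  have hq : 0 < q := by linarith [H.q34]
  have hn : 0 < Fintype.card V := Fintype.card_pos_iff.mpr ⟨c⟩
  have hnpos : (0 : ℝ) < Fintype.card V := by exact_mod_cast hn
  have h1 : (Dop G g)^[m] (tg G c') c ≤ (d : ℝ) ^ m := Wf_le H.reg g c' m c
  have h2 := mix G H.reg H.lam0 H.spec hinv m (tg G c') (tg_nonneg G c') c
  rw [sum_tg H.reg] at h2
  have h3 := (abs_le.mp h2).2
  have h4 : lam ^ m ≤ (d : ℝ) ^ m / 64 ^ m := by
    rw [← div_pow]
    exact pow_le_pow_left₀ H.lam0 H.lam64 m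
  have h5 : (Dop G g)^[m] (tg G c') c
      ≤ (d : ℝ) ^ m * ((d : ℝ) / Fintype.card V + d / 64 ^ m) := by
    have h6 : lam ^ m * d ≤ (d : ℝ) ^ m / 64 ^ m * d :=
      mul_le_mul_of_nonneg_right h4 (Nat.cast_nonneg d)
    have e : (d : ℝ) ^ m * ((d : ℝ) / Fintype.card V + d / 64 ^ m)
        = (d : ℝ) ^ m * (d / Fintype.card V) + (d : ℝ) ^ m / 64 ^ m * d := by ring
    linarith
  have h6 : rho d (Fintype.card V) q m * (q * d) ^ m
      = (d : ℝ) ^ m * min 1 ((d : ℝ) / Fintype.card V + d / 64 ^ m) := by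
    unfold rho
    rw [mul_pow]
    have hqm : q ^ m ≠ 0 := (pow_pos hq m).ne'
    field_simp
  rw [h6]
  rcases le_total 1 ((d : ℝ) / Fintype.card V + d / 64 ^ m) with h | h
  · rw [min_eq_left h, mul_one]
    exact h1
  · rw [min_eq_right h]
    exact h5

omit [DecidableEq V] in
theorem Bc_tg_le (H : GHyp G d lam q Tm) {g : V → V} (hinv : ∀ x, g (g x) = x) (j : ℕ)
    (c : V) : Bc G g (fun c x => tg G c x) j c
      ≤ bq d (Fintype.card V) q j * (q * d) ^ j := by
  unfold Bc bq
  rcases Nat.eq_zero_or_pos j with hj | hj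
  · subst hj
    rw [if_pos rfl, pow_zero, mul_one, Function.iterate_zero, id, id]
    have h1 : tg G c c = 0 := by
      unfold tg
      rw [if_neg (G.irrefl)]
    have h2 := tg_le_one G (g c) c
    linarith
  · rw [if_neg (by omega)]
    have h1 := free_nbr_le H hinv j c c
    have h2 := free_nbr_le H hinv j (g c) c
    linarith

theorem pow_chain (a : ℕ → ℝ) (c : ℝ) (hc : 0 ≤ c) :
    ∀ t : ℕ, (∀ s, s < t → c * a s ≤ a (s + 1)) → ∀ i, i ≤ t → a i * c ^ (t - i) ≤ a t := by
  intro t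
  induction t with
  | zero =>
    intro _ i hi
    have h0 : i = 0 := by omega
    subst h0
    simp
  | succ t ih =>
    intro h i hi
    rcases Nat.eq_or_lt_of_le hi with h1 | h1
    · subst h1
      simp
    · have h2 : i ≤ t := by omega
      have h3 := ih (fun s hs => h s (by omega)) i h2
      have h4 := h t (by omega)
      have e : t + 1 - i = (t - i) + 1 := by omega
      rw [e, pow_succ]
      calc a i * (c ^ (t - i) * c) = c * (a i * c ^ (t - i)) := by ring
        _ ≤ c * a t := mul_le_mul_of_nonneg_left h3 hc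
        _ ≤ a (t + 1) := h4

/-- The extensions into used vertices, bounded through the earlier numbers of walks. -/
theorem loss_le (H : GHyp G d lam q Tm) {g : V → V} (hinv : ∀ x, g (g x) = x) (z z' : V)
    (t : ℕ) :
    sg G g (fun F' x => ∑ c ∈ F', tg G c x) t {z, z'} z
      ≤ ∑ i ∈ Finset.range (t + 1), tot G g i {z, z'} z
          * (bq d (Fintype.card V) q (t - i) * (q * d) ^ (t - i)) := by
  have hq : 0 < q := by linarith [H.q34]
  have h0 := sg_coll_le G hinv (fun c x => tg G c x) (fun c x => tg_nonneg G c x) t {z, z'} z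
  have hF : ∑ c ∈ ({z, z'} : Finset V), (Dop G g)^[t] (tg G c) z
      ≤ bq d (Fintype.card V) q t * (q * d) ^ t := by
    have h1 := sum_union_pair_le (fun c => (Dop G g)^[t] (tg G c) z)
      (fun c => iter_nonneg G g t (tg_nonneg G c) z) ∅ z z'
    rw [Finset.empty_union, Finset.sum_empty, zero_add] at h1
    have h2 := Bc_tg_le H hinv t z
    unfold bq at h2 ⊢
    rcases Nat.eq_zero_or_pos t with ht | ht
    · subst ht
      rw [if_pos rfl, pow_zero, mul_one]
      have h1' : ∑ c ∈ ({z, z'} : Finset V), tg G c z ≤ tg G z z + tg G z' z := h1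
      show ∑ c ∈ ({z, z'} : Finset V), tg G c z ≤ 1
      have h3 : tg G z z = 0 := by
        unfold tg
        rw [if_neg (G.irrefl)]
      have h4 := tg_le_one G z' z
      linarith
    · rw [if_neg (by omega)]
      have h3 := free_nbr_le H hinv t z z
      have h4 := free_nbr_le H hinv t z' z
      linarith
  have hS : ∀ i ∈ Finset.range t,
      ∑ c, sa G g c (i + 1) {z, z'} z * Bc G g (fun c x => tg G c x) (t - (i + 1)) c
        ≤ tot G g (i + 1) {z, z'} z
            * (bq d (Fintype.card V) q (t - (i + 1)) * (q * d) ^ (t - (i + 1))) := by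
    intro i _
    rw [tot_eq_sum, Finset.sum_mul]
    apply Finset.sum_le_sum
    intro c _
    exact mul_le_mul_of_nonneg_left (Bc_tg_le H hinv _ c) (sa_nonneg G g c _ _ _)
  have hS' := Finset.sum_le_sum hS
  rw [Finset.sum_range_succ', tot_zero, one_mul, Nat.sub_zero]
  linarith

/-- Each step multiplies the number of self-avoiding walks by at least `q d`. -/
theorem tot_grow (H : GHyp G d lam q Tm) {g : V → V} (hinv : ∀ x, g (g x) = x) (z z' : V) :
    ∀ t, t < Tm → q * d * tot G g t {z, z'} z ≤ tot G g (t + 1) {z, z'} z := by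
  intro t
  induction t using Nat.strong_induction_on with
  | _ t ih =>
    intro ht
    have hq : 0 < q := by linarith [H.q34]
    have hqd : 0 ≤ q * d := mul_nonneg hq.le (Nat.cast_nonneg d)
    have hchain := pow_chain (fun i => tot G g i {z, z'} z) (q * d) hqd t
      (fun s hs => ih s hs (by omega))
    have hloss := loss_le H hinv z z' t
    have h1 : ∑ i ∈ Finset.range (t + 1), tot G g i {z, z'} z
          * (bq d (Fintype.card V) q (t - i) * (q * d) ^ (t - i))
        ≤ ∑ i ∈ Finset.range (t + 1), tot G g t {z, z'} z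
          * bq d (Fintype.card V) q (t - i) := by
      apply Finset.sum_le_sum
      intro i hi
      rw [Finset.mem_range] at hi
      have h2 := hchain i (by omega)
      have hb : 0 ≤ bq d (Fintype.card V) q (t - i) := bq_nonneg d _ hq _
      calc tot G g i {z, z'} z * (bq d (Fintype.card V) q (t - i) * (q * d) ^ (t - i))
          = (tot G g i {z, z'} z * (q * d) ^ (t - i)) * bq d (Fintype.card V) q (t - i) := by
            ring
        _ ≤ tot G g t {z, z'} z * bq d (Fintype.card V) q (t - i) :=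
            mul_le_mul_of_nonneg_right h2 hb
    have h2 : ∑ i ∈ Finset.range (t + 1), tot G g t {z, z'} z
          * bq d (Fintype.card V) q (t - i)
        = tot G g t {z, z'} z * ∑ j ∈ Finset.range (t + 1), bq d (Fintype.card V) q j := by
      rw [← Finset.mul_sum]
      have h3 := Finset.sum_range_reflect (fun j => bq d (Fintype.card V) q j) (t + 1)
      simp only [Nat.add_sub_cancel] at h3
      rw [h3]
    have h3 := H.grow t ht
    have h4 := tot_succ G H.reg g t {z, z'} z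
    have h5 : tot G g t {z, z'} z * ∑ j ∈ Finset.range (t + 1), bq d (Fintype.card V) q j
        ≤ tot G g t {z, z'} z * ((1 - q) * d) :=
      mul_le_mul_of_nonneg_left h3 (tot_nonneg G g t _ z)
    have h6 : tot G g t {z, z'} z * ((1 - q) * d)
        = d * tot G g t {z, z'} z - q * d * tot G g t {z, z'} z := by ring
    rw [h4]
    linarith

theorem tot_pow_le (H : GHyp G d lam q Tm) {g : V → V} (hinv : ∀ x, g (g x) = x) (z z' : V)
    {i t : ℕ} (hi : i ≤ t) (ht : t ≤ Tm) :
    tot G g i {z, z'} z * (q * d) ^ (t - i) ≤ tot G g t {z, z'} z := by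
  have hq : 0 < q := by linarith [H.q34]
  have hqd : 0 ≤ q * d := mul_nonneg hq.le (Nat.cast_nonneg d)
  exact pow_chain (fun i => tot G g i {z, z'} z) (q * d) hqd t
    (fun s hs => tot_grow H hinv z z' s (by omega)) i hi

theorem tot_ge_pow (H : GHyp G d lam q Tm) {g : V → V} (hinv : ∀ x, g (g x) = x) (z z' : V)
    {t : ℕ} (ht : t ≤ Tm) : (q * d) ^ t ≤ tot G g t {z, z'} z := by
  have h := tot_pow_le H hinv z z' (Nat.zero_le t) ht
  rw [tot_zero, one_mul, Nat.sub_zero] at h
  exact h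

omit [DecidableEq V] in
/-- The adjacency operator in the Euclidean norm: the mean is multiplied by `d`, the rest by at
most `lam`. -/
theorem sq_adj_le (hreg : G.IsRegularOfDegree d)
    (hspec : ∀ x : V → ℝ, ∑ v, x v = 0 →
      ∑ v, (∑ w ∈ G.neighborFinset v, x w) ^ 2 ≤ lam ^ 2 * ∑ v, x v ^ 2)
    (f : V → ℝ) (hn : 0 < Fintype.card V) :
    (Fintype.card V : ℝ) * ∑ y, (∑ x ∈ G.neighborFinset y, f x) ^ 2
      ≤ (d : ℝ) ^ 2 * (∑ x, f x) ^ 2
        + lam ^ 2 * ((Fintype.card V : ℝ) * ∑ x, f x ^ 2) := by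
  have hnpos : (0 : ℝ) < Fintype.card V := by exact_mod_cast hn
  have hnμ : (Fintype.card V : ℝ) * ((∑ x, f x) / Fintype.card V) = ∑ x, f x := by
    field_simp
  generalize (∑ x, f x) / Fintype.card V = μ at hnμ
  have hh0 : ∑ x, (f x - μ) = 0 := by
    rw [Finset.sum_sub_distrib, Finset.sum_const, Finset.card_univ, nsmul_eq_mul, hnμ, sub_self]
  have hs := hspec (fun x => f x - μ) hh0
  have hA : ∀ y, ∑ x ∈ G.neighborFinset y, f x
      = d * μ + ∑ x ∈ G.neighborFinset y, (f x - μ) := by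
    intro y
    rw [Finset.sum_sub_distrib, Finset.sum_const, G.card_neighborFinset_eq_degree,
      hreg.degree_eq y, nsmul_eq_mul]
    ring
  have hsum : ∑ y, ∑ x ∈ G.neighborFinset y, (f x - μ) = 0 := by
    rw [sum_nbr_sum G hreg, hh0, mul_zero]
  have h1 : ∑ y, (∑ x ∈ G.neighborFinset y, f x) ^ 2
      = (Fintype.card V : ℝ) * (d * μ) ^ 2
        + ∑ y, (∑ x ∈ G.neighborFinset y, (f x - μ)) ^ 2 := by
    have e : ∀ y, (∑ x ∈ G.neighborFinset y, f x) ^ 2
        = (d * μ) ^ 2 + 2 * (d * μ) * ∑ x ∈ G.neighborFinset y, (f x - μ)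
          + (∑ x ∈ G.neighborFinset y, (f x - μ)) ^ 2 := by
      intro y
      rw [hA y]
      ring
    rw [Finset.sum_congr rfl (fun y _ => e y), Finset.sum_add_distrib, Finset.sum_add_distrib,
      ← Finset.mul_sum, hsum, Finset.sum_const, Finset.card_univ, nsmul_eq_mul]
    ring
  have h2 : ∑ x, (f x - μ) ^ 2 = ∑ x, f x ^ 2 - (Fintype.card V : ℝ) * μ ^ 2 := by
    have e : ∀ x, (f x - μ) ^ 2 = f x ^ 2 - 2 * μ * f x + μ ^ 2 := by
      intro x
      ring
    rw [Finset.sum_congr rfl (fun x _ => e x), Finset.sum_add_distrib, Finset.sum_sub_distrib,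
      ← Finset.mul_sum, Finset.sum_const, Finset.card_univ, nsmul_eq_mul, ← hnμ]
    ring
  have h3 : ∑ x, (f x - μ) ^ 2 ≤ ∑ x, f x ^ 2 := by
    have : 0 ≤ (Fintype.card V : ℝ) * μ ^ 2 := by positivity
    linarith
  have h4 : lam ^ 2 * ∑ x, (f x - μ) ^ 2 ≤ lam ^ 2 * ∑ x, f x ^ 2 :=
    mul_le_mul_of_nonneg_left h3 (sq_nonneg lam)
  have h5 : (Fintype.card V : ℝ) * ∑ y, (∑ x ∈ G.neighborFinset y, (f x - μ)) ^ 2
      ≤ (Fintype.card V : ℝ) * (lam ^ 2 * ∑ x, f x ^ 2) :=
    mul_le_mul_of_nonneg_left (hs.trans h4) hnpos.le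
  rw [h1, ← hnμ]
  have e2 : (Fintype.card V : ℝ) * ((Fintype.card V : ℝ) * (d * μ) ^ 2
      + ∑ y, (∑ x ∈ G.neighborFinset y, (f x - μ)) ^ 2)
      = (d : ℝ) ^ 2 * ((Fintype.card V : ℝ) * μ) ^ 2
        + (Fintype.card V : ℝ) * ∑ y, (∑ x ∈ G.neighborFinset y, (f x - μ)) ^ 2 := by ring
  rw [e2]
  have e3 : lam ^ 2 * ((Fintype.card V : ℝ) * ∑ x, f x ^ 2)
      = (Fintype.card V : ℝ) * (lam ^ 2 * ∑ x, f x ^ 2) := by ring
  rw [e3]
  linarith

/-- Regularity in the Euclidean norm of the end point of the self-avoiding walks. -/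
theorem l2_reg (H : GHyp G d lam q Tm) {g : V → V} (hinv : ∀ x, g (g x) = x) (z z' : V) :
    ∀ s, s ≤ Tm → (Fintype.card V : ℝ) * ∑ y, sa G g y s {z, z'} z ^ 2
      ≤ tot G g s {z, z'} z ^ 2 * (2 + (Fintype.card V : ℝ) / 1024 ^ s) := by
  intro s
  induction s with
  | zero =>
    intro _
    have h1 : ∑ y, sa G g y 0 {z, z'} z ^ 2 = 1 := by
      show ∑ y, (dl y z) ^ 2 = 1
      unfold dl
      simp
    rw [h1, tot_zero]
    norm_num
  | succ s ih =>
    intro hs
    have hn : 0 < Fintype.card V := Fintype.card_pos_iff.mpr ⟨z⟩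
    have hnpos : (0 : ℝ) < Fintype.card V := by exact_mod_cast hn
    have ih' := ih (by omega)
    have hg := tot_grow H hinv z z' s (by omega)
    have h1 : ∑ y, sa G g y (s + 1) {z, z'} z ^ 2
        ≤ ∑ y, (∑ x ∈ G.neighborFinset (g y), sa G g x s {z, z'} z) ^ 2 :=
      Finset.sum_le_sum (fun y _ =>
        pow_le_pow_left₀ (sa_nonneg G g y _ _ _) (sa_last_le G hinv y s _ z) 2)
    have h2 : ∑ y, (∑ x ∈ G.neighborFinset (g y), sa G g x s {z, z'} z) ^ 2
        = ∑ y, (∑ x ∈ G.neighborFinset y, sa G g x s {z, z'} z) ^ 2 :=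
      sum_comp_inv hinv (fun y => (∑ x ∈ G.neighborFinset y, sa G g x s {z, z'} z) ^ 2)
    have h3 := sq_adj_le H.reg H.spec (fun x => sa G g x s {z, z'} z) hn
    rw [← tot_eq_sum] at h3
    have hl : lam ^ 2 ≤ ((d : ℝ) / 64) ^ 2 := pow_le_pow_left₀ H.lam0 H.lam64 2
    have hA0 := tot_nonneg G g s {z, z'} z
    have hB0 := tot_nonneg G g (s + 1) {z, z'} z
    have hE0 : 0 ≤ (Fintype.card V : ℝ) * ∑ y, sa G g y s {z, z'} z ^ 2 :=
      mul_nonneg hnpos.le (Finset.sum_nonneg (fun y _ => sq_nonneg _))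
    have hX0 : (0 : ℝ) ≤ (Fintype.card V : ℝ) / 1024 ^ s := by positivity
    have hX : (Fintype.card V : ℝ) / 1024 ^ (s + 1)
        = (Fintype.card V : ℝ) / 1024 ^ s / 1024 := by
      rw [pow_succ]
      field_simp
    rw [hX]
    have hdr : (0 : ℝ) ≤ d := Nat.cast_nonneg d
    generalize tot G g s {z, z'} z = A at ih' hg h3 hA0
    generalize tot G g (s + 1) {z, z'} z = B at hg hB0 ⊢
    generalize (Fintype.card V : ℝ) / 1024 ^ s = X at ih' hX0 ⊢
    have h4 : (Fintype.card V : ℝ) * ∑ y, sa G g y (s + 1) {z, z'} z ^ 2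
        ≤ (d : ℝ) ^ 2 * A ^ 2
          + lam ^ 2 * ((Fintype.card V : ℝ) * ∑ y, sa G g y s {z, z'} z ^ 2) := by
      have := mul_le_mul_of_nonneg_left (h1.trans h2.le) hnpos.le
      linarith
    generalize (Fintype.card V : ℝ) * ∑ y, sa G g y s {z, z'} z ^ 2 = E at ih' h4 hE0
    generalize (Fintype.card V : ℝ) * ∑ y, sa G g y (s + 1) {z, z'} z ^ 2 = E' at h4 ⊢
    have h5 : lam ^ 2 * E ≤ ((d : ℝ) / 64) ^ 2 * (A ^ 2 * (2 + X)) :=
      mul_le_mul hl ih' hE0 (sq_nonneg _)
    have hdA : (d : ℝ) * A ≤ 4 / 3 * B := by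
      have h6 : 3 / 4 * ((d : ℝ) * A) ≤ q * ((d : ℝ) * A) :=
        mul_le_mul_of_nonneg_right H.q34 (mul_nonneg hdr hA0)
      have h7 : q * ((d : ℝ) * A) = q * d * A := by ring
      linarith
    have hY : ((d : ℝ) * A) ^ 2 ≤ (4 / 3 * B) ^ 2 :=
      pow_le_pow_left₀ (mul_nonneg hdr hA0) hdA 2
    have hB2 : 0 ≤ B ^ 2 := sq_nonneg B
    have hBX : 0 ≤ B ^ 2 * X := mul_nonneg hB2 hX0
    have h8 : ((d : ℝ) * A) ^ 2 * (1 + (2 + X) / 4096)
        ≤ (4 / 3 * B) ^ 2 * (1 + (2 + X) / 4096) :=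
      mul_le_mul_of_nonneg_right hY (by positivity)
    nlinarith

end Vale.Agent.Lib.P308.H27
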