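import Vale.Agent.Lib.P308.H27.Spectral

/-!
The alternating-walk operator of a matching on a regular graph with a spectral gap, and its
mixing: `m` steps applied to a non-negative function are within `lam ^ m` times its total mass
of the uniform value.
-/

namespace Vale.Agent.Lib.P308.H27

open Finset

variable {V : Type*} [Fintype V] [DecidableEq V] (G : SimpleGraph V) [DecidableRel G.Adj]

/-- One step of the alternating walk: the sum, over the neighbours `w` of `z`, of the value at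
the partner `g w`. -/
def Dop (g : V → V) (φ : V → ℝ) : V → ℝ := fun z => ∑ w ∈ G.neighborFinset z, φ (g w)

omit [Fintype V] [DecidableEq V] [DecidableRel G.Adj] in
theorem Dop_apply [Fintype V] [DecidableRel G.Adj] (g : V → V) (φ : V → ℝ) (z : V) :
    Dop G g φ z = ∑ w ∈ G.neighborFinset z, φ (g w) := rfl

omit [DecidableEq V] in
theorem Dop_add (g : V → V) (φ ψ : V → ℝ) :
    Dop G g (fun y => φ y + ψ y) = fun z => Dop G g φ z + Dop G g ψ z := by
  funext z
  simp only [Dop_apply]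
  rw [Finset.sum_add_distrib]

omit [DecidableEq V] in
theorem Dop_zero (g : V → V) : Dop G g (fun _ => 0) = fun _ => 0 := by
  funext z
  simp only [Dop_apply]
  exact Finset.sum_const_zero

omit [DecidableEq V] in
theorem Dop_smul (g : V → V) (c : ℝ) (φ : V → ℝ) :
    Dop G g (fun y => c * φ y) = fun z => c * Dop G g φ z := by
  funext z
  simp only [Dop_apply]
  rw [Finset.mul_sum]

omit [DecidableEq V] in
theorem Dop_mono (g : V → V) {φ ψ : V → ℝ} (h : ∀ y, φ y ≤ ψ y) (z : V) :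
    Dop G g φ z ≤ Dop G g ψ z := by
  simp only [Dop_apply]
  exact Finset.sum_le_sum (fun w _ => h (g w))

omit [DecidableEq V] in
theorem Dop_const {d : ℕ} (hreg : G.IsRegularOfDegree d) (g : V → V) (c : ℝ) :
    Dop G g (fun _ => c) = fun _ => (d : ℝ) * c := by
  funext z
  simp only [Dop_apply]
  rw [Finset.sum_const, G.card_neighborFinset_eq_degree, hreg.degree_eq z, nsmul_eq_mul]

omit [DecidableEq V] in
theorem iter_add (g : V → V) (m : ℕ) (φ ψ : V → ℝ) :
    (Dop G g)^[m] (fun y => φ y + ψ y)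
      = fun z => (Dop G g)^[m] φ z + (Dop G g)^[m] ψ z := by
  induction m with
  | zero => rfl
  | succ m ih =>
    rw [Function.iterate_succ_apply', ih, Dop_add]
    funext z
    rw [Function.iterate_succ_apply', Function.iterate_succ_apply']

omit [DecidableEq V] in
theorem iter_zero (g : V → V) (m : ℕ) : (Dop G g)^[m] (fun _ => 0) = fun _ => 0 := by
  induction m with
  | zero => rfl
  | succ m ih => rw [Function.iterate_succ_apply', ih, Dop_zero]

omit [DecidableEq V] in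
theorem iter_smul (g : V → V) (m : ℕ) (c : ℝ) (φ : V → ℝ) :
    (Dop G g)^[m] (fun y => c * φ y) = fun z => c * (Dop G g)^[m] φ z := by
  induction m with
  | zero => rfl
  | succ m ih =>
    rw [Function.iterate_succ_apply', ih, Dop_smul]
    funext z
    rw [Function.iterate_succ_apply']

omit [DecidableEq V] in
theorem iter_mono (g : V → V) (m : ℕ) {φ ψ : V → ℝ} (h : ∀ y, φ y ≤ ψ y) (z : V) :
    (Dop G g)^[m] φ z ≤ (Dop G g)^[m] ψ z := by
  induction m generalizing z with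
  | zero => exact h z
  | succ m ih =>
    rw [Function.iterate_succ_apply', Function.iterate_succ_apply']
    exact Dop_mono G g ih z

omit [DecidableEq V] in
theorem iter_const {d : ℕ} (hreg : G.IsRegularOfDegree d) (g : V → V) (m : ℕ) (c : ℝ) :
    (Dop G g)^[m] (fun _ => c) = fun _ => (d : ℝ) ^ m * c := by
  induction m with
  | zero => simp
  | succ m ih =>
    rw [Function.iterate_succ_apply', ih, Dop_const G hreg]
    funext z
    ring

omit [DecidableEq V] in
theorem iter_le_const {d : ℕ} (hreg : G.IsRegularOfDegree d) (g : V → V) (m : ℕ) {φ : V → ℝ}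
    {c : ℝ} (h : ∀ y, φ y ≤ c) (z : V) : (Dop G g)^[m] φ z ≤ (d : ℝ) ^ m * c := by
  have h1 := iter_mono G g m h z
  rw [iter_const G hreg] at h1
  exact h1

omit [DecidableEq V] in
theorem iter_nonneg (g : V → V) (m : ℕ) {φ : V → ℝ} (h : ∀ y, 0 ≤ φ y) (z : V) :
    0 ≤ (Dop G g)^[m] φ z := by
  have h1 := iter_mono G g m h z
  rw [iter_zero] at h1
  exact h1

omit [DecidableEq V] [DecidableRel G.Adj] in
theorem sum_comp_inv {g : V → V} (hinv : ∀ x, g (g x) = x) (φ : V → ℝ) :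
    ∑ y, φ (g y) = ∑ y, φ y := by
  have hb : Function.Bijective g := Function.Involutive.bijective hinv
  exact Function.Bijective.sum_comp hb φ

omit [DecidableEq V] in
theorem Dop_sum {d : ℕ} (hreg : G.IsRegularOfDegree d) {g : V → V} (hinv : ∀ x, g (g x) = x)
    (φ : V → ℝ) : ∑ z, Dop G g φ z = (d : ℝ) * ∑ y, φ y := by
  simp only [Dop_apply]
  rw [sum_nbr_sum G hreg (fun w => φ (g w)), sum_comp_inv hinv]

omit [DecidableEq V] in
theorem iter_sum {d : ℕ} (hreg : G.IsRegularOfDegree d) {g : V → V} (hinv : ∀ x, g (g x) = x)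
    (m : ℕ) (φ : V → ℝ) : ∑ z, (Dop G g)^[m] φ z = (d : ℝ) ^ m * ∑ y, φ y := by
  induction m with
  | zero => simp
  | succ m ih =>
    have h1 : ∀ z, (Dop G g)^[m + 1] φ z = Dop G g ((Dop G g)^[m] φ) z := by
      intro z
      rw [Function.iterate_succ_apply']
    rw [Finset.sum_congr rfl (fun z _ => h1 z), Dop_sum G hreg hinv, ih]
    ring

omit [DecidableEq V] in
/-- The spectral contraction for `m` steps. -/
theorem iter_sq {d : ℕ} (hreg : G.IsRegularOfDegree d) {lam : ℝ}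
    (hspec : ∀ x : V → ℝ, ∑ v, x v = 0 →
      ∑ v, (∑ w ∈ G.neighborFinset v, x w) ^ 2 ≤ lam ^ 2 * ∑ v, x v ^ 2)
    {g : V → V} (hinv : ∀ x, g (g x) = x) (m : ℕ) (φ : V → ℝ) (h0 : ∑ y, φ y = 0) :
    ∑ z, ((Dop G g)^[m] φ z) ^ 2 ≤ (lam ^ 2) ^ m * ∑ y, φ y ^ 2 := by
  induction m with
  | zero => simp
  | succ m ih =>
    have hs0 : ∑ z, (Dop G g)^[m] φ z = 0 := by
      rw [iter_sum G hreg hinv, h0, mul_zero]
    have hs1 : ∑ w, (Dop G g)^[m] φ (g w) = 0 := by
      rw [sum_comp_inv hinv]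
      exact hs0
    have h1 := hspec (fun w => (Dop G g)^[m] φ (g w)) hs1
    have h2 : ∑ w, ((Dop G g)^[m] φ (g w)) ^ 2 = ∑ w, ((Dop G g)^[m] φ w) ^ 2 :=
      sum_comp_inv hinv (fun y => ((Dop G g)^[m] φ y) ^ 2)
    rw [h2] at h1
    have h3 : ∀ z, (Dop G g)^[m + 1] φ z
        = ∑ w ∈ G.neighborFinset z, (Dop G g)^[m] φ (g w) := by
      intro z
      rw [Function.iterate_succ_apply']
      rfl
    rw [Finset.sum_congr rfl (fun z _ => by rw [h3 z])]
    calc ∑ z, (∑ w ∈ G.neighborFinset z, (Dop G g)^[m] φ (g w)) ^ 2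
        ≤ lam ^ 2 * ∑ w, ((Dop G g)^[m] φ w) ^ 2 := h1
      _ ≤ lam ^ 2 * ((lam ^ 2) ^ m * ∑ y, φ y ^ 2) :=
        mul_le_mul_of_nonneg_left ih (sq_nonneg lam)
      _ = (lam ^ 2) ^ (m + 1) * ∑ y, φ y ^ 2 := by ring

omit [DecidableEq V] in
/-- Mixing: after `m` steps a non-negative function is within `lam ^ m` times its mass of the
uniform value. -/
theorem mix {d : ℕ} (hreg : G.IsRegularOfDegree d) {lam : ℝ} (hlam : 0 ≤ lam)
    (hspec : ∀ x : V → ℝ, ∑ v, x v = 0 →
      ∑ v, (∑ w ∈ G.neighborFinset v, x w) ^ 2 ≤ lam ^ 2 * ∑ v, x v ^ 2)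
    {g : V → V} (hinv : ∀ x, g (g x) = x) (m : ℕ) (χ : V → ℝ) (hχ : ∀ y, 0 ≤ χ y) (z : V) :
    |(Dop G g)^[m] χ z - (d : ℝ) ^ m * ((∑ y, χ y) / Fintype.card V)| ≤ lam ^ m * ∑ y, χ y := by
  have hn : 0 < Fintype.card V := Fintype.card_pos_iff.mpr ⟨z⟩
  have hnpos : (0 : ℝ) < Fintype.card V := by exact_mod_cast hn
  have hS0 : 0 ≤ ∑ y, χ y := Finset.sum_nonneg (fun y _ => hχ y)
  have hnμ : (Fintype.card V : ℝ) * ((∑ y, χ y) / Fintype.card V) = ∑ y, χ y := by
    field_simp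
  have hμ0 : 0 ≤ (∑ y, χ y) / Fintype.card V := div_nonneg hS0 hnpos.le
  generalize (∑ y, χ y) / Fintype.card V = μ at hnμ hμ0 ⊢
  have hφ0 : ∑ y, (χ y - μ) = 0 := by
    rw [Finset.sum_sub_distrib, Finset.sum_const, Finset.card_univ, nsmul_eq_mul, hnμ, sub_self]
  have hdecomp : (Dop G g)^[m] χ z = (Dop G g)^[m] (fun y => χ y - μ) z + (d : ℝ) ^ m * μ := by
    have h1 : χ = fun y => (χ y - μ) + μ := by
      funext y
      ring
    have h2 := iter_add G g m (fun y => χ y - μ) (fun _ => μ)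
    rw [← h1] at h2
    rw [h2, iter_const G hreg]
  have hsq := iter_sq G hreg hspec hinv m (fun y => χ y - μ) hφ0
  have hle : ∑ y, (χ y - μ) ^ 2 ≤ (∑ y, χ y) ^ 2 := by
    have h1 : ∑ y, (χ y - μ) ^ 2 = ∑ y, χ y ^ 2 - μ * ∑ y, χ y := by
      have h2 : ∀ y, (χ y - μ) ^ 2 = χ y ^ 2 - 2 * μ * χ y + μ ^ 2 := by
        intro y
        ring
      rw [Finset.sum_congr rfl (fun y _ => h2 y), Finset.sum_add_distrib, Finset.sum_sub_distrib,
        ← Finset.mul_sum, Finset.sum_const, Finset.card_univ, nsmul_eq_mul]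
      have h3 : (Fintype.card V : ℝ) * μ ^ 2 = μ * ∑ y, χ y := by
        rw [← hnμ]
        ring
      rw [h3]
      ring
    have h4 : ∑ y, χ y ^ 2 ≤ (∑ y, χ y) ^ 2 := by
      rw [pow_two (∑ y, χ y), Finset.sum_mul]
      apply Finset.sum_le_sum
      intro y _
      rw [pow_two]
      exact mul_le_mul_of_nonneg_left
        (Finset.single_le_sum (fun i _ => hχ i) (Finset.mem_univ y)) (hχ y)
    have h5 : 0 ≤ μ * ∑ y, χ y := mul_nonneg hμ0 hS0
    linarith
  have hpt : ((Dop G g)^[m] (fun y => χ y - μ) z) ^ 2 ≤ (lam ^ m * ∑ y, χ y) ^ 2 := by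
    calc ((Dop G g)^[m] (fun y => χ y - μ) z) ^ 2
        ≤ ∑ z', ((Dop G g)^[m] (fun y => χ y - μ) z') ^ 2 :=
          Finset.single_le_sum (f := fun z' => ((Dop G g)^[m] (fun y => χ y - μ) z') ^ 2)
            (fun i _ => sq_nonneg _) (Finset.mem_univ z)
      _ ≤ (lam ^ 2) ^ m * ∑ y, (χ y - μ) ^ 2 := hsq
      _ ≤ (lam ^ 2) ^ m * (∑ y, χ y) ^ 2 := mul_le_mul_of_nonneg_left hle (by positivity)
      _ = (lam ^ m * ∑ y, χ y) ^ 2 := by ring
  have habs := abs_le_of_sq_le_sq hpt (mul_nonneg (pow_nonneg hlam m) hS0)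
  rw [hdecomp, add_sub_cancel_right]
  exact habs

end Vale.Agent.Lib.P308.H27
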