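import Vale.Agent.Lib.P308.H27.Dyn2

/-!
The numerical side conditions of the uniform ratio bound, for degrees at least `2 ^ 20` that are
small compared with the square of the logarithm of the number of vertices.
-/

namespace Vale.Agent.Lib.P308.H27

open Finset

theorem qpow_ge {q : ℝ} {b : ℕ} (hb : 0 < b) (hq0 : 0 ≤ q) (hq1 : q ≤ 1)
    (hqb : 1 / 2 ≤ q ^ b) (m : ℕ) : (1 / 2 : ℝ) ^ (m / b + 1) ≤ q ^ m := by
  have h1 : q ^ m = (q ^ b) ^ (m / b) * q ^ (m % b) := by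
    rw [← pow_mul, ← pow_add, Nat.div_add_mod]
  have h2 : q ^ b ≤ q ^ (m % b) := pow_le_pow_of_le_one hq0 hq1 (Nat.mod_lt m hb).le
  have h3 : (1 / 2 : ℝ) ^ (m / b) ≤ (q ^ b) ^ (m / b) :=
    pow_le_pow_left₀ (by norm_num) hqb _
  rw [h1, pow_succ]
  exact mul_le_mul h3 (hqb.trans h2) (by norm_num) (by positivity)

theorem q_facts (b : ℕ) (hb : 21 ≤ b) :
    (3 / 4 : ℝ) ≤ 1 - 1 / (2 * (b : ℝ)) ∧ (1 - 1 / (2 * (b : ℝ))) ≤ 1
      ∧ (1 / 2 : ℝ) ≤ (1 - 1 / (2 * (b : ℝ))) ^ b := by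
  have hb' : (21 : ℝ) ≤ b := by exact_mod_cast hb
  have hbpos : (0 : ℝ) < b := by linarith
  have h1 : 1 / (2 * (b : ℝ)) ≤ 1 / 42 := by
    rw [div_le_div_iff₀ (by positivity) (by norm_num)]
    linarith
  have h0 : 0 ≤ 1 / (2 * (b : ℝ)) := by positivity
  refine ⟨by linarith, by linarith, ?_⟩
  have h2 := one_add_mul_le_pow (a := -(1 / (2 * (b : ℝ)))) (by linarith) b
  have e : 1 + (b : ℝ) * -(1 / (2 * (b : ℝ))) = 1 / 2 := by
    field_simp
    ring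
  have e2 : 1 + -(1 / (2 * (b : ℝ))) = 1 - 1 / (2 * (b : ℝ)) := by ring
  rw [e, e2] at h2
  exact h2

theorem geom_le {x c : ℝ} (hx1 : x < 1) (hc : 1 ≤ c * (1 - x)) (hx0 : 0 ≤ x) (T : ℕ) :
    ∑ j ∈ Finset.range T, x ^ j ≤ c := by
  have h1 := mul_neg_geom_sum x T
  have h2 : 0 ≤ x ^ T := pow_nonneg hx0 T
  have h3 : (1 - x) * ∑ j ∈ Finset.range T, x ^ j ≤ (1 - x) * c := by
    rw [h1]
    linarith
  exact le_of_mul_le_mul_left h3 (by linarith)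

theorem sum_refl (f : ℕ → ℝ) (T : ℕ) :
    ∑ i ∈ Finset.range T, f (T - (i + 1)) = ∑ j ∈ Finset.range T, f j := by
  have h := Finset.sum_range_reflect f T
  rw [← h]
  apply Finset.sum_congr rfl
  intro i _
  congr 1
  omega

theorem sq_le_two_pow : ∀ k : ℕ, 64 * (k + 21) ^ 2 ≤ 2 ^ (k + 20) := by
  intro k
  induction k with
  | zero => norm_num
  | succ k ih =>
    have h1 : 64 * (k + 1 + 21) ^ 2 ≤ 2 * (64 * (k + 21) ^ 2) := by
      have e1 : 64 * (k + 1 + 21) ^ 2 = 64 * k ^ 2 + 2816 * k + 30976 := by ring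
      have e2 : 2 * (64 * (k + 21) ^ 2) = 128 * k ^ 2 + 5376 * k + 56448 := by ring
      rw [e1, e2]
      have := Nat.zero_le (k ^ 2)
      omega
    calc 64 * (k + 1 + 21) ^ 2 ≤ 2 * (64 * (k + 21) ^ 2) := h1
      _ ≤ 2 * 2 ^ (k + 20) := Nat.mul_le_mul_left _ ih
      _ = 2 ^ (k + 1 + 20) := by ring

/-- The numerical assumptions: `b` is the number of binary digits of `d`, at least `21`; `ℓ` is
the least number with `n ≤ 1024 ^ ℓ`, at least `2 b`; and `q = 1 - 1 / (2 b)`. -/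
structure NumHyp (d n ℓ b : ℕ) (q : ℝ) : Prop where
  hb : 21 ≤ b
  hd1 : d + 1 ≤ 2 ^ b
  hd2 : 2 ^ (b - 1) ≤ d
  hn1 : n ≤ 1024 ^ ℓ
  hn2 : 1024 ^ ℓ ≤ 1024 * n
  hl : 2 * b ≤ ℓ
  q34 : 3 / 4 ≤ q
  q1 : q ≤ 1
  qb : 1 / 2 ≤ q ^ b
  hq : (1 - q) * (2 * b) = 1

variable {d n ℓ b : ℕ} {q : ℝ}

theorem NumHyp.qpos (H : NumHyp d n ℓ b q) : 0 < q := by linarith [H.q34]

theorem NumHyp.npos (H : NumHyp d n ℓ b q) : (0 : ℝ) < n := by
  have h1 := H.hn2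
  have h2 : 0 < 1024 ^ ℓ := by positivity
  have h3 : 0 < n := by
    rcases Nat.eq_zero_or_pos n with h | h
    · rw [h] at h1
      omega
    · exact h
  exact_mod_cast h3

theorem NumHyp.dle (H : NumHyp d n ℓ b q) : (d : ℝ) ≤ 2 ^ b := by
  have h1 : d ≤ 2 ^ b := by
    have := H.hd1
    omega
  exact_mod_cast h1

theorem NumHyp.dge (H : NumHyp d n ℓ b q) : (2 : ℝ) ^ 20 ≤ d := by
  have h1 : 2 ^ 20 ≤ 2 ^ (b - 1) := Nat.pow_le_pow_right (by norm_num) (by have := H.hb; omega)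
  have h2 : 2 ^ 20 ≤ d := h1.trans H.hd2
  exact_mod_cast h2

theorem NumHyp.dsq (H : NumHyp d n ℓ b q) : 64 * (b : ℝ) ^ 2 ≤ d := by
  obtain ⟨k, hk⟩ := Nat.exists_eq_add_of_le H.hb
  have h1 := sq_le_two_pow k
  have h2 : 64 * b ^ 2 ≤ d := by
    have e1 : b = k + 21 := by omega
    have e2 : b - 1 = k + 20 := by omega
    have h3 := H.hd2
    rw [e2] at h3
    rw [e1]
    exact h1.trans h3
  exact_mod_cast h2

/-- `n` is at least `2 ^ (10 ℓ) / 1024`. -/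
theorem NumHyp.nge (H : NumHyp d n ℓ b q) : (2 : ℝ) ^ (10 * ℓ) ≤ 1024 * n := by
  have h1 : (1024 : ℝ) ^ ℓ ≤ 1024 * n := by exact_mod_cast H.hn2
  have e : (1024 : ℝ) ^ ℓ = 2 ^ (10 * ℓ) := by
    rw [pow_mul]
    norm_num
  rw [← e]
  exact h1

/-- Powers of `q` lose at most a factor `2` for every `b` steps. -/
theorem NumHyp.qpow (H : NumHyp d n ℓ b q) (m : ℕ) : (1 / 2 : ℝ) ^ (m / b + 1) ≤ q ^ m :=
  qpow_ge (by have := H.hb; omega) H.qpos.le H.q1 H.qb m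

theorem NumHyp.qpow_lin (H : NumHyp d n ℓ b q) {c : ℕ} (hc : c ≤ 21) :
    (1 / 2 : ℝ) ^ (ℓ + 1) ≤ q ^ (c * ℓ) := by
  have h1 := H.qpow (c * ℓ)
  have h2 : c * ℓ / b ≤ ℓ := by
    apply Nat.div_le_of_le_mul
    have := H.hb
    exact Nat.mul_le_mul_right ℓ (by omega)
  have h3 : (1 / 2 : ℝ) ^ (ℓ + 1) ≤ (1 / 2 : ℝ) ^ (c * ℓ / b + 1) :=
    pow_le_pow_of_le_one (by norm_num) (by norm_num) (by omega)
  exact h3.trans h1

theorem half_mul_two (m : ℕ) : (1 / 2 : ℝ) ^ m * 2 ^ m = 1 := by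
  rw [← mul_pow]
  norm_num

/-- The ball of radius `2 r₀ + 1` is small. -/
theorem num_esc (H : NumHyp d n ℓ b q) {r₀ : ℕ} (hr : r₀ = ℓ / b + 4) :
    4 * ((d : ℝ) + 1) ^ (2 * r₀ + 1) ≤ n * q ^ (2 * ℓ) := by
  have hb := H.hb
  have hl := H.hl
  have h1 : ((d : ℝ) + 1) ≤ 2 ^ b := by exact_mod_cast H.hd1
  have h2 : ((d : ℝ) + 1) ^ (2 * r₀ + 1) ≤ ((2 : ℝ) ^ b) ^ (2 * r₀ + 1) :=
    pow_le_pow_left₀ (by positivity) h1 _
  have h3 : b * (2 * r₀ + 1) ≤ 2 * ℓ + 9 * b := by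
    have h4 := Nat.mul_div_le ℓ b
    rw [hr]
    have e : b * (2 * (ℓ / b + 4) + 1) = 2 * (b * (ℓ / b)) + 9 * b := by ring
    rw [e]
    omega
  have h5 : ((2 : ℝ) ^ b) ^ (2 * r₀ + 1) ≤ 2 ^ (2 * ℓ + 9 * b) := by
    rw [← pow_mul]
    exact pow_le_pow_right₀ (by norm_num) h3
  have h6 := H.qpow_lin (c := 2) (by norm_num)
  have h7 := H.nge
  have key : (4 : ℝ) * 2 ^ (2 * ℓ + 9 * b) * (1024 * 2 ^ (ℓ + 1)) ≤ 2 ^ (10 * ℓ) := by
    have e : (4 : ℝ) * 2 ^ (2 * ℓ + 9 * b) * (1024 * 2 ^ (ℓ + 1))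
        = 2 ^ (2 * ℓ + 9 * b + (ℓ + 1) + 12) := by
      rw [pow_add (2 : ℝ) (2 * ℓ + 9 * b + (ℓ + 1)) 12, pow_add (2 : ℝ) (2 * ℓ + 9 * b) (ℓ + 1)]
      norm_num
      ring
    rw [e]
    exact pow_le_pow_right₀ (by norm_num) (by omega)
  have hn0 := H.npos
  have h8 : (n : ℝ) * (1 / 2) ^ (ℓ + 1) ≤ n * q ^ (2 * ℓ) :=
    mul_le_mul_of_nonneg_left h6 hn0.le
  have h9 : 4 * (2 : ℝ) ^ (2 * ℓ + 9 * b) ≤ n * (1 / 2) ^ (ℓ + 1) := by
    have hpos : (0 : ℝ) < 1024 * 2 ^ (ℓ + 1) := by positivity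
    apply le_of_mul_le_mul_right _ hpos
    have e : (n : ℝ) * (1 / 2) ^ (ℓ + 1) * (1024 * 2 ^ (ℓ + 1))
        = 1024 * n * ((1 / 2) ^ (ℓ + 1) * 2 ^ (ℓ + 1)) := by ring
    rw [e, half_mul_two, mul_one]
    exact key.trans h7
  calc 4 * ((d : ℝ) + 1) ^ (2 * r₀ + 1) ≤ 4 * 2 ^ (2 * ℓ + 9 * b) := by
        linarith [h2.trans h5]
    _ ≤ n * (1 / 2) ^ (ℓ + 1) := h9
    _ ≤ n * q ^ (2 * ℓ) := h8

/-- The loss in the final bound is small. -/
theorem num_final (H : NumHyp d n ℓ b q) : (2 : ℝ) ≤ n * d * q ^ (6 * ℓ) := by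
  have h6 := H.qpow_lin (c := 6) (by norm_num)
  have h7 := H.nge
  have hd := H.dge
  have hn0 := H.npos
  have hd0 : (0 : ℝ) ≤ d := Nat.cast_nonneg d
  have h1 : (n : ℝ) * d * (1 / 2) ^ (ℓ + 1) ≤ n * d * q ^ (6 * ℓ) :=
    mul_le_mul_of_nonneg_left h6 (mul_nonneg hn0.le hd0)
  have h2 : (2 : ℝ) ≤ n * d * (1 / 2) ^ (ℓ + 1) := by
    have hpos : (0 : ℝ) < 1024 * 2 ^ (ℓ + 1) := by positivity
    apply le_of_mul_le_mul_right _ hpos
    have e : (n : ℝ) * d * (1 / 2) ^ (ℓ + 1) * (1024 * 2 ^ (ℓ + 1))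
        = 1024 * n * d * ((1 / 2) ^ (ℓ + 1) * 2 ^ (ℓ + 1)) := by ring
    rw [e, half_mul_two, mul_one]
    have h3 : (2 : ℝ) ^ (10 * ℓ) * 2 ^ 20 ≤ 1024 * n * d :=
      mul_le_mul h7 hd (by positivity) (by positivity)
    have h4 : (2 : ℝ) * (1024 * 2 ^ (ℓ + 1)) ≤ 2 ^ (10 * ℓ) * 2 ^ 20 := by
      have e2 : (2 : ℝ) * (1024 * 2 ^ (ℓ + 1)) = 2 ^ (ℓ + 1 + 11) := by
        rw [pow_add (2 : ℝ) (ℓ + 1) 11]
        norm_num
        ring
      rw [e2, ← pow_add]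
      exact pow_le_pow_right₀ (by norm_num) (by omega)
    linarith
  linarith

/-- `n q ^ (2 ℓ)` is much larger than `b ℓ`. -/
theorem num_nq (H : NumHyp d n ℓ b q) : 32 * (b : ℝ) * ℓ ≤ n * q ^ (2 * ℓ) := by
  have hb := H.hb
  have hl := H.hl
  have h6 := H.qpow_lin (c := 2) (by norm_num)
  have h7 := H.nge
  have hn0 := H.npos
  have h8 : (n : ℝ) * (1 / 2) ^ (ℓ + 1) ≤ n * q ^ (2 * ℓ) :=
    mul_le_mul_of_nonneg_left h6 hn0.le
  have hl2 : (ℓ : ℝ) ≤ 2 ^ ℓ := by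
    have := (Nat.lt_two_pow_self (n := ℓ)).le
    exact_mod_cast this
  have hbl : (b : ℝ) ≤ 2 ^ ℓ := by
    have h : b ≤ ℓ := by omega
    have h' : (b : ℝ) ≤ ℓ := by exact_mod_cast h
    linarith
  have hb0 : (0 : ℝ) ≤ b := Nat.cast_nonneg b
  have hl0 : (0 : ℝ) ≤ ℓ := Nat.cast_nonneg ℓ
  have h9 : 32 * (b : ℝ) * ℓ ≤ 32 * ((2 : ℝ) ^ ℓ * 2 ^ ℓ) := by
    have := mul_le_mul hbl hl2 hl0 (by positivity)
    linarith
  have h10 : 32 * ((2 : ℝ) ^ ℓ * 2 ^ ℓ) ≤ n * (1 / 2) ^ (ℓ + 1) := by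
    have hpos : (0 : ℝ) < 1024 * 2 ^ (ℓ + 1) := by positivity
    apply le_of_mul_le_mul_right _ hpos
    have e : (n : ℝ) * (1 / 2) ^ (ℓ + 1) * (1024 * 2 ^ (ℓ + 1))
        = 1024 * n * ((1 / 2) ^ (ℓ + 1) * 2 ^ (ℓ + 1)) := by ring
    rw [e, half_mul_two, mul_one]
    have e2 : 32 * ((2 : ℝ) ^ ℓ * 2 ^ ℓ) * (1024 * 2 ^ (ℓ + 1)) = 2 ^ (ℓ + ℓ + (ℓ + 1) + 15) := by
      rw [pow_add (2 : ℝ) (ℓ + ℓ + (ℓ + 1)) 15, pow_add (2 : ℝ) (ℓ + ℓ) (ℓ + 1),
        pow_add (2 : ℝ) ℓ ℓ]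
      norm_num
      ring
    rw [e2]
    exact (pow_le_pow_right₀ (by norm_num) (by omega)).trans h7
  linarith

/-- The growth condition. -/
theorem num_grow (H : NumHyp d n ℓ b q) :
    ∀ t, t < 2 * ℓ → ∑ j ∈ Finset.range (t + 1), bq d n q j ≤ (1 - q) * d := by
  intro t ht
  have hq := H.qpos
  have hb := H.hb
  have hn0 := H.npos
  have hd0 : (0 : ℝ) ≤ d := Nat.cast_nonneg d
  have hbr : (21 : ℝ) ≤ b := by exact_mod_cast hb
  have hq2 : 0 < q ^ (2 * ℓ) := pow_pos hq _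
  obtain ⟨W, hW⟩ : ∃ W : ℝ, W = 2 * ((d : ℝ) / n) * (q ^ (2 * ℓ))⁻¹ := ⟨_, rfl⟩
  have hW0 : 0 ≤ W := by
    rw [hW]
    positivity
  have hterm : ∀ j ∈ Finset.range (t + 1), bq d n q j
      ≤ (if j ∈ Finset.range (b + 1) then (4 : ℝ) else 0) + W + 2 * (1 / 2) ^ j := by
    intro j hj
    rw [Finset.mem_range] at hj
    have hp2 : (0 : ℝ) ≤ 2 * (1 / 2) ^ j := by positivity
    unfold bq
    rcases Nat.eq_zero_or_pos j with hj0 | hj0
    · subst hj0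
      rw [if_pos rfl, if_pos (Finset.mem_range.mpr (by omega))]
      linarith
    · rw [if_neg (by omega)]
      have hqj : 0 < q ^ j := pow_pos hq j
      by_cases hjb : j ≤ b
      · rw [if_pos (Finset.mem_range.mpr (by omega))]
        have h1 : rho d n q j ≤ 1 / q ^ j := by
          unfold rho
          exact div_le_div_of_nonneg_right (min_le_left _ _) hqj.le
        have h2 : q ^ b ≤ q ^ j := pow_le_pow_of_le_one hq.le H.q1 hjb
        have h3 : 1 / q ^ j ≤ 2 := by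
          rw [div_le_iff₀ hqj]
          have := H.qb
          linarith
        linarith
      · rw [if_neg (by rw [Finset.mem_range]; omega)]
        have h1 : rho d n q j ≤ ((d : ℝ) / n + d / 64 ^ j) / q ^ j := by
          unfold rho
          exact div_le_div_of_nonneg_right (min_le_right _ _) hqj.le
        have h2 : ((d : ℝ) / n + d / 64 ^ j) / q ^ j
            = ((d : ℝ) / n) * (q ^ j)⁻¹ + d / (64 ^ j * q ^ j) := by
          field_simp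
        have h3 : (q ^ j)⁻¹ ≤ (q ^ (2 * ℓ))⁻¹ := by
          apply inv_anti₀ hq2
          exact pow_le_pow_of_le_one hq.le H.q1 (by omega)
        have h4 : (d : ℝ) / (64 ^ j * q ^ j) ≤ (1 / 2) ^ j := by
          rw [div_le_iff₀ (by positivity)]
          have h5 : (2 : ℝ) ^ j ≤ (1 / 2) ^ j * (64 ^ j * q ^ j) := by
            rw [← mul_pow, ← mul_pow]
            apply pow_le_pow_left₀ (by norm_num)
            linarith [H.q34]
          have h6 : (d : ℝ) ≤ 2 ^ j :=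
            H.dle.trans (pow_le_pow_right₀ (by norm_num) (by omega))
          linarith
        have h5 : ((d : ℝ) / n) * (q ^ j)⁻¹ ≤ ((d : ℝ) / n) * (q ^ (2 * ℓ))⁻¹ :=
          mul_le_mul_of_nonneg_left h3 (by positivity)
        rw [hW]
        linarith
  have hsum := Finset.sum_le_sum hterm
  rw [Finset.sum_add_distrib, Finset.sum_add_distrib] at hsum
  have hA : ∑ j ∈ Finset.range (t + 1), (if j ∈ Finset.range (b + 1) then (4 : ℝ) else 0)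
      ≤ 4 * ((b : ℝ) + 1) := by
    rw [Finset.sum_ite_mem, Finset.sum_const, nsmul_eq_mul]
    have h : ((Finset.range (t + 1) ∩ Finset.range (b + 1)).card : ℝ) ≤ (b : ℝ) + 1 := by
      have h' := Finset.card_le_card
        (Finset.inter_subset_right (s₁ := Finset.range (t + 1)) (s₂ := Finset.range (b + 1)))
      rw [Finset.card_range] at h'
      exact_mod_cast h'
    linarith
  have hB : ∑ _j ∈ Finset.range (t + 1), W = ((t : ℝ) + 1) * W := by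
    rw [Finset.sum_const, Finset.card_range, nsmul_eq_mul]
    push_cast
    ring
  have hC : ∑ j ∈ Finset.range (t + 1), 2 * (1 / 2 : ℝ) ^ j ≤ 4 := by
    rw [← Finset.mul_sum]
    have := geom_le (x := 1 / 2) (c := 2) (by norm_num) (by norm_num) (by norm_num) (t + 1)
    linarith
  have hB' : ((t : ℝ) + 1) * W ≤ 2 * ℓ * W := by
    apply mul_le_mul_of_nonneg_right _ hW0
    have h : t + 1 ≤ 2 * ℓ := by omega
    exact_mod_cast h
  have hW2 : 2 * (ℓ : ℝ) * W ≤ d / (8 * b) := by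
    have hnq := num_nq H
    rw [hW]
    have e : 2 * (ℓ : ℝ) * (2 * ((d : ℝ) / n) * (q ^ (2 * ℓ))⁻¹)
        = 4 * ℓ * d / (n * q ^ (2 * ℓ)) := by
      field_simp
      ring
    rw [e, div_le_div_iff₀ (by positivity) (by positivity)]
    have := mul_le_mul_of_nonneg_left hnq hd0
    nlinarith
  have hqd : (1 - q) * d = d / (2 * b) := by
    rw [eq_div_iff (by positivity)]
    calc (1 - q) * d * (2 * b) = d * ((1 - q) * (2 * b)) := by ring
      _ = d := by rw [H.hq, mul_one]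
  have h64 := H.dsq
  have hlast : 4 * ((b : ℝ) + 1) + 4 ≤ 3 * d / (8 * b) := by
    rw [le_div_iff₀ (by positivity)]
    nlinarith
  have hcomb : (d : ℝ) / (8 * b) + 3 * d / (8 * b) = d / (2 * b) := by
    field_simp
    ring
  rw [hB] at hsum
  rw [hqd]
  linarith

/-- Auxiliary sequences for the collision sum. -/
noncomputable def uu (i : ℕ) : ℝ := (1 / 32) ^ (i + 1)

/-- Auxiliary sequence. -/
noncomputable def ww (i : ℕ) : ℝ := (1 / 2) ^ (i + 1)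

/-- Auxiliary sequence: the indicator of the numbers below `4`. -/
noncomputable def A4 (j : ℕ) : ℝ := if j < 4 then 1 else 0

/-- Auxiliary sequence. -/
noncomputable def om (ℓ j : ℕ) : ℝ := 2 * (1 / 48) ^ j + (2 / 3) ^ j / 32 ^ ℓ

/-- Auxiliary sequence. -/
noncomputable def omh (ℓ j : ℕ) : ℝ := 1 / 288 * (1 / 2) ^ j + (2 / 3) ^ j / 32 ^ ℓ

theorem uu_nonneg (i : ℕ) : 0 ≤ uu i := by
  unfold uu
  positivity

theorem ww_nonneg (i : ℕ) : 0 ≤ ww i := by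
  unfold ww
  positivity

theorem A4_nonneg (j : ℕ) : 0 ≤ A4 j := by
  unfold A4
  split_ifs <;> norm_num

theorem om_nonneg (ℓ j : ℕ) : 0 ≤ om ℓ j := by
  unfold om
  positivity

theorem omh_nonneg (ℓ j : ℕ) : 0 ≤ omh ℓ j := by
  unfold omh
  positivity

theorem sum_uu (T : ℕ) : ∑ i ∈ Finset.range T, uu i ≤ 1 := by
  have h := geom_le (x := 1 / 32) (c := 2) (by norm_num) (by norm_num) (by norm_num) T
  have e : ∀ i ∈ Finset.range T, uu i = 1 / 32 * (1 / 32 : ℝ) ^ i := by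
    intro i _
    unfold uu
    rw [pow_succ]
    ring
  rw [Finset.sum_congr rfl e, ← Finset.mul_sum]
  linarith

theorem sum_ww (T : ℕ) : ∑ i ∈ Finset.range T, ww i ≤ 1 := by
  have h := geom_le (x := 1 / 2) (c := 2) (by norm_num) (by norm_num) (by norm_num) T
  have e : ∀ i ∈ Finset.range T, ww i = 1 / 2 * (1 / 2 : ℝ) ^ i := by
    intro i _
    unfold ww
    rw [pow_succ]
    ring
  rw [Finset.sum_congr rfl e, ← Finset.mul_sum]
  linarith

theorem sum_A4 (T : ℕ) : ∑ j ∈ Finset.range T, A4 j ≤ 4 := by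
  have e : ∀ j ∈ Finset.range T, A4 j = if j ∈ Finset.range 4 then (1 : ℝ) else 0 := by
    intro j _
    unfold A4
    by_cases hj : j < 4
    · rw [if_pos hj, if_pos (Finset.mem_range.mpr hj)]
    · rw [if_neg hj, if_neg (by rw [Finset.mem_range]; exact hj)]
  rw [Finset.sum_congr rfl e, Finset.sum_ite_mem, Finset.sum_const, nsmul_eq_mul, mul_one]
  have h := Finset.card_le_card
    (Finset.inter_subset_right (s₁ := Finset.range T) (s₂ := Finset.range 4))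
  rw [Finset.card_range] at h
  exact_mod_cast h

theorem sum_om {ℓ : ℕ} (hl : 3 ≤ ℓ) (T : ℕ) : ∑ j ∈ Finset.range T, om ℓ j ≤ 5 := by
  have h1 := geom_le (x := 1 / 48) (c := 2) (by norm_num) (by norm_num) (by norm_num) T
  have h2 := geom_le (x := 2 / 3) (c := 3) (by norm_num) (by norm_num) (by norm_num) T
  have h3 : (32 : ℝ) ^ 3 ≤ 32 ^ ℓ := pow_le_pow_right₀ (by norm_num) hl
  have hN : (0 : ℝ) < 32 ^ ℓ := by positivity
  unfold om
  rw [Finset.sum_add_distrib, ← Finset.mul_sum, ← Finset.sum_div]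
  have h4 : (∑ j ∈ Finset.range T, (2 / 3 : ℝ) ^ j) / 32 ^ ℓ ≤ 1 := by
    rw [div_le_one hN]
    norm_num at h3
    linarith
  linarith

theorem sum_omh {ℓ : ℕ} (hl : 3 ≤ ℓ) (T : ℕ) : ∑ j ∈ Finset.range T, omh ℓ j ≤ 1 / 100 := by
  have h1 := geom_le (x := 1 / 2) (c := 2) (by norm_num) (by norm_num) (by norm_num) T
  have h2 := geom_le (x := 2 / 3) (c := 3) (by norm_num) (by norm_num) (by norm_num) T
  have h3 : (32 : ℝ) ^ 3 ≤ 32 ^ ℓ := pow_le_pow_right₀ (by norm_num) hl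
  have hN : (0 : ℝ) < 32 ^ ℓ := by positivity
  unfold omh
  rw [Finset.sum_add_distrib, ← Finset.mul_sum, ← Finset.sum_div]
  have h4 : (∑ j ∈ Finset.range T, (2 / 3 : ℝ) ^ j) / 32 ^ ℓ ≤ 1 / 1000 := by
    rw [div_le_iff₀ hN]
    norm_num at h3
    linarith
  linarith

/-- The bound for one term of the collision sum. -/
theorem term_le (H : NumHyp d n ℓ b q) (r₀ : ℕ) {i k : ℕ} (hi : i < 2 * ℓ) (hk : k < 2 * ℓ) :
    (if r₀ < i + k + 2 then
        rho d n q ((2 * ℓ - (i + 1)) + (2 * ℓ - (k + 1))) * (sig ℓ (i + 1) * sig ℓ (k + 1))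
      else 0)
    ≤ 27 * (A4 (2 * ℓ - (i + 1)) * A4 (2 * ℓ - (k + 1)))
      + (d : ℝ) / n * (q ^ (4 * ℓ))⁻¹
          * (4 + 2 * 32 ^ ℓ * uu i + 2 * 32 ^ ℓ * uu k
              + (32 ^ ℓ) ^ 2 * (1 / 16) ^ (r₀ + 1) * (ww i * ww k))
      + d * (omh ℓ (2 * ℓ - (i + 1)) * om ℓ (2 * ℓ - (k + 1))
              + om ℓ (2 * ℓ - (i + 1)) * omh ℓ (2 * ℓ - (k + 1))) := by
  have hq := H.qpos
  have hn0 := H.npos
  have hd0 : (0 : ℝ) ≤ d := Nat.cast_nonneg d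
  have hl : 42 ≤ ℓ := by
    have := H.hb
    have := H.hl
    omega
  obtain ⟨j, hj⟩ : ∃ j, j = 2 * ℓ - (i + 1) := ⟨_, rfl⟩
  obtain ⟨j', hj'⟩ : ∃ j', j' = 2 * ℓ - (k + 1) := ⟨_, rfl⟩
  rw [← hj, ← hj']
  have hN : (0 : ℝ) < 32 ^ ℓ := by positivity
  have hs1 : sig ℓ (i + 1) = 2 + 32 ^ ℓ * uu i := by
    unfold sig uu
    rw [one_div, inv_pow]
    ring
  have hs2 : sig ℓ (k + 1) = 2 + 32 ^ ℓ * uu k := by
    unfold sig uu
    rw [one_div, inv_pow]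
    ring
  have hs1' : sig ℓ (i + 1) = 2 + 32 ^ j / 32 ^ ℓ := by
    unfold sig
    congr 1
    rw [div_eq_div_iff (by positivity) (by positivity), ← pow_add, ← pow_add]
    congr 1
    omega
  have hs2' : sig ℓ (k + 1) = 2 + 32 ^ j' / 32 ^ ℓ := by
    unfold sig
    congr 1
    rw [div_eq_div_iff (by positivity) (by positivity), ← pow_add, ← pow_add]
    congr 1
    omega
  have hA0 : 0 ≤ 27 * (A4 j * A4 j') :=
    mul_nonneg (by norm_num) (mul_nonneg (A4_nonneg j) (A4_nonneg j'))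
  have hu1 := uu_nonneg i
  have hu2 := uu_nonneg k
  have hw1 := ww_nonneg i
  have hw2 := ww_nonneg k
  have hc2 : 0 ≤ (d : ℝ) / n * (q ^ (4 * ℓ))⁻¹ := by positivity
  have hT2 : 0 ≤ (d : ℝ) / n * (q ^ (4 * ℓ))⁻¹
      * (4 + 2 * 32 ^ ℓ * uu i + 2 * 32 ^ ℓ * uu k
          + (32 ^ ℓ) ^ 2 * (1 / 16) ^ (r₀ + 1) * (ww i * ww k)) := by
    apply mul_nonneg hc2
    positivity
  have hT3 : 0 ≤ (d : ℝ) * (omh ℓ j * om ℓ j' + om ℓ j * omh ℓ j') :=
    mul_nonneg hd0 (add_nonneg (mul_nonneg (omh_nonneg ℓ j) (om_nonneg ℓ j'))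
      (mul_nonneg (om_nonneg ℓ j) (omh_nonneg ℓ j')))
  by_cases hfar : r₀ < i + k + 2
  swap
  · rw [if_neg hfar]
    linarith
  rw [if_pos hfar]
  have hσ1 := sig_nonneg ℓ (i + 1)
  have hσ2 := sig_nonneg ℓ (k + 1)
  have hr0 := rho_nonneg d n hq (j + j')
  have hqm : 0 < q ^ (j + j') := pow_pos hq _
  by_cases hm : j + j' < 4
  · have hA : A4 j = 1 := by
      unfold A4
      rw [if_pos (by omega)]
    have hA' : A4 j' = 1 := by
      unfold A4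
      rw [if_pos (by omega)]
    have hr3 : rho d n q (j + j') ≤ 3 := by
      have h1 : rho d n q (j + j') ≤ 1 / q ^ (j + j') := by
        unfold rho
        exact div_le_div_of_nonneg_right (min_le_left _ _) hqm.le
      have h2 : (3 / 4 : ℝ) ^ 3 ≤ q ^ (j + j') := by
        calc (3 / 4 : ℝ) ^ 3 ≤ (3 / 4) ^ (j + j') :=
              pow_le_pow_of_le_one (by norm_num) (by norm_num) (by omega)
          _ ≤ q ^ (j + j') := pow_le_pow_left₀ (by norm_num) H.q34 _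
      have h3 : 1 / q ^ (j + j') ≤ 3 := by
        rw [div_le_iff₀ hqm]
        norm_num at h2
        linarith
      linarith
    have hσ3 : sig ℓ (i + 1) ≤ 3 := by
      rw [hs1']
      have : (32 : ℝ) ^ j / 32 ^ ℓ ≤ 1 := by
        rw [div_le_one hN]
        exact pow_le_pow_right₀ (by norm_num) (by omega)
      linarith
    have hσ3' : sig ℓ (k + 1) ≤ 3 := by
      rw [hs2']
      have : (32 : ℝ) ^ j' / 32 ^ ℓ ≤ 1 := by
        rw [div_le_one hN]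
        exact pow_le_pow_right₀ (by norm_num) (by omega)
      linarith
    have h9 : rho d n q (j + j') * (sig ℓ (i + 1) * sig ℓ (k + 1)) ≤ 3 * (3 * 3) :=
      mul_le_mul hr3 (mul_le_mul hσ3 hσ3' hσ2 (by norm_num)) (mul_nonneg hσ1 hσ2)
        (by norm_num)
    rw [hA, hA']
    linarith
  · have h1 : rho d n q (j + j') ≤ ((d : ℝ) / n + d / 64 ^ (j + j')) / q ^ (j + j') := by
      unfold rho
      exact div_le_div_of_nonneg_right (min_le_right _ _) hqm.le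
    have h2 : ((d : ℝ) / n + d / 64 ^ (j + j')) / q ^ (j + j')
        = ((d : ℝ) / n) * (q ^ (j + j'))⁻¹ + d / (64 ^ (j + j') * q ^ (j + j')) := by
      field_simp
    have h3 : (q ^ (j + j'))⁻¹ ≤ (q ^ (4 * ℓ))⁻¹ := by
      apply inv_anti₀ (pow_pos hq _)
      exact pow_le_pow_of_le_one hq.le H.q1 (by omega)
    have h4 : (d : ℝ) / (64 ^ (j + j') * q ^ (j + j')) ≤ d * (1 / 48) ^ (j + j') := by
      rw [div_le_iff₀ (by positivity)]
      have h5 : (1 : ℝ) ≤ (1 / 48) ^ (j + j') * (64 ^ (j + j') * q ^ (j + j')) := by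
        rw [← mul_pow, ← mul_pow]
        apply one_le_pow₀
        linarith [H.q34]
      have h6 := mul_le_mul_of_nonneg_left h5 hd0
      linarith
    have hρ : rho d n q (j + j')
        ≤ (d : ℝ) / n * (q ^ (4 * ℓ))⁻¹ + d * (1 / 48) ^ (j + j') := by
      have := mul_le_mul_of_nonneg_left h3 (show (0 : ℝ) ≤ (d : ℝ) / n by positivity)
      linarith
    have hfarσ : sig ℓ (i + 1) * sig ℓ (k + 1)
        ≤ 4 + 2 * 32 ^ ℓ * uu i + 2 * 32 ^ ℓ * uu k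
          + (32 ^ ℓ) ^ 2 * (1 / 16) ^ (r₀ + 1) * (ww i * ww k) := by
      rw [hs1, hs2]
      have h6 : uu i * uu k ≤ (1 / 16) ^ (r₀ + 1) * (ww i * ww k) := by
        unfold uu ww
        have e1 : (1 / 32 : ℝ) ^ (i + 1) * (1 / 32) ^ (k + 1)
            = (1 / 16) ^ (i + k + 2) * ((1 / 2) ^ (i + 1) * (1 / 2) ^ (k + 1)) := by
          rw [← pow_add, ← pow_add]
          have e0 : i + 1 + (k + 1) = i + k + 2 := by ring
          rw [e0, ← mul_pow]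
          norm_num
        rw [e1]
        apply mul_le_mul_of_nonneg_right _ (by positivity)
        exact pow_le_pow_of_le_one (by norm_num) (by norm_num) (by omega)
      have h7 := mul_le_mul_of_nonneg_left h6 (sq_nonneg ((32 : ℝ) ^ ℓ))
      nlinarith
    have hom1 : (1 / 48 : ℝ) ^ j * sig ℓ (i + 1) = om ℓ j := by
      rw [hs1']
      unfold om
      have e : (1 / 48 : ℝ) ^ j * (32 ^ j / 32 ^ ℓ) = (2 / 3) ^ j / 32 ^ ℓ := by
        rw [← mul_div_assoc, ← mul_pow]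
        norm_num
      rw [mul_add, e]
      ring
    have hom2 : (1 / 48 : ℝ) ^ j' * sig ℓ (k + 1) = om ℓ j' := by
      rw [hs2']
      unfold om
      have e : (1 / 48 : ℝ) ^ j' * (32 ^ j' / 32 ^ ℓ) = (2 / 3) ^ j' / 32 ^ ℓ := by
        rw [← mul_div_assoc, ← mul_pow]
        norm_num
      rw [mul_add, e]
      ring
    have hle : ∀ x, 2 ≤ x → om ℓ x ≤ omh ℓ x := by
      intro x hx
      unfold om omh
      have h8 : 2 * (1 / 48 : ℝ) ^ x ≤ 1 / 288 * (1 / 2) ^ x := by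
        have e : (1 / 48 : ℝ) ^ x = (1 / 24) ^ x * (1 / 2) ^ x := by
          rw [← mul_pow]
          norm_num
        have h24 : (1 / 24 : ℝ) ^ x ≤ (1 / 24) ^ 2 :=
          pow_le_pow_of_le_one (by norm_num) (by norm_num) hx
        have hp : (0 : ℝ) ≤ (1 / 2) ^ x := by positivity
        rw [e]
        nlinarith
      linarith
    have hsplit : om ℓ j * om ℓ j' ≤ omh ℓ j * om ℓ j' + om ℓ j * omh ℓ j' := by
      rcases (show 2 ≤ j ∨ 2 ≤ j' by omega) with h | h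
      · have a1 := mul_le_mul_of_nonneg_right (hle j h) (om_nonneg ℓ j')
        have a2 := mul_nonneg (om_nonneg ℓ j) (omh_nonneg ℓ j')
        linarith
      · have a1 := mul_le_mul_of_nonneg_left (hle j' h) (om_nonneg ℓ j)
        have a2 := mul_nonneg (omh_nonneg ℓ j) (om_nonneg ℓ j')
        linarith
    have hσσ0 : 0 ≤ sig ℓ (i + 1) * sig ℓ (k + 1) := mul_nonneg hσ1 hσ2
    have hc1 := mul_le_mul_of_nonneg_right hρ hσσ0
    have hc2' := mul_le_mul_of_nonneg_left hfarσ hc2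
    have hc3 : (d : ℝ) * (1 / 48) ^ (j + j') * (sig ℓ (i + 1) * sig ℓ (k + 1))
        = d * (om ℓ j * om ℓ j') := by
      rw [← hom1, ← hom2, pow_add]
      ring
    have hc4 := mul_le_mul_of_nonneg_left hsplit hd0
    rw [add_mul] at hc1
    linarith

theorem sum_lin (T : ℕ) (a1 a2 a3 a4 a5 a6 : ℝ) (f1 f3 f4 f5 f6 : ℕ → ℝ) :
    ∑ k ∈ Finset.range T, (a1 * f1 k + a2 + a3 * f3 k + a4 * f4 k + a5 * f5 k + a6 * f6 k)
      = a1 * ∑ k ∈ Finset.range T, f1 k + T * a2 + a3 * ∑ k ∈ Finset.range T, f3 k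
        + a4 * ∑ k ∈ Finset.range T, f4 k + a5 * ∑ k ∈ Finset.range T, f5 k
        + a6 * ∑ k ∈ Finset.range T, f6 k := by
  simp only [Finset.sum_add_distrib, ← Finset.mul_sum, Finset.sum_const, Finset.card_range,
    nsmul_eq_mul]

/-- The collision sum is at most `d / 5`. -/
theorem num_S (H : NumHyp d n ℓ b q) {r₀ : ℕ} (hr : r₀ = ℓ / b + 4) :
    Snum d n q ℓ r₀ ≤ d / 5 := by
  have hq := H.qpos
  have hn0 := H.npos
  have hd0 : (0 : ℝ) ≤ d := Nat.cast_nonneg d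
  have hb := H.hb
  have hl := H.hl
  have hl3 : 3 ≤ ℓ := by omega
  obtain ⟨Qi, hQi⟩ : ∃ Qi : ℝ, Qi = (q ^ (4 * ℓ))⁻¹ := ⟨_, rfl⟩
  obtain ⟨c₂, hc₂⟩ : ∃ c₂ : ℝ, c₂ = (d : ℝ) / n * Qi := ⟨_, rfl⟩
  obtain ⟨N, hN⟩ : ∃ N : ℝ, N = 32 ^ ℓ := ⟨_, rfl⟩
  obtain ⟨c₀, hc₀⟩ : ∃ c₀ : ℝ, c₀ = (1 / 16) ^ (r₀ + 1) := ⟨_, rfl⟩
  obtain ⟨L, hL⟩ : ∃ L : ℝ, L = ((2 * ℓ : ℕ) : ℝ) := ⟨_, rfl⟩
  have hq4 : 0 < q ^ (4 * ℓ) := pow_pos hq _
  have hQi0 : 0 < Qi := by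
    rw [hQi]
    positivity
  have hc₂0 : 0 ≤ c₂ := by
    rw [hc₂]
    positivity
  have hN0 : 0 < N := by
    rw [hN]
    positivity
  have hc₀0 : 0 ≤ c₀ := by
    rw [hc₀]
    positivity
  have hL0 : 0 ≤ L := by
    rw [hL]
    positivity
  have hSA := sum_A4 (2 * ℓ)
  have hSu := sum_uu (2 * ℓ)
  have hSw := sum_ww (2 * ℓ)
  have hSo := sum_om hl3 (2 * ℓ)
  have hSh := sum_omh hl3 (2 * ℓ)
  have hinner : ∀ i ∈ Finset.range (2 * ℓ),
      (∑ k ∈ Finset.range (2 * ℓ), if r₀ < i + k + 2 then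
          rho d n q ((2 * ℓ - (i + 1)) + (2 * ℓ - (k + 1))) * (sig ℓ (i + 1) * sig ℓ (k + 1))
        else 0)
      ≤ 108 * A4 (2 * ℓ - (i + 1)) + (L * (4 * c₂) + 2 * N * c₂) + (L * (2 * N * c₂)) * uu i
        + (c₂ * N ^ 2 * c₀) * ww i + (5 * d) * omh ℓ (2 * ℓ - (i + 1))
        + (d / 100) * om ℓ (2 * ℓ - (i + 1)) := by
    intro i hi
    rw [Finset.mem_range] at hi
    have h1 : ∀ k ∈ Finset.range (2 * ℓ),
        (if r₀ < i + k + 2 then
          rho d n q ((2 * ℓ - (i + 1)) + (2 * ℓ - (k + 1))) * (sig ℓ (i + 1) * sig ℓ (k + 1))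
        else 0)
        ≤ (27 * A4 (2 * ℓ - (i + 1))) * A4 (2 * ℓ - (k + 1)) + c₂ * (4 + 2 * N * uu i)
          + (c₂ * (2 * N)) * uu k + (c₂ * N ^ 2 * c₀ * ww i) * ww k
          + (d * omh ℓ (2 * ℓ - (i + 1))) * om ℓ (2 * ℓ - (k + 1))
          + (d * om ℓ (2 * ℓ - (i + 1))) * omh ℓ (2 * ℓ - (k + 1)) := by
      intro k hk
      rw [Finset.mem_range] at hk
      have h := term_le H r₀ hi hk
      rw [← hQi, ← hc₂, ← hN, ← hc₀] at h
      linarith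
    have h2 := Finset.sum_le_sum h1
    rw [sum_lin, sum_refl A4, sum_refl (om ℓ), sum_refl (omh ℓ), ← hL] at h2
    have hAi := A4_nonneg (2 * ℓ - (i + 1))
    have hui := uu_nonneg i
    have hwi := ww_nonneg i
    have hoi := om_nonneg ℓ (2 * ℓ - (i + 1))
    have hhi := omh_nonneg ℓ (2 * ℓ - (i + 1))
    have e1 := mul_le_mul_of_nonneg_left hSA (mul_nonneg (by norm_num : (0 : ℝ) ≤ 27) hAi)
    have e3 := mul_le_mul_of_nonneg_left hSu
      (mul_nonneg hc₂0 (mul_nonneg (by norm_num : (0 : ℝ) ≤ 2) hN0.le))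
    have e4 := mul_le_mul_of_nonneg_left hSw
      (mul_nonneg (mul_nonneg (mul_nonneg hc₂0 (sq_nonneg N)) hc₀0) hwi)
    have e5 := mul_le_mul_of_nonneg_left hSo (mul_nonneg hd0 hhi)
    have e6 := mul_le_mul_of_nonneg_left hSh (mul_nonneg hd0 hoi)
    linarith
  have houter := Finset.sum_le_sum hinner
  rw [sum_lin, sum_refl A4, sum_refl (om ℓ), sum_refl (omh ℓ), ← hL] at houter
  have f1 := mul_le_mul_of_nonneg_left hSu
    (mul_nonneg hL0 (mul_nonneg (mul_nonneg (by norm_num : (0 : ℝ) ≤ 2) hN0.le) hc₂0))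
  have f2 := mul_le_mul_of_nonneg_left hSw (mul_nonneg (mul_nonneg hc₂0 (sq_nonneg N)) hc₀0)
  have f3 := mul_le_mul_of_nonneg_left hSh (mul_nonneg (by norm_num : (0 : ℝ) ≤ 5) hd0)
  have f4 := mul_le_mul_of_nonneg_left hSo (div_nonneg hd0 (by norm_num : (0 : ℝ) ≤ 100))
  -- the numerical estimates
  obtain ⟨P, hP⟩ : ∃ P : ℝ, P = 2 ^ ℓ := ⟨_, rfl⟩
  have hP512 : (512 : ℝ) ≤ P := by
    rw [hP]
    calc (512 : ℝ) = 2 ^ 9 := by norm_num
      _ ≤ 2 ^ ℓ := pow_le_pow_right₀ (by norm_num) (by omega)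
  have hP0 : (0 : ℝ) < P := by linarith
  have hNP : N = P ^ 5 := by
    rw [hN, hP, ← pow_mul, mul_comm ℓ 5, pow_mul]
    norm_num
  have hn2 : P ^ 10 ≤ 1024 * n := by
    have h1 : (1024 : ℝ) ^ ℓ ≤ 1024 * n := by exact_mod_cast H.hn2
    have e : (1024 : ℝ) ^ ℓ = P ^ 10 := by
      rw [hP, ← pow_mul, mul_comm ℓ 10, pow_mul]
      norm_num
    rw [← e]
    exact h1
  have hLP : L ≤ 2 * P := by
    have h1 : (ℓ : ℝ) ≤ 2 ^ ℓ := by
      have := (Nat.lt_two_pow_self (n := ℓ)).le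
      exact_mod_cast this
    rw [hL, hP]
    push_cast
    linarith
  have hQiP : Qi ≤ 2 * P := by
    have h1 := H.qpow_lin (c := 4) (by norm_num)
    have h2 : (q ^ (4 * ℓ))⁻¹ ≤ ((1 / 2 : ℝ) ^ (ℓ + 1))⁻¹ := inv_anti₀ (by positivity) h1
    have e : ((1 / 2 : ℝ) ^ (ℓ + 1))⁻¹ = 2 * 2 ^ ℓ := by
      rw [one_div, inv_pow, inv_inv, pow_succ]
      ring
    rw [hQi, hP, ← e]
    exact h2
  have hX : Qi * (4 * L ^ 2 + 4 * N * L) ≤ 48 * P ^ 7 := by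
    have h1 : 4 * L ^ 2 + 4 * N * L ≤ 24 * P ^ 6 := by
      rw [hNP]
      have a1 : L ^ 2 ≤ (2 * P) ^ 2 := pow_le_pow_left₀ hL0 hLP 2
      have a2 : P ^ 2 ≤ P ^ 6 := pow_le_pow_right₀ (by linarith) (by norm_num)
      have a3 : P ^ 5 * L ≤ P ^ 5 * (2 * P) := mul_le_mul_of_nonneg_left hLP (by positivity)
      have e1 : (2 * P) ^ 2 = 4 * P ^ 2 := by ring
      have e2 : P ^ 5 * (2 * P) = 2 * P ^ 6 := by ring
      rw [e1] at a1
      rw [e2] at a3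
      linarith
    calc Qi * (4 * L ^ 2 + 4 * N * L) ≤ (2 * P) * (24 * P ^ 6) :=
          mul_le_mul hQiP h1 (by positivity) (by positivity)
      _ = 48 * P ^ 7 := by ring
  have hP3 : (49152000 : ℝ) ≤ P ^ 3 := by
    have h1 : (512 : ℝ) ^ 3 ≤ P ^ 3 := pow_le_pow_left₀ (by norm_num) hP512 3
    norm_num at h1
    linarith
  have hn7 : 48000 * P ^ 7 ≤ n := by
    have h1 : 49152000 * P ^ 7 ≤ P ^ 3 * P ^ 7 :=
      mul_le_mul_of_nonneg_right hP3 (by positivity)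
    have e : P ^ 3 * P ^ 7 = P ^ 10 := by ring
    rw [e] at h1
    linarith
  have hb' : c₂ * (4 * L ^ 2 + 4 * N * L) ≤ d / 1000 := by
    have h1 : Qi * (4 * L ^ 2 + 4 * N * L) ≤ n / 1000 := by linarith
    have h2 := mul_le_mul_of_nonneg_left h1 (show (0 : ℝ) ≤ (d : ℝ) / n by positivity)
    have e1 : (d : ℝ) / n * (Qi * (4 * L ^ 2 + 4 * N * L)) = c₂ * (4 * L ^ 2 + 4 * N * L) := by
      rw [hc₂]
      ring
    have e2 : (d : ℝ) / n * (n / 1000) = d / 1000 := by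
      field_simp
    rw [e1, e2] at h2
    exact h2
  have hQc : Qi * c₀ ≤ 1 / 65536 := by
    have h1 := H.qpow (4 * ℓ)
    have hK : 4 * ℓ / b + 1 ≤ 4 * (ℓ / b) + 4 := by
      have h2 : ℓ < b * (ℓ / b + 1) := Nat.lt_mul_div_succ ℓ (by omega)
      have h3 : 4 * ℓ / b < 4 * (ℓ / b) + 4 := by
        apply Nat.div_lt_of_lt_mul
        have e : b * (4 * (ℓ / b) + 4) = 4 * (b * (ℓ / b + 1)) := by ring
        rw [e]
        omega
      omega
    have h4 : (1 / 2 : ℝ) ^ (4 * (ℓ / b) + 4) ≤ (1 / 2 : ℝ) ^ (4 * ℓ / b + 1) :=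
      pow_le_pow_of_le_one (by norm_num) (by norm_num) hK
    have h5 : (q ^ (4 * ℓ))⁻¹ ≤ ((1 / 2 : ℝ) ^ (4 * (ℓ / b) + 4))⁻¹ :=
      inv_anti₀ (by positivity) (h4.trans h1)
    have e : ((1 / 2 : ℝ) ^ (4 * (ℓ / b) + 4))⁻¹ = 2 ^ (4 * (ℓ / b) + 4) := by
      rw [one_div, inv_pow, inv_inv]
    rw [e, ← hQi] at h5
    have e2 : c₀ = (1 / 2) ^ (4 * (ℓ / b) + 4) * (1 / 65536) := by
      rw [hc₀, hr]
      have e3 : (1 / 16 : ℝ) = (1 / 2) ^ 4 := by norm_num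
      have e4 : 4 * (ℓ / b + 4 + 1) = 4 * (ℓ / b) + 4 + 16 := by ring
      rw [e3, ← pow_mul, e4, pow_add (1 / 2 : ℝ) (4 * (ℓ / b) + 4) 16]
      norm_num
    have h6 := mul_le_mul_of_nonneg_right h5 hc₀0
    have e5 : (2 : ℝ) ^ (4 * (ℓ / b) + 4) * c₀ = 1 / 65536 := by
      rw [e2, ← mul_assoc, mul_comm ((2 : ℝ) ^ (4 * (ℓ / b) + 4)), half_mul_two, one_mul]
    rw [e5] at h6
    exact h6
  have ha' : c₂ * N ^ 2 * c₀ ≤ d / 64 := by
    have h1 : N ^ 2 * (Qi * c₀) ≤ (1024 * n) * (1 / 65536) := by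
      have e : N ^ 2 = P ^ 10 := by
        rw [hNP]
        ring
      rw [e]
      exact mul_le_mul hn2 hQc (mul_nonneg hQi0.le hc₀0) (by positivity)
    have h2 := mul_le_mul_of_nonneg_left h1 (show (0 : ℝ) ≤ (d : ℝ) / n by positivity)
    have e1 : (d : ℝ) / n * (N ^ 2 * (Qi * c₀)) = c₂ * N ^ 2 * c₀ := by
      rw [hc₂]
      ring
    have e2 : (d : ℝ) / n * ((1024 * n) * (1 / 65536)) = d / 64 := by
      field_simp
      ring
    rw [e1, e2] at h2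
    exact h2
  have hd20 : (1048576 : ℝ) ≤ d := by
    have h := H.dge
    have e : (2 : ℝ) ^ 20 = 1048576 := by norm_num
    rw [e] at h
    exact h
  unfold Snum
  have hexp : L * (L * (4 * c₂) + 2 * N * c₂) + L * (2 * N * c₂)
      = c₂ * (4 * L ^ 2 + 4 * N * L) := by ring
  linarith

end Vale.Agent.Lib.P308.H27
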