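import Vale.Agent.Lib.P308.H27.Grow

/-!
Two self-avoiding alternating walks from the two holes of a near-perfect matching: the symmetry
of the walk counts, the effect of enlarging the set of forbidden vertices, balls of the graph,
and the lower bound for the number of disjoint pairs of walks with adjacent end points when the
holes are far apart.
-/

namespace Vale.Agent.Lib.P308.H27

open Finset

variable {V : Type*} [Fintype V] [DecidableEq V] (G : SimpleGraph V) [DecidableRel G.Adj]

omit [DecidableEq V] in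
theorem iter_fsum {ι : Type*} (g : V → V) (m : ℕ) (s : Finset ι) (φ : ι → V → ℝ) :
    (Dop G g)^[m] (fun y => ∑ i ∈ s, φ i y) = fun z => ∑ i ∈ s, (Dop G g)^[m] (φ i) z := by
  classical
  induction s using Finset.induction_on with
  | empty =>
    simp only [Finset.sum_empty]
    exact iter_zero G g m
  | insert i s hi ih =>
    have h1 : (fun y => ∑ j ∈ insert i s, φ j y) = fun y => φ i y + ∑ j ∈ s, φ j y := by
      funext y
      rw [Finset.sum_insert hi]
    rw [h1, iter_add, ih]
    funext z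
    rw [Finset.sum_insert hi]

omit [DecidableEq V] in
/-- The number of walks from `c` to the neighbours of `x` is symmetric in `c` and `x`. -/
theorem free_symm {g : V → V} (hinv : ∀ x, g (g x) = x) :
    ∀ (s : ℕ) (x c : V), (Dop G g)^[s] (tg G x) c = (Dop G g)^[s] (tg G c) x := by
  intro s
  induction s with
  | zero =>
    intro x c
    show tg G x c = tg G c x
    unfold tg
    by_cases h : G.Adj c x
    · rw [if_pos h, if_pos h.symm]
    · rw [if_neg h, if_neg (fun h' => h h'.symm)]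
  | succ s ih =>
    intro x c
    have h1 : (Dop G g)^[s + 1] (tg G x) c
        = ∑ w ∈ G.neighborFinset c, (Dop G g)^[s] (tg G (g w)) x := by
      rw [Function.iterate_succ_apply', Dop_apply]
      exact Finset.sum_congr rfl (fun w _ => ih x (g w))
    have h2 : Dop G g (tg G c) = fun y => ∑ w ∈ G.neighborFinset c, tg G (g w) y := by
      funext y
      rw [Dop_apply]
      have e1 : ∑ w' ∈ G.neighborFinset y, tg G c (g w')
          = ∑ w', (if G.Adj y w' then tg G c (g w') else 0) := by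
        rw [G.neighborFinset_eq_filter (v := y), Finset.sum_filter]
      have e2 : ∑ w ∈ G.neighborFinset c, tg G (g w) y
          = ∑ w, (if G.Adj c w then tg G (g w) y else 0) := by
        rw [G.neighborFinset_eq_filter (v := c), Finset.sum_filter]
      rw [e1, e2, ← sum_comp_inv hinv (fun w => if G.Adj c w then tg G (g w) y else 0)]
      apply Finset.sum_congr rfl
      intro w _
      rw [hinv]
      unfold tg
      by_cases ha : G.Adj y w
      · by_cases hb : G.Adj (g w) c
        · rw [if_pos ha, if_pos hb, if_pos hb.symm, if_pos ha]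
        · rw [if_pos ha, if_neg hb, if_neg (fun h' => hb h'.symm)]
      · by_cases hb : G.Adj (g w) c
        · rw [if_neg ha, if_pos hb.symm, if_neg ha]
        · rw [if_neg ha, if_neg (fun h' => hb h'.symm)]
    rw [h1, Function.iterate_succ_apply, h2]
    exact (congrFun (iter_fsum G g s (G.neighborFinset c) (fun w => tg G (g w))) x).symm

/-- The self-avoiding walks ending next to `x`, as a weighted count. -/
theorem sc_eq_sg (x : V) (g : V → V) :
    ∀ (T : ℕ) (F : Finset V) (z : V),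
      (sc G x g T F z : ℝ) = sg G g (fun _ y => tg G x y) T F z := by
  intro T
  induction T with
  | zero =>
    intro F z
    show (((if G.Adj z x then 1 else 0 : ℕ)) : ℝ) = tg G x z
    unfold tg
    split_ifs <;> simp
  | succ T ih =>
    intro F z
    have h : sc G x g (T + 1) F z
        = ∑ w ∈ (G.neighborFinset z).filter (fun w => w ∉ F),
            sc G x g T (F ∪ {w, g w}) (g w) := rfl
    rw [sg_succ, h, Nat.cast_sum]
    exact Finset.sum_congr rfl (fun w _ => ih _ _)

/-- Walks with `T` matching edges from `z` avoiding `F₀` that pass through the hole `c` and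
then continue freely to a neighbour of `x`. -/
noncomputable def hit (g : V → V) (x : V) (F₀ : Finset V) (z : V) (T : ℕ) (c : V) : ℝ :=
  ∑ k ∈ Finset.range T, sa G g c (k + 1) F₀ z * (Dop G g)^[T - (k + 1)] (tg G x) c

theorem hit_nonneg (g : V → V) (x : V) (F₀ : Finset V) (z : V) (T : ℕ) (c : V) :
    0 ≤ hit G g x F₀ z T c :=
  Finset.sum_nonneg (fun _ _ => mul_nonneg (sa_nonneg G g c _ _ _)
    (iter_nonneg G g _ (tg_nonneg G x) c))

theorem hit_zero_of_mem {g : V → V} (hinv : ∀ x, g (g x) = x) (x : V) {F₀ : Finset V} (z : V)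
    (T : ℕ) {c : V} (hcl : Cl g F₀) (hc : c ∈ F₀) : hit G g x F₀ z T c = 0 := by
  unfold hit
  apply Finset.sum_eq_zero
  intro k _
  rw [sa_zero_of_mem G hinv c k F₀ z hcl hc, zero_mul]

/-- Enlarging the set of forbidden vertices from `F₀` to `F'` loses at most the walks that pass
through a vertex of `F'`. -/
theorem defect_le {g : V → V} (hinv : ∀ x, g (g x) = x) (x : V) :
    ∀ (T : ℕ) (F₀ F' : Finset V) (z : V), F₀ ⊆ F' → Cl g F₀ → Cl g F' →
      sg G g (fun _ y => tg G x y) T F₀ z - sg G g (fun _ y => tg G x y) T F' z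
        ≤ ∑ c ∈ F', hit G g x F₀ z T c := by
  intro T
  induction T with
  | zero =>
    intro F₀ F' z _ _ _
    show tg G x z - tg G x z ≤ _
    rw [sub_self]
    exact Finset.sum_nonneg (fun c _ => hit_nonneg G g x F₀ z 0 c)
  | succ T ih =>
    intro F₀ F' z hsub hcl0 hcl'
    rw [sg_succ, sg_succ]
    -- split the first steps allowed by `F₀`
    have hsplit := Finset.sum_filter_add_sum_filter_not
      ((G.neighborFinset z).filter (fun w => w ∉ F₀)) (fun w => w ∈ F')
      (fun w => sg G g (fun _ y => tg G x y) T (F₀ ∪ {w, g w}) (g w))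
    have hS' : ((G.neighborFinset z).filter (fun w => w ∉ F₀)).filter (fun w => ¬ w ∈ F')
        = (G.neighborFinset z).filter (fun w => w ∉ F') := by
      ext w
      simp only [Finset.mem_filter]
      constructor
      · intro h
        exact ⟨h.1.1, h.2⟩
      · intro h
        exact ⟨⟨h.1, fun hw => h.2 (hsub hw)⟩, h.2⟩
    rw [hS'] at hsplit
    -- the steps allowed by both
    have hboth : ∀ w ∈ (G.neighborFinset z).filter (fun w => w ∉ F'),
        sg G g (fun _ y => tg G x y) T (F₀ ∪ {w, g w}) (g w)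
          - sg G g (fun _ y => tg G x y) T (F' ∪ {w, g w}) (g w)
          ≤ ∑ c ∈ F', hit G g x (F₀ ∪ {w, g w}) (g w) T c := by
      intro w _
      have h1 := ih (F₀ ∪ {w, g w}) (F' ∪ {w, g w}) (g w)
        (Finset.union_subset_union_left hsub) (Cl_union hinv hcl0 w) (Cl_union hinv hcl' w)
      have h2 := sum_union_pair_le (fun c => hit G g x (F₀ ∪ {w, g w}) (g w) T c)
        (fun c => hit_nonneg G g x _ _ T c) F' w (g w)
      have h3 : hit G g x (F₀ ∪ {w, g w}) (g w) T w = 0 :=
        hit_zero_of_mem G hinv x (g w) T (Cl_union hinv hcl0 w)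
          (Finset.mem_union_right _ (Finset.mem_insert_self _ _))
      have h4 : hit G g x (F₀ ∪ {w, g w}) (g w) T (g w) = 0 :=
        hit_zero_of_mem G hinv x (g w) T (Cl_union hinv hcl0 w)
          (Finset.mem_union_right _ (Finset.mem_insert_of_mem (Finset.mem_singleton_self _)))
      linarith
    -- the steps allowed by `F₀` only
    have honly : ∑ w ∈ ((G.neighborFinset z).filter (fun w => w ∉ F₀)).filter (fun w => w ∈ F'),
        sg G g (fun _ y => tg G x y) T (F₀ ∪ {w, g w}) (g w)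
        ≤ ∑ w ∈ ((G.neighborFinset z).filter (fun w => w ∉ F₀)).filter (fun w => w ∈ F'),
            (Dop G g)^[T] (tg G x) (g w) :=
      Finset.sum_le_sum (fun w _ => sg_le_free G g (tg_nonneg G x) T _ (g w))
    -- the right-hand side
    have hR : ∀ c, hit G g x F₀ z (T + 1) c
        = ∑ w ∈ (G.neighborFinset z).filter (fun w => w ∉ F₀),
            hit G g x (F₀ ∪ {w, g w}) (g w) T c
          + (∑ w ∈ (G.neighborFinset z).filter (fun w => w ∉ F₀), dl c (g w))
            * (Dop G g)^[T] (tg G x) c := by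
      intro c
      unfold hit
      rw [Finset.sum_range_succ', Finset.sum_comm]
      have e1 : ∀ k ∈ Finset.range T,
          sa G g c (k + 1 + 1) F₀ z * (Dop G g)^[T + 1 - (k + 1 + 1)] (tg G x) c
            = ∑ w ∈ (G.neighborFinset z).filter (fun w => w ∉ F₀),
                sa G g c (k + 1) (F₀ ∪ {w, g w}) (g w)
                  * (Dop G g)^[T - (k + 1)] (tg G x) c := by
        intro k _
        have e2 : T + 1 - (k + 1 + 1) = T - (k + 1) := by omega
        rw [e2, sa_succ G g c (k + 1) F₀ z, Finset.sum_mul]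
      rw [Finset.sum_congr rfl e1]
      have e3 : T + 1 - (0 + 1) = T := by omega
      rw [e3]
      rfl
    have hR1 : ∑ c ∈ F', (∑ w ∈ (G.neighborFinset z).filter (fun w => w ∉ F₀), dl c (g w))
          * (Dop G g)^[T] (tg G x) c
        = ∑ w ∈ ((G.neighborFinset z).filter (fun w => w ∉ F₀)).filter (fun w => w ∈ F'),
            (Dop G g)^[T] (tg G x) (g w) := by
      have e1 : ∀ c ∈ F', (∑ w ∈ (G.neighborFinset z).filter (fun w => w ∉ F₀), dl c (g w))
          * (Dop G g)^[T] (tg G x) c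
          = ∑ w ∈ (G.neighborFinset z).filter (fun w => w ∉ F₀),
              (if g w = c then (Dop G g)^[T] (tg G x) c else 0) := by
        intro c _
        rw [Finset.sum_mul]
        apply Finset.sum_congr rfl
        intro w _
        unfold dl
        split_ifs <;> simp
      rw [Finset.sum_congr rfl e1, Finset.sum_comm]
      have e2 : ∀ w ∈ (G.neighborFinset z).filter (fun w => w ∉ F₀),
          ∑ c ∈ F', (if g w = c then (Dop G g)^[T] (tg G x) c else 0)
            = if w ∈ F' then (Dop G g)^[T] (tg G x) (g w) else 0 := by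
        intro w _
        rw [Finset.sum_ite_eq]
        by_cases hw : w ∈ F'
        · rw [if_pos hw, if_pos (hcl' w hw)]
        · rw [if_neg hw, if_neg]
          intro hgw
          have := hcl' (g w) hgw
          rw [hinv] at this
          exact hw this
      rw [Finset.sum_congr rfl e2, ← Finset.sum_filter]
    have hR2 : ∑ w ∈ (G.neighborFinset z).filter (fun w => w ∉ F'),
          ∑ c ∈ F', hit G g x (F₀ ∪ {w, g w}) (g w) T c
        ≤ ∑ c ∈ F', ∑ w ∈ (G.neighborFinset z).filter (fun w => w ∉ F₀),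
            hit G g x (F₀ ∪ {w, g w}) (g w) T c := by
      rw [Finset.sum_comm]
      apply Finset.sum_le_sum
      intro c _
      apply Finset.sum_le_sum_of_subset_of_nonneg
      · intro w hw
        rw [Finset.mem_filter] at hw ⊢
        exact ⟨hw.1, fun h => hw.2 (hsub h)⟩
      · intro w _ _
        exact hit_nonneg G g x _ _ T c
    rw [Finset.sum_congr rfl (fun c _ => hR c), Finset.sum_add_distrib, hR1]
    have hb := Finset.sum_le_sum hboth
    rw [Finset.sum_sub_distrib] at hb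
    linarith

omit [DecidableEq V] in
/-- Expander mixing for two non-negative functions that are regular in the Euclidean norm. -/
theorem pair_main {d : ℕ} {lam : ℝ} (hreg : G.IsRegularOfDegree d) (hlam : 0 ≤ lam)
    (hspec : ∀ x : V → ℝ, ∑ v, x v = 0 →
      ∑ v, (∑ w ∈ G.neighborFinset v, x w) ^ 2 ≤ lam ^ 2 * ∑ v, x v ^ 2)
    (a b : V → ℝ) (ha : ∀ x, 0 ≤ a x) (hb : ∀ x, 0 ≤ b x) (hn : 0 < Fintype.card V)
    (ha2 : (Fintype.card V : ℝ) * ∑ x, a x ^ 2 ≤ 3 * (∑ x, a x) ^ 2)
    (hb2 : (Fintype.card V : ℝ) * ∑ x, b x ^ 2 ≤ 3 * (∑ x, b x) ^ 2) :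
    ((d : ℝ) - 2 * lam) * ((∑ x, a x) * ∑ x, b x)
      ≤ (Fintype.card V : ℝ) * ∑ x, a x * ∑ y ∈ G.neighborFinset x, b y := by
  have hnpos : (0 : ℝ) < Fintype.card V := by exact_mod_cast hn
  have hSa : 0 ≤ ∑ x, a x := Finset.sum_nonneg (fun x _ => ha x)
  have hSb : 0 ≤ ∑ x, b x := Finset.sum_nonneg (fun x _ => hb x)
  have hna : (Fintype.card V : ℝ) * ((∑ x, a x) / Fintype.card V) = ∑ x, a x := by
    field_simp
  have hnb : (Fintype.card V : ℝ) * ((∑ x, b x) / Fintype.card V) = ∑ x, b x := by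
    field_simp
  generalize (∑ x, a x) / Fintype.card V = μ at hna
  generalize (∑ x, b x) / Fintype.card V = ν at hnb
  have hf0 : ∑ x, (a x - μ) = 0 := by
    rw [Finset.sum_sub_distrib, Finset.sum_const, Finset.card_univ, nsmul_eq_mul, hna, sub_self]
  have hh0 : ∑ x, (b x - ν) = 0 := by
    rw [Finset.sum_sub_distrib, Finset.sum_const, Finset.card_univ, nsmul_eq_mul, hnb, sub_self]
  have hs := hspec (fun y => b y - ν) hh0
  have hAb : ∀ x, ∑ y ∈ G.neighborFinset x, b y
      = d * ν + ∑ y ∈ G.neighborFinset x, (b y - ν) := by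
    intro x
    rw [Finset.sum_sub_distrib, Finset.sum_const, G.card_neighborFinset_eq_degree,
      hreg.degree_eq x, nsmul_eq_mul]
    ring
  have hsumA : ∑ x, ∑ y ∈ G.neighborFinset x, (b y - ν) = 0 := by
    rw [sum_nbr_sum G hreg, hh0, mul_zero]
  have hexp : ∑ x, a x * ∑ y ∈ G.neighborFinset x, b y
      = (Fintype.card V : ℝ) * (μ * (d * ν))
        + ∑ x, (a x - μ) * ∑ y ∈ G.neighborFinset x, (b y - ν) := by
    have e : ∀ x, a x * ∑ y ∈ G.neighborFinset x, b y
        = μ * (d * ν) + (d * ν) * (a x - μ) + μ * ∑ y ∈ G.neighborFinset x, (b y - ν)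
          + (a x - μ) * ∑ y ∈ G.neighborFinset x, (b y - ν) := by
      intro x
      rw [hAb x]
      ring
    have s1 : ∑ _x : V, μ * (d * ν) = (Fintype.card V : ℝ) * (μ * (d * ν)) := by
      rw [Finset.sum_const, Finset.card_univ, nsmul_eq_mul]
    have s2 : ∑ x, (d * ν) * (a x - μ) = 0 := by
      rw [← Finset.mul_sum, hf0, mul_zero]
    have s3 : ∑ x, μ * ∑ y ∈ G.neighborFinset x, (b y - ν) = 0 := by
      rw [← Finset.mul_sum, hsumA, mul_zero]
    rw [Finset.sum_congr rfl (fun x _ => e x), Finset.sum_add_distrib, Finset.sum_add_distrib,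
      Finset.sum_add_distrib, s1, s2, s3]
    ring
  have hcs := Finset.sum_mul_sq_le_sq_mul_sq Finset.univ (fun x => a x - μ)
    (fun x => ∑ y ∈ G.neighborFinset x, (b y - ν))
  have hfa : (Fintype.card V : ℝ) * ∑ x, (a x - μ) ^ 2 ≤ 2 * (∑ x, a x) ^ 2 := by
    have e : ∑ x, (a x - μ) ^ 2 = ∑ x, a x ^ 2 - (Fintype.card V : ℝ) * μ ^ 2 := by
      have e1 : ∀ x, (a x - μ) ^ 2 = a x ^ 2 - 2 * μ * a x + μ ^ 2 := by
        intro x
        ring
      rw [Finset.sum_congr rfl (fun x _ => e1 x), Finset.sum_add_distrib,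
        Finset.sum_sub_distrib, ← Finset.mul_sum, Finset.sum_const, Finset.card_univ,
        nsmul_eq_mul, ← hna]
      ring
    have e2 : (Fintype.card V : ℝ) * ((Fintype.card V : ℝ) * μ ^ 2) = (∑ x, a x) ^ 2 := by
      rw [← hna]
      ring
    rw [e, mul_sub, e2]
    linarith
  have hfb : (Fintype.card V : ℝ) * ∑ x, (b x - ν) ^ 2 ≤ 2 * (∑ x, b x) ^ 2 := by
    have e : ∑ x, (b x - ν) ^ 2 = ∑ x, b x ^ 2 - (Fintype.card V : ℝ) * ν ^ 2 := by
      have e1 : ∀ x, (b x - ν) ^ 2 = b x ^ 2 - 2 * ν * b x + ν ^ 2 := by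
        intro x
        ring
      rw [Finset.sum_congr rfl (fun x _ => e1 x), Finset.sum_add_distrib,
        Finset.sum_sub_distrib, ← Finset.mul_sum, Finset.sum_const, Finset.card_univ,
        nsmul_eq_mul, ← hnb]
      ring
    have e2 : (Fintype.card V : ℝ) * ((Fintype.card V : ℝ) * ν ^ 2) = (∑ x, b x) ^ 2 := by
      rw [← hnb]
      ring
    rw [e, mul_sub, e2]
    linarith
  have hf2 : 0 ≤ ∑ x, (a x - μ) ^ 2 := Finset.sum_nonneg (fun x _ => sq_nonneg _)
  have hh2 : 0 ≤ ∑ x, (b x - ν) ^ 2 := Finset.sum_nonneg (fun x _ => sq_nonneg _)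
  have hAh0 : 0 ≤ ∑ x, (∑ y ∈ G.neighborFinset x, (b y - ν)) ^ 2 :=
    Finset.sum_nonneg (fun x _ => sq_nonneg _)
  rw [hexp]
  generalize (∑ x, (a x - μ) * ∑ y ∈ G.neighborFinset x, (b y - ν)) = Cc at hcs
  generalize (∑ x, (∑ y ∈ G.neighborFinset x, (b y - ν)) ^ 2) = Ah at hs hcs hAh0
  generalize (∑ x, (a x - μ) ^ 2) = Ff at hcs hfa hf2
  generalize (∑ x, (b x - ν) ^ 2) = Hh at hs hfb hh2
  rw [← hna] at hfa
  rw [← hnb] at hfb
  rw [← hna, ← hnb]
  have hμ : 0 ≤ (Fintype.card V : ℝ) * μ := by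
    rw [hna]
    exact hSa
  have hν : 0 ≤ (Fintype.card V : ℝ) * ν := by
    rw [hnb]
    exact hSb
  generalize (Fintype.card V : ℝ) = n at hnpos hfa hfb hμ hν ⊢
  have hsq : (n * Cc) ^ 2 ≤ (2 * lam * ((n * μ) * (n * ν))) ^ 2 := by
    have h1 : (n * Cc) ^ 2 ≤ (n * Ff) * (n * Ah) := by
      have := mul_le_mul_of_nonneg_left hcs (sq_nonneg n)
      calc (n * Cc) ^ 2 = n ^ 2 * Cc ^ 2 := by ring
        _ ≤ n ^ 2 * (Ff * Ah) := this
        _ = (n * Ff) * (n * Ah) := by ring
    have h2 : n * Ah ≤ lam ^ 2 * (n * Hh) := by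
      have := mul_le_mul_of_nonneg_left hs hnpos.le
      linarith
    have h2' : n * Ah ≤ lam ^ 2 * (2 * (n * ν) ^ 2) :=
      h2.trans (mul_le_mul_of_nonneg_left hfb (sq_nonneg lam))
    have h3 : (n * Ff) * (n * Ah) ≤ (2 * (n * μ) ^ 2) * (lam ^ 2 * (2 * (n * ν) ^ 2)) :=
      mul_le_mul hfa h2' (mul_nonneg hnpos.le hAh0) (by positivity)
    calc (n * Cc) ^ 2 ≤ (n * Ff) * (n * Ah) := h1
      _ ≤ (2 * (n * μ) ^ 2) * (lam ^ 2 * (2 * (n * ν) ^ 2)) := h3
      _ = (2 * lam * ((n * μ) * (n * ν))) ^ 2 := by ring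
  have habs := abs_le_of_sq_le_sq hsq
    (mul_nonneg (mul_nonneg zero_le_two hlam) (mul_nonneg hμ hν))
  have hlow := (abs_le.mp habs).1
  have e : n * (n * (μ * (d * ν)) + Cc) = d * ((n * μ) * (n * ν)) + n * Cc := by ring
  rw [e]
  linarith

omit [DecidableEq V] [DecidableRel G.Adj] in
/-- Cauchy-Schwarz with bounds for the two Euclidean norms. -/
theorem inner_le (a b : V → ℝ) {A B σ τ N : ℝ} (hA : 0 ≤ A) (hB : 0 ≤ B) (hσ : 0 ≤ σ)
    (hτ : 0 ≤ τ) (hN : 0 ≤ N) (ha : N * ∑ x, a x ^ 2 ≤ A ^ 2 * σ ^ 2)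
    (hb : N * ∑ x, b x ^ 2 ≤ B ^ 2 * τ ^ 2) : N * ∑ x, a x * b x ≤ A * B * σ * τ := by
  have hcs := Finset.sum_mul_sq_le_sq_mul_sq Finset.univ a b
  have hb0 : 0 ≤ N * ∑ x, b x ^ 2 :=
    mul_nonneg hN (Finset.sum_nonneg (fun x _ => sq_nonneg _))
  have h1 : (N * ∑ x, a x * b x) ^ 2 ≤ (A * B * σ * τ) ^ 2 := by
    calc (N * ∑ x, a x * b x) ^ 2 = N ^ 2 * (∑ x, a x * b x) ^ 2 := by ring
      _ ≤ N ^ 2 * ((∑ x, a x ^ 2) * ∑ x, b x ^ 2) :=
          mul_le_mul_of_nonneg_left hcs (sq_nonneg N)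
      _ = (N * ∑ x, a x ^ 2) * (N * ∑ x, b x ^ 2) := by ring
      _ ≤ (A ^ 2 * σ ^ 2) * (B ^ 2 * τ ^ 2) := mul_le_mul ha hb hb0 (by positivity)
      _ = (A * B * σ * τ) ^ 2 := by ring
  have h2 := abs_le_of_sq_le_sq h1 (by positivity)
  exact (abs_le.mp h2).2

/-- The ball of radius `r` around `v` in the graph. -/
def ball : ℕ → V → Finset V
  | 0, v => {v}
  | r + 1, v => ball r v ∪ (ball r v).biUnion (fun x => G.neighborFinset x)

theorem ball_subset_succ (r : ℕ) (v : V) : ball G r v ⊆ ball G (r + 1) v :=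
  Finset.subset_union_left

theorem ball_mono (v : V) {r s : ℕ} (h : r ≤ s) : ball G r v ⊆ ball G s v := by
  induction s with
  | zero =>
    have : r = 0 := by omega
    subst this
    exact Finset.Subset.refl _
  | succ s ih =>
    rcases Nat.eq_or_lt_of_le h with h1 | h1
    · subst h1
      exact Finset.Subset.refl _
    · exact (ih (by omega)).trans (ball_subset_succ G s v)

theorem mem_ball_self (r : ℕ) (v : V) : v ∈ ball G r v :=
  ball_mono G v (Nat.zero_le r) (Finset.mem_singleton_self v)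

theorem adj_mem_ball {r : ℕ} {v x y : V} (hx : x ∈ ball G r v) (hadj : G.Adj x y) :
    y ∈ ball G (r + 1) v := by
  apply Finset.mem_union_right
  rw [Finset.mem_biUnion]
  exact ⟨x, hx, by rw [G.mem_neighborFinset]; exact hadj⟩

theorem ball_trans {x y z : V} : ∀ (r s : ℕ), x ∈ ball G r y → y ∈ ball G s z →
    x ∈ ball G (r + s) z := by
  intro r
  induction r generalizing x with
  | zero =>
    intro s hx hy
    have hx' : x ∈ ({y} : Finset V) := hx
    rw [Finset.mem_singleton] at hx'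
    rw [hx', Nat.zero_add]
    exact hy
  | succ r ih =>
    intro s hx hy
    have hx' : x ∈ ball G r y ∪ (ball G r y).biUnion (fun x => G.neighborFinset x) := hx
    rw [Finset.mem_union, Finset.mem_biUnion] at hx'
    rcases hx' with hx' | ⟨x', hx', hadj⟩
    · exact ball_mono G z (by omega) (ih s hx' hy)
    · rw [G.mem_neighborFinset] at hadj
      have h1 := adj_mem_ball G (ih s hx' hy) hadj
      have e : r + 1 + s = r + s + 1 := by omega
      rw [e]
      exact h1

theorem ball_symm {x y : V} : ∀ r : ℕ, x ∈ ball G r y → y ∈ ball G r x := by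
  intro r
  induction r generalizing x with
  | zero =>
    intro hx
    have hx' : x ∈ ({y} : Finset V) := hx
    rw [Finset.mem_singleton] at hx'
    rw [hx']
    exact Finset.mem_singleton_self y
  | succ r ih =>
    intro hx
    have hx' : x ∈ ball G r y ∪ (ball G r y).biUnion (fun x => G.neighborFinset x) := hx
    rw [Finset.mem_union, Finset.mem_biUnion] at hx'
    rcases hx' with hx' | ⟨x', hx', hadj⟩
    · exact ball_subset_succ G r x (ih hx')
    · rw [G.mem_neighborFinset] at hadj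
      have h1 : y ∈ ball G r x' := ih hx'
      have h2 : x' ∈ ball G 1 x := adj_mem_ball G (mem_ball_self G 0 x) hadj.symm
      exact ball_trans G r 1 h1 h2

theorem card_ball_le {d : ℕ} (hdeg : ∀ u, (G.neighborFinset u).card ≤ d) (v : V) :
    ∀ r : ℕ, (ball G r v).card ≤ (d + 1) ^ r := by
  intro r
  induction r with
  | zero =>
    show ({v} : Finset V).card ≤ _
    simp
  | succ r ih =>
    have h1 : (ball G (r + 1) v).card
        ≤ (ball G r v).card + ((ball G r v).biUnion (fun x => G.neighborFinset x)).card :=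
      Finset.card_union_le _ _
    have h2 : ((ball G r v).biUnion (fun x => G.neighborFinset x)).card
        ≤ (ball G r v).card * d :=
      Finset.card_biUnion_le_card_mul _ _ _ (fun u _ => hdeg u)
    calc (ball G (r + 1) v).card
        ≤ (ball G r v).card + (ball G r v).card * d := by omega
      _ = (ball G r v).card * (d + 1) := by ring
      _ ≤ (d + 1) ^ r * (d + 1) := Nat.mul_le_mul_right _ ih
      _ = (d + 1) ^ (r + 1) := by ring

/-- A self-avoiding walk with `T` matching edges ends within distance `2 T` of its start. -/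
theorem sa_mem_ball {g : V → V} {u v : V} (hn : IsNPM G g u v) (c : V) :
    ∀ (T : ℕ) (F : Finset V) (z : V), u ∈ F → v ∈ F → sa G g c T F z ≠ 0 →
      c ∈ ball G (2 * T) z := by
  intro T
  induction T with
  | zero =>
    intro F z _ _ hne
    have h1 : dl c z ≠ 0 := hne
    unfold dl at h1
    have h2 : z = c := by
      by_contra h
      rw [if_neg h] at h1
      exact h1 rfl
    rw [h2]
    exact Finset.mem_singleton_self c
  | succ T ih =>
    intro F z hu hv hne
    rw [sa_succ] at hne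
    obtain ⟨w, hw, hwne⟩ := Finset.exists_ne_zero_of_sum_ne_zero hne
    rw [Finset.mem_filter, G.mem_neighborFinset] at hw
    have h1 := ih (F ∪ {w, g w}) (g w) (Finset.mem_union_left _ hu)
      (Finset.mem_union_left _ hv) hwne
    have hwu : w ≠ u := fun h => hw.2 (h ▸ hu)
    have hwv : w ≠ v := fun h => hw.2 (h ▸ hv)
    have hadj : G.Adj w (g w) := hn.2.2.2.2 w hwu hwv
    have h2 : w ∈ ball G 1 z := adj_mem_ball G (mem_ball_self G 0 z) hw.1
    have h3 : g w ∈ ball G 2 z := adj_mem_ball G h2 hadj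
    have h4 := ball_trans G (2 * T) 2 h1 h3
    have e : 2 * (T + 1) = 2 * T + 2 := by ring
    rw [e]
    exact h4

/-- Walks from two holes that are far apart cannot meet early. -/
theorem far_zero {g : V → V} {u v : V} (hn : IsNPM G g u v) {r₀ i k : ℕ} (hik : i + k ≤ r₀)
    (hfar : u ∉ ball G (2 * r₀ + 1) v) (c : V) :
    sa G g c i {u, v} u * sa G g c k {v, u} v = 0
      ∧ sa G g c i {u, v} u * sa G g (g c) k {v, u} v = 0 := by
  have hu1 : u ∈ ({u, v} : Finset V) := Finset.mem_insert_self _ _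
  have hv1 : v ∈ ({u, v} : Finset V) := Finset.mem_insert_of_mem (Finset.mem_singleton_self _)
  have hu2 : u ∈ ({v, u} : Finset V) := Finset.mem_insert_of_mem (Finset.mem_singleton_self _)
  have hv2 : v ∈ ({v, u} : Finset V) := Finset.mem_insert_self _ _
  have hgc : g c ∈ ball G 1 c := by
    by_cases h1 : c = u
    · rw [h1, hn.2.1]
      exact mem_ball_self G 1 u
    · by_cases h2 : c = v
      · rw [h2, hn.2.2.1]
        exact mem_ball_self G 1 v
      · exact adj_mem_ball G (mem_ball_self G 0 c) (hn.2.2.2.2 c h1 h2)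
  constructor
  · by_contra hne
    have ha : sa G g c i {u, v} u ≠ 0 := fun h => hne (by rw [h, zero_mul])
    have hb : sa G g c k {v, u} v ≠ 0 := fun h => hne (by rw [h, mul_zero])
    have h1 := sa_mem_ball G hn c i {u, v} u hu1 hv1 ha
    have h2 := sa_mem_ball G hn c k {v, u} v hu2 hv2 hb
    have h3 := ball_trans G (2 * i) (2 * k) (ball_symm G _ h1) h2
    exact hfar (ball_mono G v (by omega) h3)
  · by_contra hne
    have ha : sa G g c i {u, v} u ≠ 0 := fun h => hne (by rw [h, zero_mul])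
    have hb : sa G g (g c) k {v, u} v ≠ 0 := fun h => hne (by rw [h, mul_zero])
    have h1 := sa_mem_ball G hn c i {u, v} u hu1 hv1 ha
    have h2 := sa_mem_ball G hn (g c) k {v, u} v hu2 hv2 hb
    have h3 := ball_trans G (2 * i) 1 (ball_symm G _ h1) (ball_symm G _ hgc)
    have h4 := ball_trans G (2 * i + 1) (2 * k) h3 h2
    exact hfar (ball_mono G v (by omega) h4)

/-- The relative Euclidean size allowed for the walks with `i` matching edges, when `n` is at
most `1024 ^ ℓ`. -/
noncomputable def sig (ℓ i : ℕ) : ℝ := 2 + 32 ^ ℓ / 32 ^ i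

/-- The numerical collision sum for two walks with `2 ℓ` matching edges each, whose starting
points are too far apart to meet when the two numbers of steps add up to at most `r₀`. -/
noncomputable def Snum (d n : ℕ) (q : ℝ) (ℓ r₀ : ℕ) : ℝ :=
  ∑ i ∈ Finset.range (2 * ℓ), ∑ k ∈ Finset.range (2 * ℓ),
    if r₀ < i + k + 2 then
      rho d n q ((2 * ℓ - (i + 1)) + (2 * ℓ - (k + 1))) * (sig ℓ (i + 1) * sig ℓ (k + 1))
    else 0

theorem sig_nonneg (ℓ i : ℕ) : 0 ≤ sig ℓ i := by
  unfold sig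
  positivity

variable {G} {d : ℕ} {lam q : ℝ} {Tm : ℕ}

theorem l2_sig {ℓ : ℕ} (H : GHyp G d lam q Tm) {g : V → V} (hinv : ∀ x, g (g x) = x)
    (z z' : V) (hN : (Fintype.card V : ℝ) ≤ 1024 ^ ℓ) {s : ℕ} (hs : s ≤ Tm) :
    (Fintype.card V : ℝ) * ∑ y, sa G g y s {z, z'} z ^ 2
      ≤ tot G g s {z, z'} z ^ 2 * sig ℓ s ^ 2 := by
  have h1 := l2_reg H hinv z z' s hs
  have h2 : 2 + (Fintype.card V : ℝ) / 1024 ^ s ≤ sig ℓ s ^ 2 := by
    unfold sig
    have hx : (0 : ℝ) ≤ 32 ^ ℓ / 32 ^ s := by positivity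
    have e : ((32 : ℝ) ^ ℓ / 32 ^ s) ^ 2 = 1024 ^ ℓ / 1024 ^ s := by
      rw [div_pow, ← pow_mul, ← pow_mul, mul_comm ℓ 2, mul_comm s 2, pow_mul, pow_mul]
      norm_num
    have h3 : (Fintype.card V : ℝ) / 1024 ^ s ≤ 1024 ^ ℓ / 1024 ^ s :=
      div_le_div_of_nonneg_right hN (by positivity)
    nlinarith
  exact h1.trans (mul_le_mul_of_nonneg_left h2 (sq_nonneg _))

theorem l2_three (H : GHyp G d lam q Tm) {g : V → V} (hinv : ∀ x, g (g x) = x)
    (z z' : V) {s : ℕ} (hs : s ≤ Tm) (hN : (Fintype.card V : ℝ) ≤ 1024 ^ s) :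
    (Fintype.card V : ℝ) * ∑ y, sa G g y s {z, z'} z ^ 2 ≤ 3 * tot G g s {z, z'} z ^ 2 := by
  have h1 := l2_reg H hinv z z' s hs
  have h2 : (Fintype.card V : ℝ) / 1024 ^ s ≤ 1 := by
    rw [div_le_one (by positivity)]
    exact hN
  nlinarith [sq_nonneg (tot G g s {z, z'} z)]

theorem iter_hit_le (H : GHyp G d lam q Tm) {g : V → V} (hinv : ∀ x, g (g x) = x)
    (F₀ : Finset V) (z : V) (T j : ℕ) (c' c : V) :
    (Dop G g)^[j] (fun x => hit G g x F₀ z T c') c
      ≤ ∑ k ∈ Finset.range T, sa G g c' (k + 1) F₀ z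
          * (rho d (Fintype.card V) q (j + (T - (k + 1)))
              * (q * d) ^ (j + (T - (k + 1)))) := by
  have e : (fun x => hit G g x F₀ z T c')
      = fun x => ∑ k ∈ Finset.range T,
          sa G g c' (k + 1) F₀ z * (Dop G g)^[T - (k + 1)] (tg G c') x := by
    funext x
    unfold hit
    apply Finset.sum_congr rfl
    intro k _
    rw [free_symm G hinv (T - (k + 1)) x c']
  have e3 := congrFun (iter_fsum G g j (Finset.range T)
    (fun k x => sa G g c' (k + 1) F₀ z * (Dop G g)^[T - (k + 1)] (tg G c') x)) c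
  rw [e, e3]
  apply Finset.sum_le_sum
  intro k _
  have e2 := congrFun (iter_smul G g j (sa G g c' (k + 1) F₀ z)
    ((Dop G g)^[T - (k + 1)] (tg G c'))) c
  rw [e2, ← Function.iterate_add_apply]
  exact mul_le_mul_of_nonneg_left (free_nbr_le H hinv _ c' c) (sa_nonneg G g c' _ _ _)

theorem Bc_hit_le (H : GHyp G d lam q Tm) {g : V → V} (hinv : ∀ x, g (g x) = x)
    (F₀ : Finset V) (z : V) (T j : ℕ) (c : V) :
    Bc G g (fun c x => hit G g x F₀ z T c) j c
      ≤ ∑ k ∈ Finset.range T, (sa G g c (k + 1) F₀ z + sa G g (g c) (k + 1) F₀ z)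
          * (rho d (Fintype.card V) q (j + (T - (k + 1)))
              * (q * d) ^ (j + (T - (k + 1)))) := by
  unfold Bc
  have h1 := iter_hit_le H hinv F₀ z T j c c
  have h2 := iter_hit_le H hinv F₀ z T j (g c) c
  have e : ∑ k ∈ Finset.range T, (sa G g c (k + 1) F₀ z + sa G g (g c) (k + 1) F₀ z)
          * (rho d (Fintype.card V) q (j + (T - (k + 1)))
              * (q * d) ^ (j + (T - (k + 1))))
      = ∑ k ∈ Finset.range T, sa G g c (k + 1) F₀ z
          * (rho d (Fintype.card V) q (j + (T - (k + 1)))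
              * (q * d) ^ (j + (T - (k + 1))))
        + ∑ k ∈ Finset.range T, sa G g (g c) (k + 1) F₀ z
          * (rho d (Fintype.card V) q (j + (T - (k + 1)))
              * (q * d) ^ (j + (T - (k + 1)))) := by
    rw [← Finset.sum_add_distrib]
    apply Finset.sum_congr rfl
    intro k _
    ring
  rw [e]
  linarith

/-- The pairs of walks that share a vertex, bounded through the meeting time of the two
walks. -/
theorem coll_pair_le (H : GHyp G d lam q Tm) {g : V → V} (hinv : ∀ x, g (g x) = x) (u v : V)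
    (hu : g u = u) (hv : g v = v) (T : ℕ) :
    sg G g (fun F' x => ∑ c ∈ F', hit G g x {v, u} v T c) T {u, v} u
      ≤ ∑ i ∈ Finset.range T, ∑ k ∈ Finset.range T,
          (rho d (Fintype.card V) q ((T - (i + 1)) + (T - (k + 1)))
              * (q * d) ^ ((T - (i + 1)) + (T - (k + 1))))
            * (∑ c, sa G g c (i + 1) {u, v} u * sa G g c (k + 1) {v, u} v
                + ∑ c, sa G g c (i + 1) {u, v} u * sa G g (g c) (k + 1) {v, u} v) := by
  have h0 := sg_coll_le G hinv (fun c x => hit G g x {v, u} v T c)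
    (fun c x => hit_nonneg G g x _ _ T c) T {u, v} u
  have hz : ∑ c ∈ ({u, v} : Finset V), (Dop G g)^[T] (fun x => hit G g x {v, u} v T c) u
      = 0 := by
    apply Finset.sum_eq_zero
    intro c hc
    have hc' : c ∈ ({v, u} : Finset V) := by
      rw [Finset.pair_comm]
      exact hc
    have e : (fun x => hit G g x {v, u} v T c) = fun _ => 0 := by
      funext x
      exact hit_zero_of_mem G hinv x v T (Cl_pair hv hu) hc'
    rw [e, iter_zero]
  have hi : ∀ i ∈ Finset.range T,
      ∑ c, sa G g c (i + 1) {u, v} u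
          * Bc G g (fun c x => hit G g x {v, u} v T c) (T - (i + 1)) c
        ≤ ∑ k ∈ Finset.range T,
          (rho d (Fintype.card V) q ((T - (i + 1)) + (T - (k + 1)))
              * (q * d) ^ ((T - (i + 1)) + (T - (k + 1))))
            * (∑ c, sa G g c (i + 1) {u, v} u * sa G g c (k + 1) {v, u} v
                + ∑ c, sa G g c (i + 1) {u, v} u * sa G g (g c) (k + 1) {v, u} v) := by
    intro i _
    have h1 : ∑ c, sa G g c (i + 1) {u, v} u
          * Bc G g (fun c x => hit G g x {v, u} v T c) (T - (i + 1)) c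
        ≤ ∑ c, sa G g c (i + 1) {u, v} u
          * ∑ k ∈ Finset.range T,
              (sa G g c (k + 1) {v, u} v + sa G g (g c) (k + 1) {v, u} v)
                * (rho d (Fintype.card V) q ((T - (i + 1)) + (T - (k + 1)))
                    * (q * d) ^ ((T - (i + 1)) + (T - (k + 1)))) :=
      Finset.sum_le_sum (fun c _ => mul_le_mul_of_nonneg_left
        (Bc_hit_le H hinv {v, u} v T (T - (i + 1)) c) (sa_nonneg G g c _ _ _))
    have h2 : ∑ c, sa G g c (i + 1) {u, v} u
          * ∑ k ∈ Finset.range T,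
              (sa G g c (k + 1) {v, u} v + sa G g (g c) (k + 1) {v, u} v)
                * (rho d (Fintype.card V) q ((T - (i + 1)) + (T - (k + 1)))
                    * (q * d) ^ ((T - (i + 1)) + (T - (k + 1))))
        = ∑ k ∈ Finset.range T,
          (rho d (Fintype.card V) q ((T - (i + 1)) + (T - (k + 1)))
              * (q * d) ^ ((T - (i + 1)) + (T - (k + 1))))
            * (∑ c, sa G g c (i + 1) {u, v} u * sa G g c (k + 1) {v, u} v
                + ∑ c, sa G g c (i + 1) {u, v} u * sa G g (g c) (k + 1) {v, u} v) := by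
      simp_rw [Finset.mul_sum]
      rw [Finset.sum_comm]
      apply Finset.sum_congr rfl
      intro k _
      rw [← Finset.sum_add_distrib, Finset.mul_sum]
      apply Finset.sum_congr rfl
      intro c _
      ring
    linarith
  have hsum := Finset.sum_le_sum hi
  linarith

/-- One meeting time: the Euclidean regularity of both walks, or the distance between the
starting points. -/
theorem pair_term_le {ℓ r₀ : ℕ} (H : GHyp G d lam q (2 * ℓ)) {g : V → V} {u v : V}
    (hn : IsNPM G g u v) (hN : (Fintype.card V : ℝ) ≤ 1024 ^ ℓ)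
    (hfar : u ∉ ball G (2 * r₀ + 1) v) {i k : ℕ} (hi : i < 2 * ℓ) (hk : k < 2 * ℓ) :
    (Fintype.card V : ℝ)
        * ((rho d (Fintype.card V) q ((2 * ℓ - (i + 1)) + (2 * ℓ - (k + 1)))
              * (q * d) ^ ((2 * ℓ - (i + 1)) + (2 * ℓ - (k + 1))))
            * (∑ c, sa G g c (i + 1) {u, v} u * sa G g c (k + 1) {v, u} v
                + ∑ c, sa G g c (i + 1) {u, v} u * sa G g (g c) (k + 1) {v, u} v))
      ≤ 2 * (if r₀ < i + k + 2 then
            rho d (Fintype.card V) q ((2 * ℓ - (i + 1)) + (2 * ℓ - (k + 1)))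
              * (sig ℓ (i + 1) * sig ℓ (k + 1))
          else 0)
          * (tot G g (2 * ℓ) {u, v} u * tot G g (2 * ℓ) {v, u} v) := by
  have hinv := hn.2.2.2.1
  have hq : 0 < q := by linarith [H.q34]
  have hqd : 0 ≤ q * d := mul_nonneg hq.le (Nat.cast_nonneg d)
  have hcard : 0 < Fintype.card V := Fintype.card_pos_iff.mpr ⟨u⟩
  have hnpos : (0 : ℝ) < Fintype.card V := by exact_mod_cast hcard
  by_cases hf : r₀ < i + k + 2
  · rw [if_pos hf]
    have hA := l2_sig H hinv u v hN (s := i + 1) (by omega)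
    have hB := l2_sig H hinv v u hN (s := k + 1) (by omega)
    have hB' : (Fintype.card V : ℝ) * ∑ y, sa G g (g y) (k + 1) {v, u} v ^ 2
        ≤ tot G g (k + 1) {v, u} v ^ 2 * sig ℓ (k + 1) ^ 2 := by
      rw [sum_comp_inv hinv (fun y => sa G g y (k + 1) {v, u} v ^ 2)]
      exact hB
    have hP := inner_le (fun c => sa G g c (i + 1) {u, v} u)
      (fun c => sa G g c (k + 1) {v, u} v) (tot_nonneg G g (i + 1) _ u)
      (tot_nonneg G g (k + 1) _ v) (sig_nonneg ℓ (i + 1)) (sig_nonneg ℓ (k + 1)) hnpos.le hA hB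
    have hP' := inner_le (fun c => sa G g c (i + 1) {u, v} u)
      (fun c => sa G g (g c) (k + 1) {v, u} v) (tot_nonneg G g (i + 1) _ u)
      (tot_nonneg G g (k + 1) _ v) (sig_nonneg ℓ (i + 1)) (sig_nonneg ℓ (k + 1)) hnpos.le hA hB'
    have hAi := tot_pow_le H hinv u v (i := i + 1) (t := 2 * ℓ) (by omega) (le_refl _)
    have hBk := tot_pow_le H hinv v u (i := k + 1) (t := 2 * ℓ) (by omega) (le_refl _)
    have hr := rho_nonneg d (Fintype.card V) hq ((2 * ℓ - (i + 1)) + (2 * ℓ - (k + 1)))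
    have hs1 := sig_nonneg ℓ (i + 1)
    have hs2 := sig_nonneg ℓ (k + 1)
    have hp1 : 0 ≤ (q * d) ^ (2 * ℓ - (i + 1)) := pow_nonneg hqd _
    have hp2 : 0 ≤ (q * d) ^ (2 * ℓ - (k + 1)) := pow_nonneg hqd _
    have hA0 := tot_nonneg G g (i + 1) {u, v} u
    have hB0 := tot_nonneg G g (k + 1) {v, u} v
    rw [pow_add]
    generalize rho d (Fintype.card V) q ((2 * ℓ - (i + 1)) + (2 * ℓ - (k + 1))) = r at hr ⊢
    generalize (q * d) ^ (2 * ℓ - (i + 1)) = p1 at hAi hp1 ⊢
    generalize (q * d) ^ (2 * ℓ - (k + 1)) = p2 at hBk hp2 ⊢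
    generalize tot G g (i + 1) {u, v} u = A' at hP hP' hAi hA0
    generalize tot G g (k + 1) {v, u} v = B' at hP hP' hBk hB0
    generalize tot G g (2 * ℓ) {u, v} u = A at hAi ⊢
    generalize tot G g (2 * ℓ) {v, u} v = B at hBk ⊢
    generalize sig ℓ (i + 1) = s1 at hP hP' hs1 ⊢
    generalize sig ℓ (k + 1) = s2 at hP hP' hs2 ⊢
    generalize (∑ c, sa G g c (i + 1) {u, v} u * sa G g c (k + 1) {v, u} v) = P at hP ⊢
    generalize (∑ c, sa G g c (i + 1) {u, v} u * sa G g (g c) (k + 1) {v, u} v) = P' at hP' ⊢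
    generalize (Fintype.card V : ℝ) = n at hP hP' ⊢
    have h1 : n * (P + P') ≤ 2 * (A' * B' * s1 * s2) := by linarith
    have h2 : (A' * p1) * (B' * p2) ≤ A * B :=
      mul_le_mul hAi hBk (mul_nonneg hB0 hp2) (le_trans (mul_nonneg hA0 hp1) hAi)
    calc n * (r * (p1 * p2) * (P + P')) = r * p1 * p2 * (n * (P + P')) := by ring
      _ ≤ r * p1 * p2 * (2 * (A' * B' * s1 * s2)) :=
          mul_le_mul_of_nonneg_left h1 (mul_nonneg (mul_nonneg hr hp1) hp2)
      _ = 2 * (r * (s1 * s2)) * ((A' * p1) * (B' * p2)) := by ring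
      _ ≤ 2 * (r * (s1 * s2)) * (A * B) :=
          mul_le_mul_of_nonneg_left h2
            (mul_nonneg zero_le_two (mul_nonneg hr (mul_nonneg hs1 hs2)))
  · rw [if_neg hf]
    have hP0 : ∑ c, sa G g c (i + 1) {u, v} u * sa G g c (k + 1) {v, u} v = 0 :=
      Finset.sum_eq_zero (fun c _ => (far_zero G hn (r₀ := r₀) (i := i + 1) (k := k + 1)
        (by omega) hfar c).1)
    have hP0' : ∑ c, sa G g c (i + 1) {u, v} u * sa G g (g c) (k + 1) {v, u} v = 0 :=
      Finset.sum_eq_zero (fun c _ => (far_zero G hn (r₀ := r₀) (i := i + 1) (k := k + 1)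
        (by omega) hfar c).2)
    rw [hP0, hP0']
    simp

/-- Holes far apart: the disjoint pairs of self-avoiding walks with `2 ℓ` matching edges from the
two holes whose end points are adjacent number at least half of what independence would give. -/
theorem far_pair {ℓ r₀ : ℕ} (H : GHyp G d lam q (2 * ℓ)) {g : V → V} {u v : V}
    (hn : IsNPM G g u v) (hN : (Fintype.card V : ℝ) ≤ 1024 ^ ℓ)
    (hfar : u ∉ ball G (2 * r₀ + 1) v) (hS : Snum d (Fintype.card V) q ℓ r₀ ≤ d / 5) :
    (d : ℝ) * (tot G g (2 * ℓ) {u, v} u * tot G g (2 * ℓ) {v, u} v) / (2 * Fintype.card V)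
      ≤ sg G g (fun F' x => (sc G x g (2 * ℓ) F' v : ℝ)) (2 * ℓ) {u, v} u := by
  have hinv := hn.2.2.2.1
  have hgu := hn.2.1
  have hgv := hn.2.2.1
  have hcard : 0 < Fintype.card V := Fintype.card_pos_iff.mpr ⟨u⟩
  have hnpos : (0 : ℝ) < Fintype.card V := by exact_mod_cast hcard
  have hcl : Cl g ({u, v} : Finset V) := Cl_pair hgu hgv
  have hcl' : Cl g ({v, u} : Finset V) := Cl_pair hgv hgu
  have hterm : ∀ (F' : Finset V) (x : V), (({v, u} : Finset V) ⊆ F' ∧ Cl g F') →
      (∑ y ∈ G.neighborFinset x, sa G g y (2 * ℓ) {v, u} v)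
        - ∑ c ∈ F', hit G g x {v, u} v (2 * ℓ) c ≤ (sc G x g (2 * ℓ) F' v : ℝ) := by
    intro F' x hF
    have h1 := defect_le G hinv x (2 * ℓ) {v, u} F' v hF.1 hcl' hF.2
    have h2 := sg_eq_sum_sa G g (fun y => tg G x y) (2 * ℓ) {v, u} v
    rw [sum_mul_tg] at h2
    rw [sc_eq_sg]
    linarith
  have hP : ∀ (F : Finset V) (w : V), (({v, u} : Finset V) ⊆ F ∧ Cl g F) →
      (({v, u} : Finset V) ⊆ F ∪ {w, g w} ∧ Cl g (F ∪ {w, g w})) :=
    fun F w hF => ⟨hF.1.trans Finset.subset_union_left, Cl_union hinv hF.2 w⟩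
  have hA := sg_mono_of G g (fun F => ({v, u} : Finset V) ⊆ F ∧ Cl g F) hP hterm (2 * ℓ)
    {u, v} u ⟨by rw [Finset.pair_comm], hcl⟩
  rw [sg_sub] at hA
  have hQ := sg_eq_sum_sa G g
    (fun x => ∑ y ∈ G.neighborFinset x, sa G g y (2 * ℓ) {v, u} v) (2 * ℓ) {u, v} u
  have hN2 : (Fintype.card V : ℝ) ≤ 1024 ^ (2 * ℓ) :=
    hN.trans (pow_le_pow_right₀ (by norm_num) (by omega))
  have ha2 : (Fintype.card V : ℝ) * ∑ x, sa G g x (2 * ℓ) {u, v} u ^ 2
      ≤ 3 * (∑ x, sa G g x (2 * ℓ) {u, v} u) ^ 2 := by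
    have := l2_three H hinv u v (le_refl _) hN2
    rw [tot_eq_sum] at this
    exact this
  have hb2 : (Fintype.card V : ℝ) * ∑ x, sa G g x (2 * ℓ) {v, u} v ^ 2
      ≤ 3 * (∑ x, sa G g x (2 * ℓ) {v, u} v) ^ 2 := by
    have := l2_three H hinv v u (le_refl _) hN2
    rw [tot_eq_sum] at this
    exact this
  have hmain := pair_main G H.reg H.lam0 H.spec (fun x => sa G g x (2 * ℓ) {u, v} u)
    (fun y => sa G g y (2 * ℓ) {v, u} v) (fun x => sa_nonneg G g x _ _ _)
    (fun y => sa_nonneg G g y _ _ _) hcard ha2 hb2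
  simp only [] at hmain
  rw [← tot_eq_sum, ← tot_eq_sum] at hmain
  have hX := coll_pair_le H hinv u v hgu hgv (2 * ℓ)
  have hX2 : (Fintype.card V : ℝ)
        * sg G g (fun F' x => ∑ c ∈ F', hit G g x {v, u} v (2 * ℓ) c) (2 * ℓ) {u, v} u
      ≤ 2 * Snum d (Fintype.card V) q ℓ r₀
          * (tot G g (2 * ℓ) {u, v} u * tot G g (2 * ℓ) {v, u} v) := by
    have h1 := mul_le_mul_of_nonneg_left hX hnpos.le
    have h2 : (Fintype.card V : ℝ) * ∑ i ∈ Finset.range (2 * ℓ), ∑ k ∈ Finset.range (2 * ℓ),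
          (rho d (Fintype.card V) q ((2 * ℓ - (i + 1)) + (2 * ℓ - (k + 1)))
              * (q * d) ^ ((2 * ℓ - (i + 1)) + (2 * ℓ - (k + 1))))
            * (∑ c, sa G g c (i + 1) {u, v} u * sa G g c (k + 1) {v, u} v
                + ∑ c, sa G g c (i + 1) {u, v} u * sa G g (g c) (k + 1) {v, u} v)
        ≤ ∑ i ∈ Finset.range (2 * ℓ), ∑ k ∈ Finset.range (2 * ℓ),
            2 * (if r₀ < i + k + 2 then
              rho d (Fintype.card V) q ((2 * ℓ - (i + 1)) + (2 * ℓ - (k + 1)))
                * (sig ℓ (i + 1) * sig ℓ (k + 1))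
            else 0)
            * (tot G g (2 * ℓ) {u, v} u * tot G g (2 * ℓ) {v, u} v) := by
      rw [Finset.mul_sum]
      apply Finset.sum_le_sum
      intro i hi
      rw [Finset.mul_sum]
      apply Finset.sum_le_sum
      intro k hk
      rw [Finset.mem_range] at hi hk
      exact pair_term_le H hn hN hfar hi hk
    have h3 : ∑ i ∈ Finset.range (2 * ℓ), ∑ k ∈ Finset.range (2 * ℓ),
            2 * (if r₀ < i + k + 2 then
              rho d (Fintype.card V) q ((2 * ℓ - (i + 1)) + (2 * ℓ - (k + 1)))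
                * (sig ℓ (i + 1) * sig ℓ (k + 1))
            else 0)
            * (tot G g (2 * ℓ) {u, v} u * tot G g (2 * ℓ) {v, u} v)
        = 2 * Snum d (Fintype.card V) q ℓ r₀
          * (tot G g (2 * ℓ) {u, v} u * tot G g (2 * ℓ) {v, u} v) := by
      unfold Snum
      simp only [Finset.mul_sum, Finset.sum_mul]
    linarith
  have hAB : 0 ≤ tot G g (2 * ℓ) {u, v} u * tot G g (2 * ℓ) {v, u} v :=
    mul_nonneg (tot_nonneg G g _ _ u) (tot_nonneg G g _ _ v)
  rw [hQ] at hA
  rw [div_le_iff₀ (by positivity)]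
  generalize tot G g (2 * ℓ) {u, v} u * tot G g (2 * ℓ) {v, u} v = AB at hmain hX2 hAB ⊢
  have hl : 2 * lam * AB ≤ (d : ℝ) / 32 * AB := by
    have := mul_le_mul_of_nonneg_right H.lam64 hAB
    linarith
  have hs : 2 * Snum d (Fintype.card V) q ℓ r₀ * AB ≤ 2 * ((d : ℝ) / 5) * AB :=
    mul_le_mul_of_nonneg_right (by linarith) hAB
  have hnD := mul_le_mul_of_nonneg_left hA hnpos.le
  have hdAB : 0 ≤ (d : ℝ) * AB := mul_nonneg (Nat.cast_nonneg d) hAB
  nlinarith

end Vale.Agent.Lib.P308.H27
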