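import Vale.Agent.Lib.P308.H27.Bound

/-!
Self-avoiding alternating walks of a fixed matching, counted with a weight that may depend on
the final hole and on the set of vertices used: basic algebra, the count by end point, the
last-step bound, and the bound for weights that are sums over the used vertices (collisions).
-/

namespace Vale.Agent.Lib.P308.H27

open Finset

variable {V : Type*} [Fintype V] [DecidableEq V] (G : SimpleGraph V) [DecidableRel G.Adj]

/-- Sum of the weight `φ F' x` over the self-avoiding alternating walks with `T` matching edges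
that start at the hole `z` and avoid `F`; here `x` is the final hole and `F'` is `F` together
with the vertices used by the walk. -/
def sg (g : V → V) (φ : Finset V → V → ℝ) : ℕ → Finset V → V → ℝ
  | 0, F, z => φ F z
  | T + 1, F, z =>
      ∑ w ∈ (G.neighborFinset z).filter (fun w => w ∉ F), sg g φ T (F ∪ {w, g w}) (g w)

theorem sg_succ (g : V → V) (φ : Finset V → V → ℝ) (T : ℕ) (F : Finset V) (z : V) :
    sg G g φ (T + 1) F z
      = ∑ w ∈ (G.neighborFinset z).filter (fun w => w ∉ F),
          sg G g φ T (F ∪ {w, g w}) (g w) := rfl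

theorem sg_nonneg (g : V → V) {φ : Finset V → V → ℝ} (h : ∀ F z, 0 ≤ φ F z) :
    ∀ (T : ℕ) (F : Finset V) (z : V), 0 ≤ sg G g φ T F z := by
  intro T
  induction T with
  | zero =>
    intro F z
    exact h F z
  | succ T ih =>
    intro F z
    rw [sg_succ]
    exact Finset.sum_nonneg (fun w _ => ih _ _)

/-- Monotonicity in the weight, on the sets satisfying an invariant. -/
theorem sg_mono_of (g : V → V) (P : Finset V → Prop)
    (hP : ∀ F w, P F → P (F ∪ {w, g w})) {φ φ' : Finset V → V → ℝ}
    (h : ∀ F z, P F → φ F z ≤ φ' F z) :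
    ∀ (T : ℕ) (F : Finset V) (z : V), P F → sg G g φ T F z ≤ sg G g φ' T F z := by
  intro T
  induction T with
  | zero =>
    intro F z hF
    exact h F z hF
  | succ T ih =>
    intro F z hF
    rw [sg_succ, sg_succ]
    exact Finset.sum_le_sum (fun w _ => ih _ _ (hP F w hF))

theorem sg_mono (g : V → V) {φ φ' : Finset V → V → ℝ} (h : ∀ F z, φ F z ≤ φ' F z)
    (T : ℕ) (F : Finset V) (z : V) : sg G g φ T F z ≤ sg G g φ' T F z :=
  sg_mono_of G g (fun _ => True) (fun _ _ _ => trivial) (fun F z _ => h F z) T F z trivial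

theorem sg_add (g : V → V) (φ φ' : Finset V → V → ℝ) :
    ∀ (T : ℕ) (F : Finset V) (z : V),
      sg G g (fun F z => φ F z + φ' F z) T F z = sg G g φ T F z + sg G g φ' T F z := by
  intro T
  induction T with
  | zero =>
    intro F z
    rfl
  | succ T ih =>
    intro F z
    rw [sg_succ, sg_succ, sg_succ, ← Finset.sum_add_distrib]
    exact Finset.sum_congr rfl (fun w _ => ih _ _)

theorem sg_sub (g : V → V) (φ φ' : Finset V → V → ℝ) :
    ∀ (T : ℕ) (F : Finset V) (z : V),
      sg G g (fun F z => φ F z - φ' F z) T F z = sg G g φ T F z - sg G g φ' T F z := by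
  intro T
  induction T with
  | zero =>
    intro F z
    rfl
  | succ T ih =>
    intro F z
    rw [sg_succ, sg_succ, sg_succ, ← Finset.sum_sub_distrib]
    exact Finset.sum_congr rfl (fun w _ => ih _ _)

theorem sg_smul (g : V → V) (c : ℝ) (φ : Finset V → V → ℝ) :
    ∀ (T : ℕ) (F : Finset V) (z : V),
      sg G g (fun F z => c * φ F z) T F z = c * sg G g φ T F z := by
  intro T
  induction T with
  | zero =>
    intro F z
    rfl
  | succ T ih =>
    intro F z
    rw [sg_succ, sg_succ, Finset.mul_sum]
    exact Finset.sum_congr rfl (fun w _ => ih _ _)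

/-- The last step of the walk can be moved into the weight. -/
theorem sg_shift (g : V → V) (φ : Finset V → V → ℝ) :
    ∀ (T : ℕ) (F : Finset V) (z : V), sg G g φ (T + 1) F z
      = sg G g (fun F' x => ∑ w ∈ (G.neighborFinset x).filter (fun w => w ∉ F'),
          φ (F' ∪ {w, g w}) (g w)) T F z := by
  intro T
  induction T with
  | zero =>
    intro F z
    rfl
  | succ T ih =>
    intro F z
    rw [sg_succ G g φ (T + 1) F z, sg_succ G g _ T F z]
    exact Finset.sum_congr rfl (fun w _ => ih _ _)

/-- The number of self-avoiding alternating walks with `T` matching edges from the hole `z`,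
avoiding `F`, that end at the hole `y`. -/
def sa (g : V → V) (y : V) (T : ℕ) (F : Finset V) (z : V) : ℝ :=
  sg G g (fun _ x => dl y x) T F z

theorem sa_succ (g : V → V) (y : V) (T : ℕ) (F : Finset V) (z : V) :
    sa G g y (T + 1) F z
      = ∑ w ∈ (G.neighborFinset z).filter (fun w => w ∉ F),
          sa G g y T (F ∪ {w, g w}) (g w) := rfl

theorem sa_nonneg (g : V → V) (y : V) (T : ℕ) (F : Finset V) (z : V) : 0 ≤ sa G g y T F z :=
  sg_nonneg G g (fun _ x => dl_nonneg y x) T F z

/-- A weight depending only on the final hole: sum over the end points. -/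
theorem sg_eq_sum_sa (g : V → V) (f : V → ℝ) :
    ∀ (T : ℕ) (F : Finset V) (z : V),
      sg G g (fun _ x => f x) T F z = ∑ y, sa G g y T F z * f y := by
  intro T
  induction T with
  | zero =>
    intro F z
    show f z = ∑ y, dl y z * f y
    unfold dl
    simp
  | succ T ih =>
    intro F z
    rw [sg_succ, Finset.sum_congr rfl (fun w _ => ih _ _), Finset.sum_comm]
    apply Finset.sum_congr rfl
    intro y _
    rw [sa_succ, Finset.sum_mul]

/-- The number of self-avoiding alternating walks with `T` matching edges from `z` avoiding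
`F`. -/
def tot (g : V → V) (T : ℕ) (F : Finset V) (z : V) : ℝ := sg G g (fun _ _ => 1) T F z

theorem tot_eq_sum (g : V → V) (T : ℕ) (F : Finset V) (z : V) :
    tot G g T F z = ∑ y, sa G g y T F z := by
  have h := sg_eq_sum_sa G g (fun _ => (1 : ℝ)) T F z
  simp only [mul_one] at h
  exact h

theorem tot_nonneg (g : V → V) (T : ℕ) (F : Finset V) (z : V) : 0 ≤ tot G g T F z :=
  sg_nonneg G g (fun _ _ => zero_le_one) T F z

theorem tot_zero (g : V → V) (F : Finset V) (z : V) : tot G g 0 F z = 1 := rfl

/-- A set of vertices closed under the matching. -/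
def Cl (g : V → V) (F : Finset V) : Prop := ∀ x ∈ F, g x ∈ F

omit [Fintype V] in
theorem Cl_union {g : V → V} (hinv : ∀ x, g (g x) = x) {F : Finset V} (h : Cl g F) (w : V) :
    Cl g (F ∪ {w, g w}) := by
  intro x hx
  simp only [Finset.mem_union, Finset.mem_insert, Finset.mem_singleton] at hx ⊢
  rcases hx with hx | hx | hx
  · exact Or.inl (h x hx)
  · rw [hx]
    exact Or.inr (Or.inr rfl)
  · rw [hx, hinv]
    exact Or.inr (Or.inl rfl)

omit [Fintype V] in
theorem Cl_pair {g : V → V} {u v : V} (hu : g u = u) (hv : g v = v) :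
    Cl g ({u, v} : Finset V) := by
  intro x hx
  rw [Finset.mem_insert, Finset.mem_singleton] at hx ⊢
  rcases hx with hx | hx
  · left
    rw [hx]
    exact hu
  · right
    rw [hx]
    exact hv

/-- No walk ends at a vertex that it must avoid. -/
theorem sa_zero_of_mem {g : V → V} (hinv : ∀ x, g (g x) = x) (c : V) :
    ∀ (T : ℕ) (F : Finset V) (z : V), Cl g F → c ∈ F → sa G g c (T + 1) F z = 0 := by
  intro T
  induction T with
  | zero =>
    intro F z hcl hc
    rw [sa_succ]
    apply Finset.sum_eq_zero
    intro w hw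
    rw [Finset.mem_filter] at hw
    show dl c (g w) = 0
    unfold dl
    rw [if_neg]
    intro hgw
    apply hw.2
    have h1 := hcl c hc
    rw [← hgw, hinv] at h1
    exact h1
  | succ T ih =>
    intro F z hcl hc
    rw [sa_succ]
    apply Finset.sum_eq_zero
    intro w _
    exact ih _ _ (Cl_union hinv hcl w) (Finset.mem_union_left _ hc)

/-- Self-avoiding walks are walks. -/
theorem sg_le_free (g : V → V) {f : V → ℝ} (hf : ∀ x, 0 ≤ f x) :
    ∀ (T : ℕ) (F : Finset V) (z : V), sg G g (fun _ x => f x) T F z ≤ (Dop G g)^[T] f z := by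
  intro T
  induction T with
  | zero =>
    intro F z
    exact le_refl _
  | succ T ih =>
    intro F z
    rw [sg_succ, Function.iterate_succ_apply', Dop_apply]
    calc ∑ w ∈ (G.neighborFinset z).filter (fun w => w ∉ F),
          sg G g (fun _ x => f x) T (F ∪ {w, g w}) (g w)
        ≤ ∑ w ∈ (G.neighborFinset z).filter (fun w => w ∉ F), (Dop G g)^[T] f (g w) :=
          Finset.sum_le_sum (fun w _ => ih _ _)
      _ ≤ ∑ w ∈ G.neighborFinset z, (Dop G g)^[T] f (g w) :=
          Finset.sum_le_sum_of_subset_of_nonneg (Finset.filter_subset _ _)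
            (fun w _ _ => iter_nonneg G g T hf (g w))

omit [DecidableEq V] in
theorem sum_mul_tg (f : V → ℝ) (c : V) :
    ∑ x, f x * tg G c x = ∑ x ∈ G.neighborFinset c, f x := by
  unfold tg
  have h1 : ∀ x : V, f x * (if G.Adj x c then (1 : ℝ) else 0) = if G.Adj x c then f x else 0 := by
    intro x
    split_ifs <;> simp
  rw [Finset.sum_congr rfl (fun x _ => h1 x), ← Finset.sum_filter]
  apply Finset.sum_congr _ (fun _ _ => rfl)
  ext y
  rw [Finset.mem_filter, G.mem_neighborFinset]
  exact ⟨fun h => h.2.symm, fun h => ⟨Finset.mem_univ _, h.symm⟩⟩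

/-- The walks ending at `y` come from walks ending at a neighbour of the partner of `y`. -/
theorem sa_last_le {g : V → V} (hinv : ∀ x, g (g x) = x) (y : V) (s : ℕ) (F : Finset V)
    (z : V) : sa G g y (s + 1) F z ≤ ∑ x ∈ G.neighborFinset (g y), sa G g x s F z := by
  have h1 : sa G g y (s + 1) F z
      = sg G g (fun F' x => ∑ w ∈ (G.neighborFinset x).filter (fun w => w ∉ F'),
          dl y (g w)) s F z := sg_shift G g (fun _ x => dl y x) s F z
  have h2 : ∀ (F' : Finset V) (x : V),
      ∑ w ∈ (G.neighborFinset x).filter (fun w => w ∉ F'), dl y (g w) ≤ tg G (g y) x := by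
    intro F' x
    have h3 : ∑ w ∈ (G.neighborFinset x).filter (fun w => w ∉ F'), dl y (g w)
        ≤ ∑ w ∈ G.neighborFinset x, dl y (g w) :=
      Finset.sum_le_sum_of_subset_of_nonneg (Finset.filter_subset _ _)
        (fun w _ _ => dl_nonneg y (g w))
    have h4 : ∑ w ∈ G.neighborFinset x, dl y (g w)
        = ∑ w ∈ G.neighborFinset x, (if w = g y then (1 : ℝ) else 0) := by
      apply Finset.sum_congr rfl
      intro w _
      unfold dl
      by_cases hw : g w = y
      · have hw' : w = g y := by rw [← hw, hinv]
        rw [if_pos hw, if_pos hw']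
      · have hw' : w ≠ g y := by
          intro h
          apply hw
          rw [h, hinv]
        rw [if_neg hw, if_neg hw']
    have h5 : ∑ w ∈ G.neighborFinset x, (if w = g y then (1 : ℝ) else 0) = tg G (g y) x := by
      rw [Finset.sum_ite_eq']
      unfold tg
      by_cases hadj : G.Adj x (g y)
      · rw [if_pos hadj, if_pos]
        rw [G.mem_neighborFinset]
        exact hadj
      · rw [if_neg hadj, if_neg]
        rw [G.mem_neighborFinset]
        exact hadj
    linarith
  have h6 := sg_mono G g h2 s F z
  have h7 := sg_eq_sum_sa G g (fun x => tg G (g y) x) s F z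
  rw [sum_mul_tg] at h7
  rw [h1]
  linarith

/-- One more step: all extensions minus the extensions into used vertices. -/
theorem tot_succ {d : ℕ} (hreg : G.IsRegularOfDegree d) (g : V → V) (T : ℕ) (F : Finset V)
    (z : V) : tot G g (T + 1) F z
      = d * tot G g T F z - sg G g (fun F' x => ∑ c ∈ F', tg G c x) T F z := by
  have h1 : tot G g (T + 1) F z
      = sg G g (fun F' x => ∑ w ∈ (G.neighborFinset x).filter (fun w => w ∉ F'),
          (1 : ℝ)) T F z := sg_shift G g (fun _ _ => 1) T F z
  have h2 : (fun (F' : Finset V) (x : V) =>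
      ∑ w ∈ (G.neighborFinset x).filter (fun w => w ∉ F'), (1 : ℝ))
      = fun F' x => (d : ℝ) * 1 - ∑ c ∈ F', tg G c x := by
    funext F' x
    have h3 := Finset.card_filter_add_card_filter_not (s := G.neighborFinset x)
      (fun w => w ∈ F')
    rw [G.card_neighborFinset_eq_degree, hreg.degree_eq x] at h3
    have h4 : (G.neighborFinset x).filter (fun w => w ∈ F')
        = F'.filter (fun c => G.Adj x c) := by
      ext c
      rw [Finset.mem_filter, Finset.mem_filter, G.mem_neighborFinset]
      exact And.comm
    have h5 : ∑ c ∈ F', tg G c x = ((F'.filter (fun c => G.Adj x c)).card : ℝ) := by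
      rw [Finset.card_filter]
      push_cast
      rfl
    rw [h5, ← h4, Finset.sum_const, nsmul_eq_mul, mul_one, mul_one]
    have h6 : (((G.neighborFinset x).filter (fun w => w ∈ F')).card : ℝ)
        + (((G.neighborFinset x).filter (fun w => w ∉ F')).card : ℝ) = d := by
      exact_mod_cast h3
    linarith
  rw [h1, h2, sg_sub, sg_smul]
  rfl

/-- The collision weight of a vertex `c` after `j` further steps from `c`: for the vertex itself
and for its partner. -/
def Bc (g : V → V) (ψ : V → V → ℝ) (j : ℕ) (c : V) : ℝ :=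
  (Dop G g)^[j] (ψ c) c + (Dop G g)^[j] (ψ (g c)) c

omit [DecidableEq V] in
theorem Bc_nonneg (g : V → V) {ψ : V → V → ℝ} (hψ : ∀ c x, 0 ≤ ψ c x) (j : ℕ) (c : V) :
    0 ≤ Bc G g ψ j c :=
  add_nonneg (iter_nonneg G g j (hψ c) c) (iter_nonneg G g j (hψ (g c)) c)

/-- A weight that is a sum over the used vertices: either the vertex was forbidden from the
start, or the walk passed through its matching edge at some time and then continued. -/
theorem sg_coll_le {g : V → V} (hinv : ∀ x, g (g x) = x) (ψ : V → V → ℝ)
    (hψ : ∀ c x, 0 ≤ ψ c x) :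
    ∀ (T : ℕ) (F : Finset V) (z : V),
      sg G g (fun F' x => ∑ c ∈ F', ψ c x) T F z
        ≤ ∑ c ∈ F, (Dop G g)^[T] (ψ c) z
          + ∑ i ∈ Finset.range T, ∑ c, sa G g c (i + 1) F z * Bc G g ψ (T - (i + 1)) c := by
  intro T
  induction T with
  | zero =>
    intro F z
    show ∑ c ∈ F, ψ c z ≤ ∑ c ∈ F, ψ c z + ∑ i ∈ Finset.range 0, _
    rw [Finset.range_zero, Finset.sum_empty, add_zero]
  | succ T ih =>
    intro F z
    rw [sg_succ]
    -- bound for each first step
    have hstep : ∀ w ∈ (G.neighborFinset z).filter (fun w => w ∉ F),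
        sg G g (fun F' x => ∑ c ∈ F', ψ c x) T (F ∪ {w, g w}) (g w)
          ≤ ∑ c ∈ F, (Dop G g)^[T] (ψ c) (g w) + Bc G g ψ T (g w)
            + ∑ i ∈ Finset.range T, ∑ c,
                sa G g c (i + 1) (F ∪ {w, g w}) (g w) * Bc G g ψ (T - (i + 1)) c := by
      intro w _
      have h1 := ih (F ∪ {w, g w}) (g w)
      have h2 := sum_union_pair_le (fun c => (Dop G g)^[T] (ψ c) (g w))
        (fun c => iter_nonneg G g T (hψ c) (g w)) F w (g w)
      have h3 : Bc G g ψ T (g w)
          = (Dop G g)^[T] (ψ (g w)) (g w) + (Dop G g)^[T] (ψ w) (g w) := by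
        unfold Bc
        rw [hinv]
      linarith
    have hA : ∑ w ∈ (G.neighborFinset z).filter (fun w => w ∉ F),
        ∑ c ∈ F, (Dop G g)^[T] (ψ c) (g w) ≤ ∑ c ∈ F, (Dop G g)^[T + 1] (ψ c) z := by
      rw [Finset.sum_comm]
      apply Finset.sum_le_sum
      intro c _
      rw [Function.iterate_succ_apply', Dop_apply]
      exact Finset.sum_le_sum_of_subset_of_nonneg (Finset.filter_subset _ _)
        (fun w _ _ => iter_nonneg G g T (hψ c) (g w))
    have hB : ∑ w ∈ (G.neighborFinset z).filter (fun w => w ∉ F), Bc G g ψ T (g w)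
        = ∑ c, sa G g c (0 + 1) F z * Bc G g ψ (T + 1 - (0 + 1)) c := by
      have e1 : ∀ c, sa G g c (0 + 1) F z * Bc G g ψ (T + 1 - (0 + 1)) c
          = ∑ w ∈ (G.neighborFinset z).filter (fun w => w ∉ F),
              (if g w = c then Bc G g ψ T c else 0) := by
        intro c
        rw [sa_succ, Finset.sum_mul]
        apply Finset.sum_congr rfl
        intro w _
        show dl c (g w) * Bc G g ψ (T + 1 - (0 + 1)) c = _
        unfold dl
        have e2 : T + 1 - (0 + 1) = T := by omega
        rw [e2]
        split_ifs <;> simp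
      rw [Finset.sum_congr rfl (fun c _ => e1 c), Finset.sum_comm]
      apply Finset.sum_congr rfl
      intro w _
      rw [Finset.sum_ite_eq]
      simp
    have hC : ∑ w ∈ (G.neighborFinset z).filter (fun w => w ∉ F),
        ∑ i ∈ Finset.range T, ∑ c,
          sa G g c (i + 1) (F ∪ {w, g w}) (g w) * Bc G g ψ (T - (i + 1)) c
        = ∑ i ∈ Finset.range T, ∑ c,
            sa G g c (i + 1 + 1) F z * Bc G g ψ (T + 1 - (i + 1 + 1)) c := by
      rw [Finset.sum_comm]
      apply Finset.sum_congr rfl
      intro i _
      rw [Finset.sum_comm]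
      apply Finset.sum_congr rfl
      intro c _
      have e2 : T + 1 - (i + 1 + 1) = T - (i + 1) := by omega
      rw [e2, sa_succ G g c (i + 1) F z, Finset.sum_mul]
    have hsum := Finset.sum_le_sum hstep
    rw [Finset.sum_add_distrib, Finset.sum_add_distrib, hB, hC] at hsum
    rw [Finset.sum_range_succ']
    linarith

end Vale.Agent.Lib.P308.H27
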