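import Vale.Agent.Lib.P308.H27.Tree

/-!
Regular graphs with a spectral gap: small sets expand (a Tanner-type bound) and there is no
large bipartite hole (expander mixing).  Both are derived from the inequality
`‖A x‖ ≤ lam ‖x‖` for vectors `x` with zero sum, `A` being the adjacency operator.
-/

namespace Vale.Agent.Lib.P308.H27

open Finset

variable {V : Type*} [Fintype V] [DecidableEq V] (G : SimpleGraph V) [DecidableRel G.Adj]

/-- The number of neighbours of `v` inside `S`, as a real number. -/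
def nbrIn (S : Finset V) (v : V) : ℝ :=
  ∑ w ∈ G.neighborFinset v, (if w ∈ S then (1 : ℝ) else 0)

omit [DecidableEq V] in
theorem sum_nbr_sum {d : ℕ} (hreg : G.IsRegularOfDegree d) (x : V → ℝ) :
    ∑ v, ∑ w ∈ G.neighborFinset v, x w = d * ∑ w, x w := by
  have h1 : ∀ v, ∑ w ∈ G.neighborFinset v, x w = ∑ w, if G.Adj v w then x w else 0 := by
    intro v
    rw [G.neighborFinset_eq_filter (v := v), Finset.sum_filter]
  simp_rw [h1]
  rw [Finset.sum_comm, Finset.mul_sum]
  apply Finset.sum_congr rfl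
  intro w _
  have h2 : ∑ v, (if G.Adj v w then x w else 0) = ∑ v ∈ G.neighborFinset w, x w := by
    rw [G.neighborFinset_eq_filter (v := w), Finset.sum_filter]
    apply Finset.sum_congr rfl
    intro v _
    by_cases hvw : G.Adj v w
    · rw [if_pos hvw, if_pos hvw.symm]
    · rw [if_neg hvw, if_neg (fun h => hvw h.symm)]
  rw [h2, Finset.sum_const, G.card_neighborFinset_eq_degree, hreg.degree_eq w, nsmul_eq_mul]

omit [Fintype V] [DecidableRel G.Adj] in
theorem sum_ind (S : Finset V) [Fintype V] :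
    ∑ w : V, (if w ∈ S then (1 : ℝ) else 0) = S.card := by
  simp

theorem sum_nbrIn {d : ℕ} (hreg : G.IsRegularOfDegree d) (S : Finset V) :
    ∑ v, nbrIn G S v = d * S.card := by
  unfold nbrIn
  rw [sum_nbr_sum G hreg, sum_ind]

/-- The spectral inequality applied to the centred indicator of `S`. -/
theorem spectral_dev {d : ℕ} (hreg : G.IsRegularOfDegree d) {lam : ℝ}
    (hspec : ∀ x : V → ℝ, ∑ v, x v = 0 →
      ∑ v, (∑ w ∈ G.neighborFinset v, x w) ^ 2 ≤ lam ^ 2 * ∑ v, x v ^ 2)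
    (S : Finset V) (hn : 0 < Fintype.card V) :
    ∑ v, (nbrIn G S v - d * ((S.card : ℝ) / Fintype.card V)) ^ 2 ≤ lam ^ 2 * S.card := by
  have hn' : (Fintype.card V : ℝ) ≠ 0 := by
    have : (0 : ℝ) < Fintype.card V := by exact_mod_cast hn
    exact this.ne'
  have hnμ : (Fintype.card V : ℝ) * ((S.card : ℝ) / Fintype.card V) = S.card := by
    field_simp
  have hμ0 : (0 : ℝ) ≤ (S.card : ℝ) / Fintype.card V := by positivity
  generalize (S.card : ℝ) / Fintype.card V = μ at hnμ hμ0 ⊢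
  have hx0 : ∑ w : V, ((if w ∈ S then (1 : ℝ) else 0) - μ) = 0 := by
    rw [Finset.sum_sub_distrib, sum_ind, Finset.sum_const, Finset.card_univ, nsmul_eq_mul, hnμ,
      sub_self]
  have h1 := hspec (fun w => (if w ∈ S then (1 : ℝ) else 0) - μ) hx0
  have hAx : ∀ v, ∑ w ∈ G.neighborFinset v, ((if w ∈ S then (1 : ℝ) else 0) - μ)
      = nbrIn G S v - d * μ := by
    intro v
    rw [Finset.sum_sub_distrib, Finset.sum_const, G.card_neighborFinset_eq_degree,
      hreg.degree_eq v, nsmul_eq_mul]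
    rfl
  have hx2 : ∑ w : V, ((if w ∈ S then (1 : ℝ) else 0) - μ) ^ 2 ≤ S.card := by
    have h2 : ∀ w : V, ((if w ∈ S then (1 : ℝ) else 0) - μ) ^ 2
        = (if w ∈ S then (1 : ℝ) else 0) - 2 * μ * (if w ∈ S then (1 : ℝ) else 0) + μ ^ 2 := by
      intro w
      by_cases hw : w ∈ S
      · simp only [if_pos hw]
        ring
      · simp only [if_neg hw]
        ring
    rw [Finset.sum_congr rfl (fun w _ => h2 w), Finset.sum_add_distrib, Finset.sum_sub_distrib,
      ← Finset.mul_sum, sum_ind, Finset.sum_const, Finset.card_univ, nsmul_eq_mul]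
    have h3 : (Fintype.card V : ℝ) * μ ^ 2 = μ * S.card := by
      rw [pow_two, ← mul_assoc, hnμ]
      ring
    have h4 : (0 : ℝ) ≤ μ * S.card := mul_nonneg hμ0 (Nat.cast_nonneg _)
    linarith
  have h5 : ∑ v, (nbrIn G S v - d * μ) ^ 2
      ≤ lam ^ 2 * ∑ w : V, ((if w ∈ S then (1 : ℝ) else 0) - μ) ^ 2 := by
    have h6 : ∑ v, (nbrIn G S v - d * μ) ^ 2
        = ∑ v, (∑ w ∈ G.neighborFinset v, ((if w ∈ S then (1 : ℝ) else 0) - μ)) ^ 2 :=
      Finset.sum_congr rfl (fun v _ => by rw [hAx v])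
    rw [h6]
    exact h1
  exact h5.trans (mul_le_mul_of_nonneg_left hx2 (sq_nonneg lam))

/-- Expander mixing, in the form needed: two sets of `σ` vertices with `lam n < σ d` are joined
by an edge. -/
theorem no_hole {d : ℕ} (hreg : G.IsRegularOfDegree d) {lam : ℝ} (hlam : 0 ≤ lam)
    (hspec : ∀ x : V → ℝ, ∑ v, x v = 0 →
      ∑ v, (∑ w ∈ G.neighborFinset v, x w) ^ 2 ≤ lam ^ 2 * ∑ v, x v ^ 2)
    (σ : ℕ) (hσ : lam * Fintype.card V < σ * d) (S T : Finset V) (hS : S.card = σ)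
    (hT : T.card = σ) : ∃ a ∈ S, ∃ b ∈ T, G.Adj a b := by
  by_contra hcon0
  have hcon : ∀ a ∈ S, ∀ b ∈ T, ¬ G.Adj a b := fun a ha b hb hab => hcon0 ⟨a, ha, b, hb, hab⟩
  have hσ0 : 0 < σ := by
    rcases Nat.eq_zero_or_pos σ with h | h
    · exfalso
      rw [h] at hσ
      have h1 : 0 ≤ lam * (Fintype.card V : ℝ) := mul_nonneg hlam (Nat.cast_nonneg _)
      simp only [Nat.cast_zero, zero_mul] at hσ
      linarith
    · exact h
  have hSne : S.Nonempty := by
    rw [← Finset.card_pos, hS]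
    exact hσ0
  obtain ⟨a₀, _⟩ := hSne
  have hn : 0 < Fintype.card V := Fintype.card_pos_iff.mpr ⟨a₀⟩
  have hdev := spectral_dev G hreg hspec S hn
  rw [hS] at hdev
  have hnpos : (0 : ℝ) < Fintype.card V := by exact_mod_cast hn
  have hσpos : (0 : ℝ) < σ := by exact_mod_cast hσ0
  have hnc : (Fintype.card V : ℝ) * ((d : ℝ) * ((σ : ℝ) / Fintype.card V)) = d * σ := by
    field_simp
  have hc0 : (0 : ℝ) ≤ (d : ℝ) * ((σ : ℝ) / Fintype.card V) := by positivity
  generalize (d : ℝ) * ((σ : ℝ) / Fintype.card V) = c at hdev hnc hc0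
  have hzero : ∀ v ∈ T, nbrIn G S v = 0 := by
    intro v hv
    apply Finset.sum_eq_zero
    intro w hw
    rw [G.mem_neighborFinset] at hw
    rw [if_neg]
    intro hwS
    exact hcon w hwS v hv hw.symm
  have h1 : ∑ v ∈ T, (nbrIn G S v - c) ^ 2 ≤ ∑ v, (nbrIn G S v - c) ^ 2 :=
    Finset.sum_le_sum_of_subset_of_nonneg (Finset.subset_univ T) (fun _ _ _ => sq_nonneg _)
  have h2 : ∑ v ∈ T, (nbrIn G S v - c) ^ 2 = σ * c ^ 2 := by
    rw [Finset.sum_congr rfl (fun v hv => by rw [hzero v hv]), Finset.sum_const, hT,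
      nsmul_eq_mul]
    ring
  have h3 : (σ : ℝ) * c ^ 2 ≤ σ * lam ^ 2 := by
    rw [← h2, mul_comm (σ : ℝ)]
    exact h1.trans hdev
  have h4 : c ^ 2 ≤ lam ^ 2 := le_of_mul_le_mul_left h3 hσpos
  have h5 : c ≤ lam := by
    by_contra h6'
    have h6 := not_le.mp h6'
    nlinarith
  have h7 : (d : ℝ) * σ ≤ Fintype.card V * lam := by
    rw [← hnc]
    exact mul_le_mul_of_nonneg_left h5 hnpos.le
  linarith

/-- Vertex expansion of small sets, in the form needed. -/
theorem spectral_expand {d : ℕ} (hreg : G.IsRegularOfDegree d) (hd : 0 < d) {lam : ℝ}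
    (hspec : ∀ x : V → ℝ, ∑ v, x v = 0 →
      ∑ v, (∑ w ∈ G.neighborFinset v, x w) ^ 2 ≤ lam ^ 2 * ∑ v, x v ^ 2)
    (β : ℕ) (hsmall : (β : ℝ) * lam * (d + lam) ≤ (d : ℝ) ^ 2) (S : Finset V)
    (hS : (S.card : ℝ) * d ≤ lam * Fintype.card V) :
    ∃ N : Finset V, (∀ y ∈ N, ∃ x ∈ S, G.Adj x y) ∧ β * S.card ≤ N.card := by
  classical
  rcases S.eq_empty_or_nonempty with hS0 | hSne
  · refine ⟨∅, ?_, ?_⟩
    · intro y hy
      exact absurd hy (Finset.notMem_empty y)
    · rw [hS0]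
      simp
  have hs : 0 < S.card := Finset.card_pos.mpr hSne
  obtain ⟨a₀, _⟩ := hSne
  have hn : 0 < Fintype.card V := Fintype.card_pos_iff.mpr ⟨a₀⟩
  have hnpos : (0 : ℝ) < Fintype.card V := by exact_mod_cast hn
  have hdpos : (0 : ℝ) < d := by exact_mod_cast hd
  have hspos : (0 : ℝ) < S.card := by exact_mod_cast hs
  refine ⟨univ.filter (fun y => ∃ x ∈ S, G.Adj x y),
    fun y hy => (Finset.mem_filter.mp hy).2, ?_⟩
  have hmemNS : ∀ y, y ∈ univ.filter (fun y => ∃ x ∈ S, G.Adj x y) ↔ ∃ x ∈ S, G.Adj x y := by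
    intro y
    rw [Finset.mem_filter]
    exact ⟨fun h => h.2, fun h => ⟨Finset.mem_univ _, h⟩⟩
  generalize univ.filter (fun y => ∃ x ∈ S, G.Adj x y) = NS at hmemNS ⊢
  have hdev := spectral_dev G hreg hspec S hn
  have hsum := sum_nbrIn G hreg S
  have hnc : (Fintype.card V : ℝ) * ((d : ℝ) * ((S.card : ℝ) / Fintype.card V)) = d * S.card := by
    field_simp
  have hc0 : (0 : ℝ) ≤ (d : ℝ) * ((S.card : ℝ) / Fintype.card V) := by positivity
  generalize (d : ℝ) * ((S.card : ℝ) / Fintype.card V) = c at hdev hnc hc0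
  have hsq : ∑ v, nbrIn G S v ^ 2 = ∑ v, (nbrIn G S v - c) ^ 2 + Fintype.card V * c ^ 2 := by
    have h1 : ∀ v, nbrIn G S v ^ 2 = (nbrIn G S v - c) ^ 2 + 2 * c * nbrIn G S v - c ^ 2 := by
      intro v
      ring
    rw [Finset.sum_congr rfl (fun v _ => h1 v), Finset.sum_sub_distrib, Finset.sum_add_distrib,
      ← Finset.mul_sum, hsum, Finset.sum_const, Finset.card_univ, nsmul_eq_mul, ← hnc]
    ring
  have hsupp : ∀ v, v ∉ NS → nbrIn G S v = 0 := by
    intro v hv
    apply Finset.sum_eq_zero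
    intro w hw
    rw [if_neg]
    intro hwS
    apply hv
    rw [hmemNS]
    exact ⟨w, hwS, ((G.mem_neighborFinset v w).mp hw).symm⟩
  have hsumNS : ∑ v ∈ NS, nbrIn G S v = d * S.card := by
    rw [← hsum]
    exact Finset.sum_subset (Finset.subset_univ _) (fun v _ hv => hsupp v hv)
  have hCS : (∑ v ∈ NS, nbrIn G S v) ^ 2 ≤ NS.card * ∑ v ∈ NS, nbrIn G S v ^ 2 :=
    sq_sum_le_card_mul_sum_sq
  have hle : ∑ v ∈ NS, nbrIn G S v ^ 2 ≤ ∑ v, nbrIn G S v ^ 2 :=
    Finset.sum_le_sum_of_subset_of_nonneg (Finset.subset_univ _) (fun _ _ _ => sq_nonneg _)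
  have hclam : c ≤ lam := by
    have h1 : (Fintype.card V : ℝ) * c ≤ Fintype.card V * lam := by
      rw [hnc]
      linarith
    exact le_of_mul_le_mul_left h1 hnpos
  have h1 : ((d : ℝ) * S.card) ^ 2 ≤ NS.card * (lam ^ 2 * S.card + lam * (d * S.card)) := by
    calc ((d : ℝ) * S.card) ^ 2 = (∑ v ∈ NS, nbrIn G S v) ^ 2 := by rw [hsumNS]
      _ ≤ NS.card * ∑ v ∈ NS, nbrIn G S v ^ 2 := hCS
      _ ≤ NS.card * ∑ v, nbrIn G S v ^ 2 := mul_le_mul_of_nonneg_left hle (Nat.cast_nonneg _)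
      _ = NS.card * (∑ v, (nbrIn G S v - c) ^ 2 + Fintype.card V * c ^ 2) := by rw [hsq]
      _ ≤ NS.card * (lam ^ 2 * S.card + lam * (d * S.card)) := by
        apply mul_le_mul_of_nonneg_left _ (Nat.cast_nonneg _)
        have h2 : (Fintype.card V : ℝ) * c ^ 2 = c * (d * S.card) := by
          rw [← hnc]
          ring
        rw [h2]
        have h3 : c * ((d : ℝ) * S.card) ≤ lam * (d * S.card) :=
          mul_le_mul_of_nonneg_right hclam (by positivity)
        linarith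
  have h3 : (β : ℝ) * ((d : ℝ) * S.card) ^ 2
      ≤ β * (NS.card * (lam ^ 2 * S.card + lam * (d * S.card))) :=
    mul_le_mul_of_nonneg_left h1 (Nat.cast_nonneg _)
  have h4 : (NS.card : ℝ) * S.card * (β * lam * (d + lam)) ≤ NS.card * S.card * (d : ℝ) ^ 2 :=
    mul_le_mul_of_nonneg_left hsmall (by positivity)
  have h5 : (β : ℝ) * S.card * ((S.card : ℝ) * (d : ℝ) ^ 2)
      ≤ NS.card * ((S.card : ℝ) * (d : ℝ) ^ 2) := by
    calc (β : ℝ) * S.card * ((S.card : ℝ) * (d : ℝ) ^ 2) = β * ((d : ℝ) * S.card) ^ 2 := by ring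
      _ ≤ β * (NS.card * (lam ^ 2 * S.card + lam * (d * S.card))) := h3
      _ = (NS.card : ℝ) * S.card * (β * lam * (d + lam)) := by ring
      _ ≤ NS.card * S.card * (d : ℝ) ^ 2 := h4
      _ = NS.card * ((S.card : ℝ) * (d : ℝ) ^ 2) := by ring
  have h6 : (β : ℝ) * S.card ≤ NS.card := le_of_mul_le_mul_right h5 (by positivity)
  exact_mod_cast h6

omit [DecidableEq V] in
/-- The ratio bound for regular graphs with a spectral gap. -/
theorem spectral_ratio (d γ : ℕ) (lam : ℝ) (hγ : 2 ≤ γ) (hd : 0 < d)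
    (hreg : G.IsRegularOfDegree d) (hlam : 0 ≤ lam)
    (hspec : ∀ x : V → ℝ, ∑ v, x v = 0 →
      ∑ v, ((G.adjMatrix ℝ).mulVec x v) ^ 2 ≤ lam ^ 2 * ∑ v, x v ^ 2)
    (hsmall : (5 * (γ : ℝ) + 4) * lam * (d + lam) ≤ (d : ℝ) ^ 2) :
    {M : G.Subgraph | M.IsMatching ∧ M.verts.ncard + 2 = Fintype.card V}.ncard
      ≤ Fintype.card V * (d + 1) ^ (2 * Nat.log γ (Fintype.card V) + 1)
        * {M : G.Subgraph | M.IsPerfectMatching}.ncard := by
  have hspec' : ∀ x : V → ℝ, ∑ v, x v = 0 →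
      ∑ v, (∑ w ∈ G.neighborFinset v, x w) ^ 2 ≤ lam ^ 2 * ∑ v, x v ^ 2 := by
    intro x hx
    have h1 := hspec x hx
    simp only [SimpleGraph.adjMatrix_mulVec_apply] at h1
    exact h1
  have hdeg : ∀ v : V, (G.neighborSet v).ncard ≤ d := by
    intro v
    have h1 : (G.neighborSet v).ncard = (G.neighborFinset v).card := by
      rw [← Set.ncard_coe_finset, G.coe_neighborFinset]
    rw [h1, G.card_neighborFinset_eq_degree, hreg.degree_eq v]
  have hdpos : (0 : ℝ) < d := by exact_mod_cast hd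
  have hγpos : (0 : ℝ) ≤ γ := Nat.cast_nonneg _
  -- consequences of the smallness assumption
  have hβlam : (5 * (γ : ℝ) + 4) * lam ≤ d := by
    have h1 : (5 * (γ : ℝ) + 4) * lam * d ≤ (d : ℝ) * d := by
      have h2 : 0 ≤ (5 * (γ : ℝ) + 4) * lam * lam :=
        mul_nonneg (mul_nonneg (by positivity) hlam) hlam
      nlinarith
    exact le_of_mul_le_mul_right h1 hdpos
  have hγlam : (γ : ℝ) * lam ≤ d := by
    have h1 : 0 ≤ (4 * (γ : ℝ) + 4) * lam := mul_nonneg (by positivity) hlam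
    linarith
  refine ratio_of_reach G d (2 * Nat.log γ (Fintype.card V) + 1) hdeg ?_
  intro _ g u v hnpm
  have hn : 0 < Fintype.card V := Fintype.card_pos_iff.mpr ⟨u⟩
  have hnpos : (0 : ℝ) < Fintype.card V := by exact_mod_cast hn
  by_cases hm : lam * Fintype.card V < d
  · -- the graph is complete
    have hadj : G.Adj u v := by
      have h1 : lam * Fintype.card V < ((1 : ℕ) : ℝ) * d := by
        rw [Nat.cast_one, one_mul]
        exact hm
      obtain ⟨a, ha, b, hb, hab⟩ := no_hole G hreg hlam hspec' 1 h1 {u} {v}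
        (Finset.card_singleton u) (Finset.card_singleton v)
      rw [Finset.mem_singleton] at ha hb
      rw [ha, hb] at hab
      exact hab
    have h0 : Reach G 0 g u v := hadj
    have h1 := h0.mono (2 * Nat.log γ (Fintype.card V) + 1)
    rwa [Nat.zero_add] at h1
  · have hm' : (d : ℝ) ≤ lam * Fintype.card V := not_lt.mp hm
    have hq0 : 0 ≤ lam * Fintype.card V / d := by positivity
    have hmle : ((⌊lam * Fintype.card V / d⌋₊ : ℕ) : ℝ) ≤ lam * Fintype.card V / d :=
      Nat.floor_le hq0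
    have hmlt : lam * Fintype.card V / d < ((⌊lam * Fintype.card V / d⌋₊ : ℕ) : ℝ) + 1 :=
      Nat.lt_floor_add_one _
    have hm1 : 1 ≤ ⌊lam * Fintype.card V / d⌋₊ := by
      apply Nat.le_floor
      rw [Nat.cast_one, le_div_iff₀ hdpos, one_mul]
      exact hm'
    generalize ⌊lam * Fintype.card V / d⌋₊ = m at hmle hmlt hm1
    have hL1 : γ ^ Nat.log γ m ≤ m := Nat.pow_log_le_self γ (by omega)
    have hL2 : m < γ ^ (Nat.log γ m + 1) := Nat.lt_pow_succ_log_self (by omega) m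
    generalize Nat.log γ m = L at hL1 hL2
    have hmd : (m : ℝ) * d ≤ lam * Fintype.card V := (le_div_iff₀ hdpos).mp hmle
    have hreach : Reach G (2 * L + 3) g u v := by
      refine reach_expander G γ L hγ ?_ ?_ hnpm
      · intro S hS
        have h1 : (S.card : ℝ) ≤ m := by exact_mod_cast hS.trans hL1
        have h2 : (S.card : ℝ) * d ≤ lam * Fintype.card V :=
          (mul_le_mul_of_nonneg_right h1 hdpos.le).trans hmd
        have h3 : (((5 * γ + 4 : ℕ) : ℝ)) * lam * (d + lam) ≤ (d : ℝ) ^ 2 := by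
          push_cast
          exact hsmall
        exact spectral_expand G hreg hd hspec' (5 * γ + 4) h3 S h2
      · intro A B _ hA hB
        have h1 : lam * Fintype.card V < ((γ ^ (L + 1) : ℕ) : ℝ) * d := by
          have h2 : (m : ℝ) + 1 ≤ ((γ ^ (L + 1) : ℕ) : ℝ) := by exact_mod_cast hL2
          have h3 : lam * Fintype.card V < ((m : ℝ) + 1) * d := (div_lt_iff₀ hdpos).mp hmlt
          exact h3.trans_le (mul_le_mul_of_nonneg_right h2 hdpos.le)
        exact no_hole G hreg hlam hspec' (γ ^ (L + 1)) h1 A B hA hB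
    have hLn : L + 1 ≤ Nat.log γ (Fintype.card V) := by
      rw [Nat.le_log_iff_pow_le (by omega) (by omega)]
      have h1 : m * γ ≤ Fintype.card V := by
        have h2 : (m : ℝ) * γ * d ≤ (Fintype.card V : ℝ) * d := by
          calc (m : ℝ) * γ * d = (m : ℝ) * d * γ := by ring
            _ ≤ lam * Fintype.card V * γ := mul_le_mul_of_nonneg_right hmd hγpos
            _ = (Fintype.card V : ℝ) * ((γ : ℝ) * lam) := by ring
            _ ≤ (Fintype.card V : ℝ) * d := mul_le_mul_of_nonneg_left hγlam hnpos.le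
        have h3 : (m : ℝ) * γ ≤ Fintype.card V := le_of_mul_le_mul_right h2 hdpos
        exact_mod_cast h3
      calc γ ^ (L + 1) = γ ^ L * γ := pow_succ γ L
        _ ≤ m * γ := Nat.mul_le_mul_right _ hL1
        _ ≤ Fintype.card V := h1
    have h1 := hreach.mono (2 * Nat.log γ (Fintype.card V) + 1 - (2 * L + 3))
    have hEq : 2 * L + 3 + (2 * Nat.log γ (Fintype.card V) + 1 - (2 * L + 3))
        = 2 * Nat.log γ (Fintype.card V) + 1 := by omega
    rwa [hEq] at h1

omit [DecidableEq V] in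
/-- The same, with regularity stated through the number of neighbours. -/
theorem spectral_ratio' (d γ : ℕ) (lam : ℝ) (hγ : 2 ≤ γ) (hd : 0 < d)
    (hreg : ∀ v : V, (G.neighborSet v).ncard = d) (hlam : 0 ≤ lam)
    (hspec : ∀ x : V → ℝ, ∑ v, x v = 0 →
      ∑ v, ((G.adjMatrix ℝ).mulVec x v) ^ 2 ≤ lam ^ 2 * ∑ v, x v ^ 2)
    (hsmall : (5 * (γ : ℝ) + 4) * lam * (d + lam) ≤ (d : ℝ) ^ 2) :
    {M : G.Subgraph | M.IsMatching ∧ M.verts.ncard + 2 = Fintype.card V}.ncard
      ≤ Fintype.card V * (d + 1) ^ (2 * Nat.log γ (Fintype.card V) + 1)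
        * {M : G.Subgraph | M.IsPerfectMatching}.ncard := by
  have hreg' : G.IsRegularOfDegree d := by
    intro v
    rw [← G.card_neighborFinset_eq_degree, ← hreg v, ← Set.ncard_coe_finset,
      G.coe_neighborFinset]
  exact spectral_ratio G d γ lam hγ hd hreg' hlam hspec hsmall

end Vale.Agent.Lib.P308.H27
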