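import Vale.Agent.Lib.P308.H27.Mix
import Vale.Agent.Lib.P308.H27.Dyn

/-!
Self-avoiding alternating walks of a fixed near-perfect matching: they are rotation sequences,
and their number is bounded below by the number of all alternating walks minus the walks with a
repeated vertex (a first-collision expansion).
-/

namespace Vale.Agent.Lib.P308.H27

open Finset

variable {V : Type*} [Fintype V] [DecidableEq V] (G : SimpleGraph V) [DecidableRel G.Adj]

/-- The number of alternating walks of the fixed matching `g` with `T` matching edges, starting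
at the hole `z`, never using a vertex of `F` or a vertex used before, and ending next to `v`. -/
def sc (v : V) (g : V → V) : ℕ → Finset V → V → ℕ
  | 0, _, z => if G.Adj z v then 1 else 0
  | T + 1, F, z =>
      ∑ w ∈ (G.neighborFinset z).filter (fun w => w ∉ F), sc v g T (F ∪ {w, g w}) (g w)

/-- Self-avoiding alternating walks are rotation sequences. -/
theorem sc_le_cnt (v : V) (g : V → V) (hinv : ∀ x, g (g x) = x) :
    ∀ (T : ℕ) (F : Finset V) (g' : V → V) (z : V), IsNPM G g' z v →
      (∀ x, x ∉ F → g' x = g x) → z ∈ F → v ∈ F → (∀ x ∈ F, g x ∈ F) →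
      sc G v g T F z ≤ cnt G v T g' z := by
  intro T
  induction T with
  | zero =>
    intro F g' z _ _ _ _ _
    exact le_refl _
  | succ T ih =>
    intro F g' z hn hag hz hv hcl
    have h1 : sc G v g (T + 1) F z
        = ∑ w ∈ (G.neighborFinset z).filter (fun w => w ∉ F),
            sc G v g T (F ∪ {w, g w}) (g w) := rfl
    have h2 : cnt G v (T + 1) g' z
        = ∑ w ∈ (G.neighborFinset z).erase v, cnt G v T (rot g' z w) (g' w) := rfl
    rw [h1, h2]
    have hsub : (G.neighborFinset z).filter (fun w => w ∉ F) ⊆ (G.neighborFinset z).erase v := by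
      intro w hw
      rw [Finset.mem_filter] at hw
      rw [Finset.mem_erase]
      refine ⟨?_, hw.1⟩
      intro hwv
      rw [hwv] at hw
      exact hw.2 hv
    refine le_trans (Finset.sum_le_sum ?_) (Finset.sum_le_sum_of_subset hsub)
    intro w hw
    rw [Finset.mem_filter, G.mem_neighborFinset] at hw
    obtain ⟨hadj, hwF⟩ := hw
    have hwv : w ≠ v := by
      intro h
      rw [h] at hwF
      exact hwF hv
    have hgw : g' w = g w := hag w hwF
    have hn' := rot_npm hn hadj hwv
    rw [hgw] at hn' ⊢
    refine ih (F ∪ {w, g w}) (rot g' z w) (g w) hn' ?_ ?_ ?_ ?_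
    · intro x hx
      simp only [Finset.mem_union, Finset.mem_insert, Finset.mem_singleton, not_or] at hx
      have hxz : x ≠ z := by
        intro h
        rw [h] at hx
        exact hx.1 hz
      have hx3 : x ≠ g' w := by
        rw [hgw]
        exact hx.2.2
      simp only [rot, if_neg hxz, if_neg hx.2.1, if_neg hx3]
      exact hag x hx.1
    · simp only [Finset.mem_union, Finset.mem_insert, Finset.mem_singleton]
      exact Or.inr (Or.inr trivial)
    · exact Finset.mem_union_left _ hv
    · intro x hx
      simp only [Finset.mem_union, Finset.mem_insert, Finset.mem_singleton] at hx ⊢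
      rcases hx with hx | hx | hx
      · exact Or.inl (hcl x hx)
      · rw [hx]
        exact Or.inr (Or.inr rfl)
      · rw [hx, hinv]
        exact Or.inr (Or.inl rfl)

/-- The indicator of the neighbours of `v`. -/
def tg (v : V) : V → ℝ := fun y => if G.Adj y v then 1 else 0

/-- The indicator of the vertex `c`. -/
def dl (c : V) : V → ℝ := fun y => if y = c then 1 else 0

/-- The number of alternating walks with `m` matching edges from a hole to the neighbours of
`v`. -/
def Wf (g : V → V) (v : V) (m : ℕ) : V → ℝ := (Dop G g)^[m] (tg G v)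

/-- Walks with `T` matching edges from `z` to the neighbours of `v`, counted once for every
visit to the hole `c`. -/
def hh (g : V → V) (v : V) : ℕ → V → V → ℝ
  | 0, _, _ => 0
  | T + 1, c, z => Dop G g (dl c) z * Wf G g v T c + Dop G g (hh g v T c) z

/-- Walks with `T` matching edges from `z` to the neighbours of `v`, counted once for every
return to a hole, or to the partner of a hole, visited after the start. -/
def rr (g : V → V) (v : V) : ℕ → V → ℝ
  | 0, _ => 0
  | T + 1, z => Dop G g (fun y => hh G g v T y y + hh G g v T (g y) y + rr g v T y) z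

omit [Fintype V] [DecidableEq V] in
theorem tg_nonneg (v y : V) : 0 ≤ tg G v y := by
  unfold tg
  split_ifs <;> norm_num

omit [Fintype V] [DecidableEq V] in
theorem tg_le_one (v y : V) : tg G v y ≤ 1 := by
  unfold tg
  split_ifs <;> norm_num

omit [Fintype V] in
theorem dl_nonneg (c y : V) : 0 ≤ dl c y := by
  unfold dl
  split_ifs <;> norm_num

omit [DecidableEq V] in
theorem Dop_nonneg (g : V → V) {φ : V → ℝ} (h : ∀ y, 0 ≤ φ y) (z : V) : 0 ≤ Dop G g φ z :=
  Finset.sum_nonneg (fun w _ => h (g w))

omit [DecidableEq V] in
theorem Wf_nonneg (g : V → V) (v : V) (m : ℕ) (c : V) : 0 ≤ Wf G g v m c :=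
  iter_nonneg G g m (tg_nonneg G v) c

theorem hh_nonneg (g : V → V) (v : V) : ∀ (T : ℕ) (c z : V), 0 ≤ hh G g v T c z := by
  intro T
  induction T with
  | zero =>
    intro c z
    exact le_refl _
  | succ T ih =>
    intro c z
    have h1 : hh G g v (T + 1) c z
        = Dop G g (dl c) z * Wf G g v T c + Dop G g (hh G g v T c) z := rfl
    rw [h1]
    exact add_nonneg (mul_nonneg (Dop_nonneg G g (dl_nonneg c) z) (Wf_nonneg G g v T c))
      (Dop_nonneg G g (ih c) z)

theorem rr_nonneg (g : V → V) (v : V) : ∀ (T : ℕ) (z : V), 0 ≤ rr G g v T z := by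
  intro T
  induction T with
  | zero =>
    intro z
    exact le_refl _
  | succ T ih =>
    intro z
    have h1 : rr G g v (T + 1) z
        = Dop G g (fun y => hh G g v T y y + hh G g v T (g y) y + rr G g v T y) z := rfl
    rw [h1]
    exact Dop_nonneg G g (fun y => add_nonneg (add_nonneg (hh_nonneg G g v T y y)
      (hh_nonneg G g v T (g y) y)) (ih y)) z

omit [Fintype V] in
theorem sum_union_pair_le (f : V → ℝ) (hf : ∀ c, 0 ≤ f c) (F : Finset V) (a b : V) :
    ∑ c ∈ F ∪ {a, b}, f c ≤ ∑ c ∈ F, f c + f a + f b := by
  have h1 := Finset.sum_union_inter (s₁ := F) (s₂ := {a, b}) (f := f)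
  have h2 : 0 ≤ ∑ c ∈ F ∩ {a, b}, f c := Finset.sum_nonneg (fun c _ => hf c)
  have h3 : ∑ c ∈ ({a, b} : Finset V), f c ≤ f a + f b := by
    by_cases hab : a = b
    · subst hab
      have h4 : ({a, a} : Finset V) = {a} := by simp
      rw [h4, Finset.sum_singleton]
      linarith [hf a]
    · rw [Finset.sum_pair hab]
  linarith

/-- First-collision expansion: the self-avoiding walks are at least all walks minus the walks
that visit `F` and the walks that return to an earlier vertex. -/
theorem sc_ge (v : V) (g : V → V) (hinv : ∀ x, g (g x) = x) :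
    ∀ (T : ℕ) (F : Finset V) (z : V), (∀ x ∈ F, g x ∈ F) →
      Wf G g v T z - ∑ c ∈ F, hh G g v T c z - rr G g v T z ≤ (sc G v g T F z : ℝ) := by
  intro T
  induction T with
  | zero =>
    intro F z _
    have h1 : ∀ c ∈ F, hh G g v 0 c z = 0 := fun c _ => rfl
    have h2 : rr G g v 0 z = 0 := rfl
    have h3 : Wf G g v 0 z = tg G v z := rfl
    have h4 : (sc G v g 0 F z : ℝ) = tg G v z := by
      show (((if G.Adj z v then 1 else 0 : ℕ)) : ℝ) = if G.Adj z v then 1 else 0
      split_ifs <;> simp
    rw [Finset.sum_eq_zero h1, h2, h3, h4]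
    simp
  | succ T ih =>
    intro F z hcl
    have hsc : (sc G v g (T + 1) F z : ℝ)
        = ∑ w ∈ (G.neighborFinset z).filter (fun w => w ∉ F),
            (sc G v g T (F ∪ {w, g w}) (g w) : ℝ) := by
      have h : sc G v g (T + 1) F z
          = ∑ w ∈ (G.neighborFinset z).filter (fun w => w ∉ F),
              sc G v g T (F ∪ {w, g w}) (g w) := rfl
      rw [h, Nat.cast_sum]
    have hlw : ∀ w ∈ (G.neighborFinset z).filter (fun w => w ∉ F),
        Wf G g v T (g w) - (∑ c ∈ F, hh G g v T c (g w) + hh G g v T w (g w)
          + hh G g v T (g w) (g w) + rr G g v T (g w))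
        ≤ (sc G v g T (F ∪ {w, g w}) (g w) : ℝ) := by
      intro w _
      have hcl' : ∀ x ∈ F ∪ {w, g w}, g x ∈ F ∪ {w, g w} := by
        intro x hx
        simp only [Finset.mem_union, Finset.mem_insert, Finset.mem_singleton] at hx ⊢
        rcases hx with hx | hx | hx
        · exact Or.inl (hcl x hx)
        · rw [hx]
          exact Or.inr (Or.inr rfl)
        · rw [hx, hinv]
          exact Or.inr (Or.inl rfl)
      have hih := ih (F ∪ {w, g w}) (g w) hcl'
      have hu := sum_union_pair_le (fun c => hh G g v T c (g w))
        (fun c => hh_nonneg G g v T c (g w)) F w (g w)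
      linarith
    have h2 := Finset.sum_filter_add_sum_filter_not (G.neighborFinset z) (fun w => w ∈ F)
      (fun w => Wf G g v T (g w) - (∑ c ∈ F, hh G g v T c (g w) + hh G g v T w (g w)
          + hh G g v T (g w) (g w) + rr G g v T (g w)))
    have h3 : ∑ w ∈ (G.neighborFinset z).filter (fun w => w ∈ F),
        (Wf G g v T (g w) - (∑ c ∈ F, hh G g v T c (g w) + hh G g v T w (g w)
          + hh G g v T (g w) (g w) + rr G g v T (g w)))
        ≤ ∑ w ∈ (G.neighborFinset z).filter (fun w => w ∈ F), Wf G g v T (g w) := by
      apply Finset.sum_le_sum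
      intro w _
      have a1 : 0 ≤ ∑ c ∈ F, hh G g v T c (g w) :=
        Finset.sum_nonneg (fun c _ => hh_nonneg G g v T c (g w))
      have a2 := hh_nonneg G g v T w (g w)
      have a3 := hh_nonneg G g v T (g w) (g w)
      have a4 := rr_nonneg G g v T (g w)
      linarith
    have h4 : ∑ w ∈ (G.neighborFinset z).filter (fun w => w ∈ F), Wf G g v T (g w)
        = ∑ c ∈ F, Dop G g (dl c) z * Wf G g v T c := by
      have b1 : ∀ c ∈ F, Dop G g (dl c) z * Wf G g v T c
          = ∑ w ∈ G.neighborFinset z, (if g w = c then Wf G g v T c else 0) := by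
        intro c _
        rw [Dop_apply, Finset.sum_mul]
        apply Finset.sum_congr rfl
        intro w _
        unfold dl
        split_ifs <;> simp
      rw [Finset.sum_congr rfl b1, Finset.sum_comm]
      have b2 : ∀ w ∈ G.neighborFinset z, ∑ c ∈ F, (if g w = c then Wf G g v T c else 0)
          = if g w ∈ F then Wf G g v T (g w) else 0 := by
        intro w _
        rw [Finset.sum_ite_eq]
      rw [Finset.sum_congr rfl b2, ← Finset.sum_filter]
      apply Finset.sum_congr _ (fun _ _ => rfl)
      apply Finset.filter_congr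
      intro w _
      constructor
      · intro hw
        exact hcl w hw
      · intro hw
        have := hcl (g w) hw
        rwa [hinv] at this
    have h5 : ∑ w ∈ G.neighborFinset z,
        (Wf G g v T (g w) - (∑ c ∈ F, hh G g v T c (g w) + hh G g v T w (g w)
          + hh G g v T (g w) (g w) + rr G g v T (g w)))
        = Wf G g v (T + 1) z - (∑ c ∈ F, Dop G g (hh G g v T c) z
          + Dop G g (fun y => hh G g v T y y + hh G g v T (g y) y + rr G g v T y) z) := by
      have c1 : Wf G g v (T + 1) z = ∑ w ∈ G.neighborFinset z, Wf G g v T (g w) := by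
        unfold Wf
        rw [Function.iterate_succ_apply']
        rfl
      have c2 : ∑ c ∈ F, Dop G g (hh G g v T c) z
          = ∑ w ∈ G.neighborFinset z, ∑ c ∈ F, hh G g v T c (g w) := by
        simp only [Dop_apply]
        rw [Finset.sum_comm]
      have c3 : Dop G g (fun y => hh G g v T y y + hh G g v T (g y) y + rr G g v T y) z
          = ∑ w ∈ G.neighborFinset z,
              (hh G g v T (g w) (g w) + hh G g v T w (g w) + rr G g v T (g w)) := by
        rw [Dop_apply]
        apply Finset.sum_congr rfl
        intro w _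
        rw [hinv]
      rw [c1, c2, c3, ← Finset.sum_add_distrib, ← Finset.sum_sub_distrib]
      apply Finset.sum_congr rfl
      intro w _
      ring
    have h6 : ∑ c ∈ F, hh G g v (T + 1) c z
        = ∑ c ∈ F, Dop G g (dl c) z * Wf G g v T c + ∑ c ∈ F, Dop G g (hh G g v T c) z := by
      rw [← Finset.sum_add_distrib]
      rfl
    have h7 : rr G g v (T + 1) z
        = Dop G g (fun y => hh G g v T y y + hh G g v T (g y) y + rr G g v T y) z := rfl
    have h8 := Finset.sum_le_sum hlw
    rw [hsc]
    linarith

end Vale.Agent.Lib.P308.H27
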