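import Vale.Agent.Lib.P308.H27.Count

/-!
From involutions back to matchings as subgraphs.
-/

namespace Vale.Agent.Lib.P308.H27

variable {V : Type*}

/-- The partner function of a matching. -/
theorem exists_partner {G : SimpleGraph V} {M : G.Subgraph} (hM : M.IsMatching) :
    ∃ g : V → V, (∀ x, x ∈ M.verts → M.Adj x (g x)) ∧ (∀ x, x ∉ M.verts → g x = x) ∧
      ∀ x, g (g x) = x := by
  classical
  have hspec : ∀ x (h : x ∈ M.verts), M.Adj x (hM h).choose := fun x h => (hM h).choose_spec.1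
  refine ⟨fun x => if h : x ∈ M.verts then (hM h).choose else x, ?_, ?_, ?_⟩
  · intro x hx
    simp only [dif_pos hx]
    exact hspec x hx
  · intro x hx
    simp only [dif_neg hx]
  · intro x
    by_cases hx : x ∈ M.verts
    · have h1 : M.Adj x (hM hx).choose := hspec x hx
      have hy : (hM hx).choose ∈ M.verts := M.edge_vert h1.symm
      simp only [dif_pos hx, dif_pos hy]
      exact hM.eq_of_adj_left (hspec _ hy) h1.symm
    · simp only [dif_neg hx]

theorem nearPerfect_le [Fintype V] (G : SimpleGraph V) :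
    {M : G.Subgraph | M.IsMatching ∧ M.verts.ncard + 2 = Fintype.card V}.ncard
      ≤ {g : V → V | ∃ u v, IsNPM G g u v}.ncard := by
  refine ncard_le_of_rel _ _ (Set.toFinite _)
    (fun M g => (∀ x, x ∈ M.verts → M.Adj x (g x)) ∧ (∀ x, x ∉ M.verts → g x = x)) ?_ ?_
  · rintro M ⟨hM, hcard⟩
    obtain ⟨g, hg1, hg2, hg3⟩ := exists_partner hM
    refine ⟨g, ?_, hg1, hg2⟩
    have hc : (M.verts)ᶜ.ncard = 2 := by
      have := Set.ncard_add_ncard_compl M.verts
      rw [Nat.card_eq_fintype_card] at this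
      omega
    obtain ⟨u, v, huv, hEq⟩ := Set.ncard_eq_two.mp hc
    have hu : u ∉ M.verts := by
      have : u ∈ (M.verts)ᶜ := by rw [hEq]; exact Set.mem_insert _ _
      exact this
    have hv : v ∉ M.verts := by
      have : v ∈ (M.verts)ᶜ := by rw [hEq]; exact Set.mem_insert_of_mem _ rfl
      exact this
    refine ⟨u, v, huv, hg2 u hu, hg2 v hv, hg3, ?_⟩
    intro x hxu hxv
    have hx : x ∈ M.verts := by
      by_contra hx
      have : x ∈ (M.verts)ᶜ := hx
      rw [hEq] at this
      rcases this with h | h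
      · exact hxu h
      · exact hxv h
    exact M.adj_sub (hg1 x hx)
  · rintro M ⟨hM, _⟩ M' ⟨hM', _⟩ g ⟨h1, h2⟩ ⟨h1', h2'⟩
    have hv : ∀ (N : G.Subgraph), (∀ x, x ∈ N.verts → N.Adj x (g x)) →
        (∀ x, x ∉ N.verts → g x = x) → ∀ x, x ∈ N.verts ↔ g x ≠ x := by
      intro N hN1 hN2 x
      constructor
      · intro hx
        exact (N.adj_sub (hN1 x hx)).ne'
      · intro hx
        by_contra hcon
        exact hx (hN2 x hcon)
    have ha : ∀ (N : G.Subgraph), N.IsMatching → (∀ x, x ∈ N.verts → N.Adj x (g x)) →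
        (∀ x, x ∉ N.verts → g x = x) → ∀ x y, N.Adj x y ↔ (g x ≠ x ∧ g x = y) := by
      intro N hNM hN1 hN2 x y
      constructor
      · intro hxy
        have hx : x ∈ N.verts := N.edge_vert hxy
        exact ⟨(hv N hN1 hN2 x).mp hx, hNM.eq_of_adj_left (hN1 x hx) hxy⟩
      · rintro ⟨hx, rfl⟩
        exact hN1 x ((hv N hN1 hN2 x).mpr hx)
    refine SimpleGraph.Subgraph.ext ?_ ?_
    · ext x
      rw [hv M h1 h2 x, hv M' h1' h2' x]
    · funext x y
      rw [ha M hM h1 h2 x y, ha M' hM' h1' h2' x y]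

theorem perfect_le [Fintype V] [DecidableEq V] (G : SimpleGraph V) :
    (PMs G).ncard ≤ {M : G.Subgraph | M.IsPerfectMatching}.ncard := by
  refine ncard_le_of_rel _ _ (Set.toFinite _)
    (fun f M => M.verts = Set.univ ∧ ∀ x y, M.Adj x y ↔ f x = y) ?_ ?_
  · intro f hf
    refine ⟨{ verts := Set.univ
              Adj := fun x y => f x = y
              adj_sub := ?_
              edge_vert := fun _ => Set.mem_univ _
              symm := ⟨?_⟩ }, ?_, rfl, fun x y => Iff.rfl⟩
    · intro x y h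
      rw [← h]
      exact (hf x).1
    · intro x y h
      rw [← h]
      exact (hf x).2
    · refine ⟨?_, fun x => Set.mem_univ x⟩
      intro x _
      exact ⟨f x, rfl, fun w hw => Eq.symm hw⟩
  · rintro f _ f' _ M ⟨_, h⟩ ⟨_, h'⟩
    funext x
    have h1 : M.Adj x (f x) := (h x (f x)).mpr rfl
    exact ((h' x (f x)).mp h1).symm

theorem exists_pm_of_subgraph {G : SimpleGraph V} {M : G.Subgraph} (hM : M.IsPerfectMatching) :
    ∃ f, IsPM G f := by
  obtain ⟨g, hg1, _, hg3⟩ := exists_partner hM.1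
  exact ⟨g, fun x => ⟨M.adj_sub (hg1 x (hM.2 x)), hg3 x⟩⟩

/-- The ratio bound for matchings as subgraphs. -/
theorem ratio_bound [Fintype V] (G : SimpleGraph V) (k : ℕ)
    (hk : ∀ s : Finset V, G.IsIndepSet (s : Set V) → s.card ≤ k)
    (hpm : ∃ M : G.Subgraph, M.IsPerfectMatching) :
    {M : G.Subgraph | M.IsMatching ∧ M.verts.ncard + 2 = Fintype.card V}.ncard
      ≤ Fintype.card V * (Fintype.card V + 1) ^ (3 * k)
        * {M : G.Subgraph | M.IsPerfectMatching}.ncard := by
  classical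
  obtain ⟨M, hM⟩ := hpm
  obtain ⟨f₀, hf₀⟩ := exists_pm_of_subgraph hM
  calc {M : G.Subgraph | M.IsMatching ∧ M.verts.ncard + 2 = Fintype.card V}.ncard
      ≤ {g : V → V | ∃ u v, IsNPM G g u v}.ncard := nearPerfect_le G
    _ ≤ Fintype.card V * (Fintype.card V + 1) ^ (3 * k) * (PMs G).ncard :=
        npm_count G k hk hf₀
    _ ≤ Fintype.card V * (Fintype.card V + 1) ^ (3 * k)
        * {M : G.Subgraph | M.IsPerfectMatching}.ncard :=
        Nat.mul_le_mul_left _ (perfect_le G)

end Vale.Agent.Lib.P308.H27
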