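import Vale.Agent.Lib.P308.H27.Expander

/-!
Growing the forward and the backward alternating trees level by level.
-/

namespace Vale.Agent.Lib.P308.H27

open Finset

variable {V : Type*} [DecidableEq V]

theorem fwd_extend {G : SimpleGraph V} {g : V → V} {u v : V} (hinv : ∀ x, g (g x) = x)
    (hgv : g v = v) {i a : ℕ} {X F N C : Finset V}
    (hXF : X ⊆ F) (hFg : ∀ z ∈ F, g z ∈ F) (hvF : v ∉ F)
    (hX : ∀ x ∈ X, Fwd G g u v i x F)
    (hN : ∀ y ∈ N, ∃ x ∈ X, G.Adj x y)
    (hCg : ∀ z ∈ C, g z ∈ C) (hFC : Disjoint F C)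
    (hcard : a + F.card + C.card + 1 ≤ N.card) :
    ∃ X' F' : Finset V, X' ⊆ F' ∧ X'.card = a ∧ F'.card ≤ F.card + 2 * a ∧
      (∀ z ∈ F', g z ∈ F') ∧ v ∉ F' ∧ (∀ x ∈ X', Fwd G g u v (i + 1) x F') ∧
      Disjoint F' C := by
  have hginj : Function.Injective g := fun x y hxy => by
    have h1 := congrArg g hxy
    rwa [hinv, hinv] at h1
  have hA : a ≤ (N \ (F ∪ C ∪ {v})).card := by
    have h1 := Finset.le_card_sdiff (F ∪ C ∪ {v}) N
    have h2 : (F ∪ C ∪ {v}).card ≤ F.card + C.card + 1 := by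
      have h3 := Finset.card_union_le (F ∪ C) {v}
      have h4 := Finset.card_union_le F C
      rw [Finset.card_singleton] at h3
      omega
    omega
  obtain ⟨Y, hYsub, hYcard⟩ := Finset.exists_subset_card_eq hA
  have hY : ∀ y ∈ Y, y ∈ N ∧ y ∉ F ∧ y ∉ C ∧ y ≠ v := by
    intro y hy
    have h := Finset.mem_sdiff.mp (hYsub hy)
    refine ⟨h.1, fun hF => h.2 ?_, fun hC => h.2 ?_, fun hv => h.2 ?_⟩
    · exact Finset.mem_union_left _ (Finset.mem_union_left _ hF)
    · exact Finset.mem_union_left _ (Finset.mem_union_right _ hC)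
    · exact Finset.mem_union_right _ (Finset.mem_singleton.mpr hv)
  refine ⟨Y.image g, F ∪ (Y ∪ Y.image g), ?_, ?_, ?_, ?_, ?_, ?_, ?_⟩
  · intro z hz
    exact Finset.mem_union_right _ (Finset.mem_union_right _ hz)
  · rw [Finset.card_image_of_injective _ hginj, hYcard]
  · have h1 := Finset.card_union_le F (Y ∪ Y.image g)
    have h2 := Finset.card_union_le Y (Y.image g)
    have h3 := Finset.card_image_le (s := Y) (f := g)
    omega
  · intro z hz
    rcases Finset.mem_union.mp hz with hzF | hz2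
    · exact Finset.mem_union_left _ (hFg z hzF)
    · rcases Finset.mem_union.mp hz2 with hzY | hzI
      · exact Finset.mem_union_right _ (Finset.mem_union_right _ (Finset.mem_image_of_mem g hzY))
      · obtain ⟨y, hy, hyz⟩ := Finset.mem_image.mp hzI
        rw [← hyz, hinv]
        exact Finset.mem_union_right _ (Finset.mem_union_left _ hy)
  · intro hv
    rcases Finset.mem_union.mp hv with hvF' | hv2
    · exact hvF hvF'
    · rcases Finset.mem_union.mp hv2 with hvY | hvI
      · exact (hY v hvY).2.2.2 rfl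
      · obtain ⟨y, hy, hyv⟩ := Finset.mem_image.mp hvI
        have h1 : y = v := by
          have h2 := congrArg g hyv
          rw [hinv, hgv] at h2
          exact h2
        exact (hY y hy).2.2.2 h1
  · intro x' hx'
    obtain ⟨y, hy, hyx⟩ := Finset.mem_image.mp hx'
    obtain ⟨hyN, hyF, hyC, hyv⟩ := hY y hy
    obtain ⟨x, hxX, hadj⟩ := hN y hyN
    rw [← hyx]
    refine Fwd.step (hX x hxX) hadj hyv hyF Finset.subset_union_left ?_ ?_ ?_
    · exact Finset.mem_union_left _ (hXF hxX)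
    · exact Finset.mem_union_right _ (Finset.mem_union_left _ hy)
    · exact Finset.mem_union_right _ (Finset.mem_union_right _ (Finset.mem_image_of_mem g hy))
  · rw [Finset.disjoint_left]
    intro z hz hzC
    rcases Finset.mem_union.mp hz with hzF | hz2
    · exact Finset.disjoint_left.mp hFC hzF hzC
    · rcases Finset.mem_union.mp hz2 with hzY | hzI
      · exact (hY z hzY).2.2.1 hzC
      · obtain ⟨y, hy, hyz⟩ := Finset.mem_image.mp hzI
        have h1 : y ∈ C := by
          have h2 := hCg z hzC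
          rw [← hyz, hinv] at h2
          exact h2
        exact (hY y hy).2.2.1 h1

theorem bwd_extend {G : SimpleGraph V} {g : V → V} {v : V} (hinv : ∀ x, g (g x) = x)
    (hgv : g v = v) {i b : ℕ} {P C N F : Finset V}
    (hPC : P ⊆ C) (hCg : ∀ z ∈ C, g z ∈ C) (hvC : v ∉ C)
    (hP : ∀ p ∈ P, Bwd G g v i p C)
    (hN : ∀ q ∈ N, ∃ p ∈ P, G.Adj q (g p))
    (hFg : ∀ z ∈ F, g z ∈ F) (hFC : Disjoint F C)
    (hcard : b + C.card + F.card + 1 ≤ N.card) :
    ∃ P' C' : Finset V, P' ⊆ C' ∧ P'.card = b ∧ C'.card ≤ C.card + 2 * b ∧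
      (∀ z ∈ C', g z ∈ C') ∧ v ∉ C' ∧ (∀ p ∈ P', Bwd G g v (i + 1) p C') ∧
      Disjoint F C' := by
  have hA : b ≤ (N \ (C ∪ F ∪ {v})).card := by
    have h1 := Finset.le_card_sdiff (C ∪ F ∪ {v}) N
    have h2 : (C ∪ F ∪ {v}).card ≤ C.card + F.card + 1 := by
      have h3 := Finset.card_union_le (C ∪ F) {v}
      have h4 := Finset.card_union_le C F
      rw [Finset.card_singleton] at h3
      omega
    omega
  obtain ⟨Q, hQsub, hQcard⟩ := Finset.exists_subset_card_eq hA
  have hQ : ∀ q ∈ Q, q ∈ N ∧ q ∉ C ∧ q ∉ F ∧ q ≠ v := by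
    intro q hq
    have h := Finset.mem_sdiff.mp (hQsub hq)
    refine ⟨h.1, fun hC => h.2 ?_, fun hF => h.2 ?_, fun hv => h.2 ?_⟩
    · exact Finset.mem_union_left _ (Finset.mem_union_left _ hC)
    · exact Finset.mem_union_left _ (Finset.mem_union_right _ hF)
    · exact Finset.mem_union_right _ (Finset.mem_singleton.mpr hv)
  refine ⟨Q, C ∪ (Q ∪ Q.image g), ?_, hQcard, ?_, ?_, ?_, ?_, ?_⟩
  · intro z hz
    exact Finset.mem_union_right _ (Finset.mem_union_left _ hz)
  · have h1 := Finset.card_union_le C (Q ∪ Q.image g)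
    have h2 := Finset.card_union_le Q (Q.image g)
    have h3 := Finset.card_image_le (s := Q) (f := g)
    omega
  · intro z hz
    rcases Finset.mem_union.mp hz with hzC | hz2
    · exact Finset.mem_union_left _ (hCg z hzC)
    · rcases Finset.mem_union.mp hz2 with hzQ | hzI
      · exact Finset.mem_union_right _ (Finset.mem_union_right _ (Finset.mem_image_of_mem g hzQ))
      · obtain ⟨y, hy, hyz⟩ := Finset.mem_image.mp hzI
        rw [← hyz, hinv]
        exact Finset.mem_union_right _ (Finset.mem_union_left _ hy)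
  · intro hv
    rcases Finset.mem_union.mp hv with hvC' | hv2
    · exact hvC hvC'
    · rcases Finset.mem_union.mp hv2 with hvQ | hvI
      · exact (hQ v hvQ).2.2.2 rfl
      · obtain ⟨y, hy, hyv⟩ := Finset.mem_image.mp hvI
        have h1 : y = v := by
          have h2 := congrArg g hyv
          rw [hinv, hgv] at h2
          exact h2
        exact (hQ y hy).2.2.2 h1
  · intro q hq
    obtain ⟨hqN, hqC, hqF, hqv⟩ := hQ q hq
    obtain ⟨p, hpP, hadj⟩ := hN q hqN
    have hgpv : g p ≠ v := fun e => hvC (e ▸ hCg p (hPC hpP))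
    exact Bwd.step hinv (hP p hpP) (hPC hpP) hCg hadj hgpv hqC Finset.subset_union_left
  · rw [Finset.disjoint_left]
    intro z hzF hz
    rcases Finset.mem_union.mp hz with hzC | hz2
    · exact Finset.disjoint_left.mp hFC hzF hzC
    · rcases Finset.mem_union.mp hz2 with hzQ | hzI
      · exact (hQ z hzQ).2.2.1 hzF
      · obtain ⟨y, hy, hyz⟩ := Finset.mem_image.mp hzI
        have h1 : y ∈ F := by
          have h2 := hFg z hzF
          rw [← hyz, hinv] at h2
          exact h2
        exact (hQ y hy).2.2.1 h1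

/-- The two trees after `i` levels. -/
theorem levels (G : SimpleGraph V) (γ L : ℕ) (hγ : 2 ≤ γ)
    (hexp : ∀ S : Finset V, S.card ≤ γ ^ L →
      ∃ N : Finset V, (∀ y ∈ N, ∃ x ∈ S, G.Adj x y) ∧ (5 * γ + 4) * S.card ≤ N.card)
    {g : V → V} {u v : V} (hn : IsNPM G g u v) (hnadj : ¬ G.Adj u v) :
    ∀ i, i ≤ L + 1 → ∃ X F P C : Finset V, X ⊆ F ∧ X.card = γ ^ i ∧ F.card + 3 ≤ 4 * γ ^ i ∧
      (∀ z ∈ F, g z ∈ F) ∧ v ∉ F ∧ (∀ x ∈ X, Fwd G g u v i x F) ∧ P ⊆ C ∧ P.card = γ ^ i ∧
      C.card + 2 ≤ 4 * γ ^ i ∧ (∀ z ∈ C, g z ∈ C) ∧ v ∉ C ∧ (∀ p ∈ P, Bwd G g v i p C) ∧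
      Disjoint F C := by
  obtain ⟨huv, hgu, hgv, hinv, hadjg⟩ := hn
  have hginj : Function.Injective g := fun x y hxy => by
    have h1 := congrArg g hxy
    rwa [hinv, hinv] at h1
  intro i
  induction i with
  | zero =>
    intro _
    have h1 : ({v} : Finset V).card ≤ γ ^ L := by
      rw [Finset.card_singleton]
      exact Nat.one_le_pow _ _ (by omega)
    obtain ⟨N, hN, hNc⟩ := hexp {v} h1
    rw [Finset.card_singleton] at hNc
    have hNpos : 0 < N.card := by omega
    obtain ⟨p₀, hp₀⟩ := Finset.card_pos.mp hNpos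
    obtain ⟨x, hx, hadj⟩ := hN p₀ hp₀
    have hxv : x = v := Finset.mem_singleton.mp hx
    rw [hxv] at hadj
    have hp₀v : p₀ ≠ v := hadj.ne'
    have hp₀u : p₀ ≠ u := fun e => hnadj (e ▸ hadj.symm)
    have hgp₀v : g p₀ ≠ v := by
      intro e
      have h2 := congrArg g e
      rw [hinv, hgv] at h2
      exact hp₀v h2
    have hgp₀u : g p₀ ≠ u := by
      intro e
      have h2 := congrArg g e
      rw [hinv, hgu] at h2
      exact hp₀u h2
    refine ⟨{u}, {u}, {p₀}, {p₀, g p₀}, Finset.Subset.refl _, ?_, ?_, ?_, ?_, ?_, ?_, ?_, ?_, ?_,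
      ?_, ?_, ?_⟩
    · simp
    · simp
    · intro z hz
      rw [Finset.mem_singleton] at hz
      rw [hz, hgu]
      exact Finset.mem_singleton_self u
    · intro hv
      exact huv (Finset.mem_singleton.mp hv).symm
    · intro x hx
      rw [Finset.mem_singleton.mp hx]
      exact Fwd.base ⟨huv, hgu, hgv, hinv, hadjg⟩ _
    · intro z hz
      rw [Finset.mem_singleton.mp hz]
      exact Finset.mem_insert_self _ _
    · simp
    · have h2 := Finset.card_insert_le p₀ {g p₀}
      rw [Finset.card_singleton] at h2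
      simp only [pow_zero]
      omega
    · intro z hz
      rcases Finset.mem_insert.mp hz with hz1 | hz2
      · rw [hz1]
        exact Finset.mem_insert_of_mem (Finset.mem_singleton_self _)
      · rw [Finset.mem_singleton.mp hz2, hinv]
        exact Finset.mem_insert_self _ _
    · intro hv
      rcases Finset.mem_insert.mp hv with hv1 | hv2
      · exact hp₀v hv1.symm
      · exact hgp₀v (Finset.mem_singleton.mp hv2).symm
    · intro p hp
      rw [Finset.mem_singleton.mp hp]
      exact Bwd.base hadj.symm _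
    · rw [Finset.disjoint_left]
      intro z hz hzC
      rw [Finset.mem_singleton] at hz
      rcases Finset.mem_insert.mp hzC with hz1 | hz2
      · exact hp₀u (hz1.symm.trans hz)
      · exact hgp₀u ((Finset.mem_singleton.mp hz2).symm.trans hz)
  | succ i ih =>
    intro hi
    obtain ⟨X, F, P, C, hXF, hXc, hFc, hFg, hvF, hX, hPC, hPc, hCc, hCg, hvC, hP, hFC⟩ :=
      ih (by omega)
    have hpow : γ ^ i ≤ γ ^ L := Nat.pow_le_pow_right (by omega) (by omega)
    have hsucc : γ ^ (i + 1) = γ ^ i * γ := pow_succ γ i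
    have hm : 2 * γ ^ i ≤ γ ^ i * γ := by
      rw [Nat.mul_comm 2]
      exact Nat.mul_le_mul_left _ hγ
    have hexpand : (5 * γ + 4) * γ ^ i = 5 * (γ ^ i * γ) + 4 * γ ^ i := by ring
    -- forward level
    obtain ⟨N₁, hN₁, hN₁c⟩ := hexp X (by rw [hXc]; exact hpow)
    rw [hXc, hexpand] at hN₁c
    obtain ⟨X', F', hXF', hXc', hFc', hFg', hvF', hX', hFC'⟩ :=
      fwd_extend (a := γ ^ i * γ) hinv hgv hXF hFg hvF hX hN₁ hCg hFC (by omega)
    -- backward level
    have hIc : (P.image g).card = γ ^ i := by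
      rw [Finset.card_image_of_injective _ hginj, hPc]
    obtain ⟨N₂, hN₂, hN₂c⟩ := hexp (P.image g) (by rw [hIc]; exact hpow)
    rw [hIc, hexpand] at hN₂c
    have hN₂' : ∀ q ∈ N₂, ∃ p ∈ P, G.Adj q (g p) := by
      intro q hq
      obtain ⟨y, hy, hadj⟩ := hN₂ q hq
      obtain ⟨p, hp, hpy⟩ := Finset.mem_image.mp hy
      exact ⟨p, hp, by rw [hpy]; exact hadj.symm⟩
    obtain ⟨P', C', hPC', hPc', hCc', hCg', hvC', hP', hFC''⟩ :=
      bwd_extend (b := γ ^ i * γ) hinv hgv hPC hCg hvC hP hN₂' hFg' hFC' (by omega)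
    refine ⟨X', F', P', C', hXF', ?_, ?_, hFg', hvF', hX', hPC', ?_, ?_, hCg', hvC', hP', hFC''⟩
    · rw [hsucc]
      exact hXc'
    · rw [hsucc]
      omega
    · rw [hsucc]
      exact hPc'
    · rw [hsucc]
      omega

/-- Every near-perfect matching reaches adjacent holes within `2 L + 3` rotations. -/
theorem reach_expander (G : SimpleGraph V) (γ L : ℕ) (hγ : 2 ≤ γ)
    (hexp : ∀ S : Finset V, S.card ≤ γ ^ L →
      ∃ N : Finset V, (∀ y ∈ N, ∃ x ∈ S, G.Adj x y) ∧ (5 * γ + 4) * S.card ≤ N.card)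
    (hhole : ∀ A B : Finset V, Disjoint A B → A.card = γ ^ (L + 1) → B.card = γ ^ (L + 1) →
      ∃ a ∈ A, ∃ b ∈ B, G.Adj a b)
    {g : V → V} {u v : V} (hn : IsNPM G g u v) : Reach G (2 * L + 3) g u v := by
  by_cases hadj : G.Adj u v
  · have h0 : Reach G 0 g u v := hadj
    have h1 := h0.mono (2 * L + 3)
    rwa [Nat.zero_add] at h1
  · obtain ⟨X, F, P, C, hXF, hXc, _, _, _, hX, hPC, hPc, _, hCg, hvC, hP, hFC⟩ :=
      levels G γ L hγ hexp hn hadj (L + 1) (le_refl _)
    have hinv := hn.2.2.2.1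
    have hginj : Function.Injective g := fun x y hxy => by
      have h1 := congrArg g hxy
      rwa [hinv, hinv] at h1
    have hdisj : Disjoint X (P.image g) := by
      rw [Finset.disjoint_left]
      intro z hzX hzI
      obtain ⟨p, hp, hpz⟩ := Finset.mem_image.mp hzI
      have hzC : z ∈ C := by
        rw [← hpz]
        exact hCg p (hPC hp)
      exact Finset.disjoint_left.mp hFC (hXF hzX) hzC
    have hIc : (P.image g).card = γ ^ (L + 1) := by
      rw [Finset.card_image_of_injective _ hginj, hPc]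
    obtain ⟨a, ha, b, hb, hab⟩ := hhole X (P.image g) hdisj hXc hIc
    obtain ⟨p, hp, hpb⟩ := Finset.mem_image.mp hb
    rw [← hpb] at hab
    have hgpv : g p ≠ v := fun e => hvC (e ▸ hCg p (hPC hp))
    have haC : a ∉ C := fun h => Finset.disjoint_left.mp hFC (hXF ha) h
    have h1 := join_certs hinv (hX a ha) (hP p hp) (hPC hp) hCg hab hgpv haC hFC
    have hEq : L + 1 + 1 + (L + 1) = 2 * L + 3 := by omega
    rwa [hEq] at h1

end Vale.Agent.Lib.P308.H27

namespace Vale.Agent.Lib.P308.H27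

/-- The ratio bound for bounded-degree graphs with expanding small sets and no large bipartite
hole, for matchings as subgraphs. -/
theorem ratio_bound_expander {V : Type*} [Fintype V] (G : SimpleGraph V) (Δ γ L : ℕ)
    (hγ : 2 ≤ γ) (hdeg : ∀ v : V, (G.neighborSet v).ncard ≤ Δ)
    (hexp : ∀ S : Finset V, S.card ≤ γ ^ L →
      (5 * γ + 4) * S.card ≤ {y | ∃ x ∈ S, G.Adj x y}.ncard)
    (hhole : ∀ A B : Finset V, Disjoint A B → A.card = γ ^ (L + 1) → B.card = γ ^ (L + 1) →
      ∃ a ∈ A, ∃ b ∈ B, G.Adj a b) :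
    {M : G.Subgraph | M.IsMatching ∧ M.verts.ncard + 2 = Fintype.card V}.ncard
      ≤ Fintype.card V * (Δ + 1) ^ (2 * L + 3)
        * {M : G.Subgraph | M.IsPerfectMatching}.ncard := by
  refine ratio_of_reach G Δ (2 * L + 3) hdeg ?_
  intro _ g u v hn
  refine reach_expander G γ L hγ ?_ hhole hn
  intro S hS
  refine ⟨(Set.toFinite {y | ∃ x ∈ S, G.Adj x y}).toFinset, ?_, ?_⟩
  · intro y hy
    rw [Set.Finite.mem_toFinset] at hy
    exact hy
  · rw [← Set.ncard_eq_toFinset_card _ (Set.toFinite _)]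
    exact hexp S hS

end Vale.Agent.Lib.P308.H27
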