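import Vale.Agent.Lib.P308.H27.Num
import Vale.Agent.Lib.P308.H27.Spectral

/-!
The uniform ratio bound: for regular graphs whose nontrivial adjacency eigenvalues are at most
`d / 64` in absolute value, the near-perfect matchings are at most `n ^ 14` times as many as the
perfect matchings (and at most `n ^ 3` times as many when `d ≥ 2 ^ 20`), whatever the degree.
-/

namespace Vale.Agent.Lib.P308.H27

open Finset

variable {V : Type*} [Fintype V] [DecidableEq V] (G : SimpleGraph V) [DecidableRel G.Adj]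

theorem sq_le_two_pow' : ∀ k : ℕ, 2304 * (k + 21) ^ 2 ≤ 2 ^ (k + 20) := by
  intro k
  induction k with
  | zero => norm_num
  | succ k ih =>
    have h1 : 2304 * (k + 1 + 21) ^ 2 ≤ 2 * (2304 * (k + 21) ^ 2) := by
      have e1 : 2304 * (k + 1 + 21) ^ 2 = 2304 * k ^ 2 + 101376 * k + 1115136 := by ring
      have e2 : 2 * (2304 * (k + 21) ^ 2) = 4608 * k ^ 2 + 193536 * k + 2032128 := by ring
      rw [e1, e2]
      have := Nat.zero_le (k ^ 2)
      omega
    calc 2304 * (k + 1 + 21) ^ 2 ≤ 2 * (2304 * (k + 21) ^ 2) := h1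
      _ ≤ 2 * 2 ^ (k + 20) := Nat.mul_le_mul_left _ ih
      _ = 2 ^ (k + 1 + 20) := by ring

/-- The intermediate range of degrees, in the involution model. -/
theorem npm_uniform_mid {d : ℕ} {lam : ℝ} {b ℓ : ℕ} (hreg : G.IsRegularOfDegree d)
    (hlam : 0 ≤ lam) (hlam64 : lam ≤ d / 64)
    (hspec : ∀ x : V → ℝ, ∑ v, x v = 0 →
      ∑ v, (∑ w ∈ G.neighborFinset v, x w) ^ 2 ≤ lam ^ 2 * ∑ v, x v ^ 2)
    (hb : 21 ≤ b) (hd1 : d + 1 ≤ 2 ^ b) (hd2 : 2 ^ (b - 1) ≤ d)
    (hn1 : Fintype.card V ≤ 1024 ^ ℓ) (hn2 : 1024 ^ ℓ ≤ 1024 * Fintype.card V)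
    (hl : 2 * b ≤ ℓ) :
    {g : V → V | ∃ u v, IsNPM G g u v}.ncard ≤ Fintype.card V ^ 3 * (PMs G).ncard := by
  obtain ⟨q, hq⟩ : ∃ q : ℝ, q = 1 - 1 / (2 * (b : ℝ)) := ⟨_, rfl⟩
  have hqf := q_facts b hb
  rw [← hq] at hqf
  have hbpos : (0 : ℝ) < b := by
    have : 0 < b := by omega
    exact_mod_cast this
  have hq2 : (1 - q) * (2 * b) = 1 := by
    rw [hq]
    field_simp
    ring
  have H : NumHyp d (Fintype.card V) ℓ b q :=
    ⟨hb, hd1, hd2, hn1, hn2, hl, hqf.1, hqf.2.1, hqf.2.2, hq2⟩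
  have hdpos : 0 < d := by
    have h : 0 < 2 ^ (b - 1) := by positivity
    omega
  have hdr : (0 : ℝ) < d := by exact_mod_cast hdpos
  have GH : GHyp G d lam q (2 * ℓ) :=
    ⟨hreg, hlam, hlam64, hspec, hqf.1, hqf.2.1, hdpos, num_grow H⟩
  have hN : (Fintype.card V : ℝ) ≤ 1024 ^ ℓ := by exact_mod_cast hn1
  have hmain := npm_count_mid GH hN (num_S H rfl) (num_esc H rfl)
  have hfin := num_final H
  have hqpos := H.qpos
  have hdq : 0 < (d : ℝ) * q ^ (6 * ℓ) := by positivity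
  have h1 : ({g : V → V | ∃ u v, IsNPM G g u v}.ncard : ℝ) * ((d : ℝ) * q ^ (6 * ℓ))
      ≤ ((Fintype.card V : ℝ) ^ 3 * (PMs G).ncard) * ((d : ℝ) * q ^ (6 * ℓ)) := by
    have h2 : 2 * ((Fintype.card V : ℝ) ^ 2 * (PMs G).ncard)
        ≤ ((Fintype.card V : ℝ) * d * q ^ (6 * ℓ))
          * ((Fintype.card V : ℝ) ^ 2 * (PMs G).ncard) :=
      mul_le_mul_of_nonneg_right hfin (by positivity)
    calc ({g : V → V | ∃ u v, IsNPM G g u v}.ncard : ℝ) * ((d : ℝ) * q ^ (6 * ℓ))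
        = ({g : V → V | ∃ u v, IsNPM G g u v}.ncard : ℝ) * d * q ^ (6 * ℓ) := by ring
      _ ≤ 2 * (Fintype.card V : ℝ) ^ 2 * (PMs G).ncard := hmain
      _ = 2 * ((Fintype.card V : ℝ) ^ 2 * (PMs G).ncard) := by ring
      _ ≤ ((Fintype.card V : ℝ) * d * q ^ (6 * ℓ))
          * ((Fintype.card V : ℝ) ^ 2 * (PMs G).ncard) := h2
      _ = ((Fintype.card V : ℝ) ^ 3 * (PMs G).ncard) * ((d : ℝ) * q ^ (6 * ℓ)) := by ring
  have h3 := le_of_mul_le_mul_right h1 hdq
  exact_mod_cast h3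

omit [DecidableEq V] in
/-- Degrees at least `2 ^ 20`: the ratio is at most `n ^ 3`. -/
theorem uniform_big (d : ℕ) (lam : ℝ) (hreg : ∀ v : V, (G.neighborSet v).ncard = d)
    (hlam : 0 ≤ lam)
    (hspec : ∀ x : V → ℝ, ∑ v, x v = 0 →
      ∑ v, ((G.adjMatrix ℝ).mulVec x v) ^ 2 ≤ lam ^ 2 * ∑ v, x v ^ 2)
    (hlam64 : lam ≤ d / 64) (hd : 2 ^ 20 ≤ d) :
    {M : G.Subgraph | M.IsMatching ∧ M.verts.ncard + 2 = Fintype.card V}.ncard
      ≤ Fintype.card V ^ 3 * {M : G.Subgraph | M.IsPerfectMatching}.ncard := by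
  classical
  have hreg' : G.IsRegularOfDegree d := by
    intro v
    rw [← G.card_neighborFinset_eq_degree, ← hreg v, ← Set.ncard_coe_finset,
      G.coe_neighborFinset]
  have hspec' : ∀ x : V → ℝ, ∑ v, x v = 0 →
      ∑ v, (∑ w ∈ G.neighborFinset v, x w) ^ 2 ≤ lam ^ 2 * ∑ v, x v ^ 2 := by
    intro x hx
    have h1 := hspec x hx
    simp only [SimpleGraph.adjMatrix_mulVec_apply] at h1
    exact h1
  have hsub := nearPerfect_le G
  have hdpos : 0 < d := by
    have h : 0 < 2 ^ 20 := by norm_num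
    omega
  by_cases hn2 : 2 ≤ Fintype.card V
  · obtain ⟨ℓ, hℓ⟩ : ∃ ℓ, ℓ = Nat.clog 1024 (Fintype.card V) := ⟨_, rfl⟩
    have hn1 : Fintype.card V ≤ 1024 ^ ℓ := by
      rw [hℓ]
      exact Nat.le_pow_clog (by norm_num) _
    have hℓpos : 0 < ℓ := by
      rw [hℓ]
      exact Nat.clog_pos (by norm_num) hn2
    have hn2' : 1024 ^ ℓ ≤ 1024 * Fintype.card V := by
      have h1 : 1024 ^ (ℓ - 1) < Fintype.card V := by
        rw [hℓ]
        exact Nat.pow_pred_clog_lt_self (by norm_num) (by omega)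
      obtain ⟨m, hm⟩ := Nat.exists_eq_succ_of_ne_zero (by omega : ℓ ≠ 0)
      rw [hm] at h1 ⊢
      rw [Nat.succ_sub_one] at h1
      rw [pow_succ, mul_comm]
      exact Nat.mul_le_mul_left _ h1.le
    by_cases hcase : 576 * ℓ ^ 2 ≤ d
    · have hmix : lam ^ (2 * ℓ) * Fintype.card V ≤ (d : ℝ) ^ (2 * ℓ) := by
        have hd0 : (0 : ℝ) ≤ d := Nat.cast_nonneg d
        have h1 : lam ^ (2 * ℓ) ≤ ((d : ℝ) / 64) ^ (2 * ℓ) := pow_le_pow_left₀ hlam hlam64 _
        have h2 : ((d : ℝ) / 64) ^ (2 * ℓ) * 4096 ^ ℓ = (d : ℝ) ^ (2 * ℓ) := by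
          have e : (4096 : ℝ) ^ ℓ = 64 ^ (2 * ℓ) := by
            rw [pow_mul]
            norm_num
          rw [e, ← mul_pow]
          congr 1
          field_simp
        have h3 : (Fintype.card V : ℝ) ≤ 4096 ^ ℓ := by
          have h4 : (Fintype.card V : ℝ) ≤ 1024 ^ ℓ := by exact_mod_cast hn1
          exact h4.trans (pow_le_pow_left₀ (by norm_num) (by norm_num) ℓ)
        calc lam ^ (2 * ℓ) * Fintype.card V
            ≤ ((d : ℝ) / 64) ^ (2 * ℓ) * 4096 ^ ℓ :=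
              mul_le_mul h1 h3 (Nat.cast_nonneg _) (by positivity)
          _ = (d : ℝ) ^ (2 * ℓ) := h2
      have hdeg : 144 * (2 * ℓ) ^ 2 ≤ d := by
        calc 144 * (2 * ℓ) ^ 2 = 576 * ℓ ^ 2 := by ring
          _ ≤ d := hcase
      have h := dense_spectral G d (2 * ℓ) lam hreg hlam hspec hmix hdeg
      calc {M : G.Subgraph | M.IsMatching ∧ M.verts.ncard + 2 = Fintype.card V}.ncard
          ≤ {M : G.Subgraph | M.IsMatching ∧ M.verts.ncard + 2 = Fintype.card V}.ncard * d :=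
            Nat.le_mul_of_pos_right _ hdpos
        _ ≤ Fintype.card V ^ 2 * {M : G.Subgraph | M.IsPerfectMatching}.ncard := h
        _ ≤ Fintype.card V ^ 3 * {M : G.Subgraph | M.IsPerfectMatching}.ncard :=
            Nat.mul_le_mul_right _ (Nat.pow_le_pow_right (by omega) (by norm_num))
    · obtain ⟨b, hb⟩ : ∃ b, b = Nat.log 2 d + 1 := ⟨_, rfl⟩
      have hd1 : d + 1 ≤ 2 ^ b := by
        rw [hb]
        exact Nat.lt_pow_succ_log_self (by norm_num) d
      have hd2 : 2 ^ (b - 1) ≤ d := by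
        rw [hb, Nat.add_sub_cancel]
        exact Nat.pow_log_le_self 2 (by omega)
      have hb21 : 21 ≤ b := by
        by_contra hcon
        have h1 : 2 ^ b ≤ 2 ^ 20 := Nat.pow_le_pow_right (by norm_num) (by omega)
        omega
      have hl : 2 * b ≤ ℓ := by
        by_contra hcon
        have h1 : ℓ ≤ 2 * b := by omega
        obtain ⟨k, hk⟩ := Nat.exists_eq_add_of_le hb21
        have h2 := sq_le_two_pow' k
        have e1 : b = k + 21 := by omega
        have e2 : b - 1 = k + 20 := by omega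
        rw [e2] at hd2
        have h3 : 576 * ℓ ^ 2 ≤ 576 * (2 * b) ^ 2 :=
          Nat.mul_le_mul_left _ (Nat.pow_le_pow_left h1 2)
        have e3 : 576 * (2 * b) ^ 2 = 2304 * (k + 21) ^ 2 := by
          rw [e1]
          ring
        omega
      calc {M : G.Subgraph | M.IsMatching ∧ M.verts.ncard + 2 = Fintype.card V}.ncard
          ≤ {g : V → V | ∃ u v, IsNPM G g u v}.ncard := hsub
        _ ≤ Fintype.card V ^ 3 * (PMs G).ncard :=
            npm_uniform_mid G hreg' hlam hlam64 hspec' hb21 hd1 hd2 hn1 hn2' hl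
        _ ≤ Fintype.card V ^ 3 * {M : G.Subgraph | M.IsPerfectMatching}.ncard :=
            Nat.mul_le_mul_left _ (perfect_le G)
  · have hempty : {g : V → V | ∃ u v, IsNPM G g u v} = ∅ := by
      apply Set.eq_empty_of_forall_notMem
      rintro g ⟨u, v, hn⟩
      exact hn2 (Fintype.one_lt_card_iff.mpr ⟨u, v, hn.1⟩)
    rw [hempty, Set.ncard_empty] at hsub
    have h0 : {M : G.Subgraph | M.IsMatching ∧ M.verts.ncard + 2 = Fintype.card V}.ncard = 0 :=
      Nat.le_zero.mp hsub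
    rw [h0]
    exact Nat.zero_le _

omit [DecidableEq V] in
/-- All positive degrees: the ratio is at most `n ^ 14`. -/
theorem uniform_all (d : ℕ) (lam : ℝ) (hd : 0 < d)
    (hreg : ∀ v : V, (G.neighborSet v).ncard = d) (hlam : 0 ≤ lam)
    (hspec : ∀ x : V → ℝ, ∑ v, x v = 0 →
      ∑ v, ((G.adjMatrix ℝ).mulVec x v) ^ 2 ≤ lam ^ 2 * ∑ v, x v ^ 2)
    (hlam64 : lam ≤ d / 64) :
    {M : G.Subgraph | M.IsMatching ∧ M.verts.ncard + 2 = Fintype.card V}.ncard
      ≤ Fintype.card V ^ 14 * {M : G.Subgraph | M.IsPerfectMatching}.ncard := by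
  classical
  have hreg' : G.IsRegularOfDegree d := by
    intro v
    rw [← G.card_neighborFinset_eq_degree, ← hreg v, ← Set.ncard_coe_finset,
      G.coe_neighborFinset]
  rcases isEmpty_or_nonempty V with hV | ⟨⟨v₀⟩⟩
  · have hempty : {M : G.Subgraph | M.IsMatching ∧ M.verts.ncard + 2 = Fintype.card V} = ∅ := by
      apply Set.eq_empty_of_forall_notMem
      rintro M ⟨_, hM⟩
      rw [Fintype.card_eq_zero] at hM
      omega
    rw [hempty, Set.ncard_empty]
    exact Nat.zero_le _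
  have hnpos : 0 < Fintype.card V := Fintype.card_pos_iff.mpr ⟨v₀⟩
  have hdn : d + 1 ≤ Fintype.card V := by
    have h1 := G.degree_lt_card_verts v₀
    rw [hreg'.degree_eq v₀] at h1
    omega
  by_cases hbig : 2 ^ 20 ≤ d
  · exact (uniform_big G d lam hreg hlam hspec hlam64 hbig).trans
      (Nat.mul_le_mul_right _ (Nat.pow_le_pow_right hnpos (by norm_num)))
  · have hsmall : (5 * ((11 : ℕ) : ℝ) + 4) * lam * (d + lam) ≤ (d : ℝ) ^ 2 := by
      have hd0 : (0 : ℝ) ≤ d := Nat.cast_nonneg d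
      have h1 : lam * (d + lam) ≤ ((d : ℝ) / 64) * (d + d / 64) :=
        mul_le_mul hlam64 (by linarith) (by linarith) (by positivity)
      have e : ((d : ℝ) / 64) * (d + d / 64) = 65 / 4096 * (d : ℝ) ^ 2 := by ring
      rw [e] at h1
      have h2 : (0 : ℝ) ≤ (d : ℝ) ^ 2 := by positivity
      push_cast
      nlinarith
    have h := spectral_ratio' G d 11 lam (by norm_num) hd hreg hlam hspec hsmall
    obtain ⟨L, hL⟩ : ∃ L, L = Nat.log 11 (Fintype.card V) := ⟨_, rfl⟩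
    rw [← hL] at h
    have hL1 : 11 ^ L ≤ Fintype.card V := by
      rw [hL]
      exact Nat.pow_log_le_self 11 (by omega)
    have hd11 : d + 1 ≤ 11 ^ 6 := by
      have : (2 : ℕ) ^ 20 ≤ 11 ^ 6 := by norm_num
      omega
    have hpow : (d + 1) ^ (2 * L + 1) ≤ Fintype.card V ^ 13 := by
      calc (d + 1) ^ (2 * L + 1) = (d + 1) ^ (2 * L) * (d + 1) := pow_succ _ _
        _ ≤ (11 ^ 6) ^ (2 * L) * Fintype.card V :=
            Nat.mul_le_mul (Nat.pow_le_pow_left hd11 _) hdn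
        _ = (11 ^ L) ^ 12 * Fintype.card V := by
            rw [← pow_mul, ← pow_mul]
            congr 2
            ring
        _ ≤ Fintype.card V ^ 12 * Fintype.card V :=
            Nat.mul_le_mul_right _ (Nat.pow_le_pow_left hL1 _)
        _ = Fintype.card V ^ 13 := by ring
    calc {M : G.Subgraph | M.IsMatching ∧ M.verts.ncard + 2 = Fintype.card V}.ncard
        ≤ Fintype.card V * (d + 1) ^ (2 * L + 1)
          * {M : G.Subgraph | M.IsPerfectMatching}.ncard := h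
      _ ≤ Fintype.card V * Fintype.card V ^ 13
          * {M : G.Subgraph | M.IsPerfectMatching}.ncard :=
          Nat.mul_le_mul_right _ (Nat.mul_le_mul_left _ hpow)
      _ = Fintype.card V ^ 14 * {M : G.Subgraph | M.IsPerfectMatching}.ncard := by ring

end Vale.Agent.Lib.P308.H27
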